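import Vale.Agent.P141.H922.PairW
import Vale.Agent.P141.H769.MomCell
import Vale.Agent.P141.PL.H571.Max

/-!
# P141, line W, scale-invariant version: transfer from cubes and windows to boxes

* `n2_box12` .. `nN_box23`: the norms of the edge functions on a box are the norms on the squares;
* `pw3_box`: the pair weight of a box in terms of the three squares;
* `unifP_of_cube`, `unifP_of_dot`, `unifP_lft`, `unifP_lift`: uniformity with the pair weight on a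
  cube of the grid (resp. uniformity on the line against push-forwards) gives the edge form of the
  uniformity on the box;
* `line1_lft` .. `line3_lft`, `line1_win` .. `line3_win`: line averages of the squares of a lift
  from the window energy, three directions.
-/

namespace Vale.Agent.P141.H944

noncomputable section

open scoped BigOperators
open Finset
open Vale.Agent.P141.H315
open Vale.Agent.P141.PL.H315 (cube3 mem_cube3 card_cube3 card_cube3_pos atm e12 e13 e23 Tri avg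
  avg_nonneg)
open Vale.Agent.P141.PL.H318 (a1 dot_a1)
open Vale.Agent.P141.H550 (avg_prod avg_comm avg_const avg_congr)
open Vale.Agent.P141.H769 (lft)
open Vale.Agent.P141.H922 (n2 n4 nN pw3 wP)
open Vale.Agent.P141.PL (el fc lift)

/-! ### Averages of edge functions on a box -/

theorem avg_box12 {A B C : Finset ℤ} (hC : C.Nonempty) (f : ℤ × ℤ → ℝ) :
    (avg (A ×ˢ B ×ˢ C) fun q => f (q.1, q.2.1)) = avg (A ×ˢ B) f := by
  rw [avg_prod, avg_prod]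
  refine avg_congr fun x _ => ?_
  rw [avg_prod]
  exact avg_congr fun y _ => avg_const hC (f (x, y))

theorem avg_box13 {A B C : Finset ℤ} (hB : B.Nonempty) (f : ℤ × ℤ → ℝ) :
    (avg (A ×ˢ B ×ˢ C) fun q => f (q.1, q.2.2)) = avg (A ×ˢ C) f := by
  rw [avg_prod, avg_prod]
  refine avg_congr fun x _ => ?_
  rw [avg_prod]
  exact avg_const hB (avg C fun y => f (x, y))

theorem avg_box23 {A B C : Finset ℤ} (hA : A.Nonempty) (f : ℤ × ℤ → ℝ) :
    (avg (A ×ˢ B ×ˢ C) fun q => f (q.2.1, q.2.2)) = avg (B ×ˢ C) f := by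
  rw [avg_prod]
  exact avg_const hA (avg (B ×ˢ C) f)

section norms

variable {A B C : Finset ℤ}

theorem n2_box12 (hC : C.Nonempty) (u : ℤ × ℤ → ℝ) : n2 (A ×ˢ B ×ˢ C) (e12 u) = n2 (A ×ˢ B) u := by
  unfold n2
  rw [← avg_box12 hC fun q => u q ^ 2]; rfl

theorem n2_box13 (hB : B.Nonempty) (u : ℤ × ℤ → ℝ) : n2 (A ×ˢ B ×ˢ C) (e13 u) = n2 (A ×ˢ C) u := by
  unfold n2
  rw [← avg_box13 hB fun q => u q ^ 2]; rfl

theorem n2_box23 (hA : A.Nonempty) (u : ℤ × ℤ → ℝ) : n2 (A ×ˢ B ×ˢ C) (e23 u) = n2 (B ×ˢ C) u := by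
  unfold n2
  rw [← avg_box23 hA fun q => u q ^ 2]; rfl

theorem n4_box12 (hC : C.Nonempty) (u : ℤ × ℤ → ℝ) : n4 (A ×ˢ B ×ˢ C) (e12 u) = n4 (A ×ˢ B) u := by
  unfold n4
  rw [← avg_box12 hC fun q => u q ^ 4]; rfl

theorem n4_box13 (hB : B.Nonempty) (u : ℤ × ℤ → ℝ) : n4 (A ×ˢ B ×ˢ C) (e13 u) = n4 (A ×ˢ C) u := by
  unfold n4
  rw [← avg_box13 hB fun q => u q ^ 4]; rfl

theorem n4_box23 (hA : A.Nonempty) (u : ℤ × ℤ → ℝ) : n4 (A ×ˢ B ×ˢ C) (e23 u) = n4 (B ×ˢ C) u := by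
  unfold n4
  rw [← avg_box23 hA fun q => u q ^ 4]; rfl

theorem nN_box12 (hC : C.Nonempty) (u : ℤ × ℤ → ℝ) : nN (A ×ˢ B ×ˢ C) (e12 u) = nN (A ×ˢ B) u := by
  unfold nN; rw [n2_box12 hC, n4_box12 hC]

theorem nN_box13 (hB : B.Nonempty) (u : ℤ × ℤ → ℝ) : nN (A ×ˢ B ×ˢ C) (e13 u) = nN (A ×ˢ C) u := by
  unfold nN; rw [n2_box13 hB, n4_box13 hB]

theorem nN_box23 (hA : A.Nonempty) (u : ℤ × ℤ → ℝ) : nN (A ×ˢ B ×ˢ C) (e23 u) = nN (B ×ˢ C) u := by
  unfold nN; rw [n2_box23 hA, n4_box23 hA]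

/-- the pair weight of a box in terms of the norms on the three squares -/
theorem pw3_box (hA : A.Nonempty) (hB : B.Nonempty) (hC : C.Nonempty) (u : Tri) :
    pw3 (A ×ˢ B ×ˢ C) u =
      nN (A ×ˢ B) u.1 * nN (A ×ˢ C) u.2.1 * n2 (B ×ˢ C) u.2.2 +
        nN (A ×ˢ B) u.1 * nN (B ×ˢ C) u.2.2 * n2 (A ×ˢ C) u.2.1 +
        nN (A ×ˢ C) u.2.1 * nN (B ×ˢ C) u.2.2 * n2 (A ×ˢ B) u.1 := by
  unfold pw3
  rw [nN_box12 hC, nN_box13 hB, nN_box23 hA, n2_box12 hC, n2_box13 hB, n2_box23 hA]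

end norms

/-- the pair weight of a cube of the grid in terms of the norms on the three squares -/
theorem pw3_cube (k : ℕ) (p : ℤ × ℤ × ℤ) (u : Tri) :
    pw3 (cube3 k p) u =
      nN (PL.H315.iv k p.1 ×ˢ PL.H315.iv k p.2.1) u.1 *
          nN (PL.H315.iv k p.1 ×ˢ PL.H315.iv k p.2.2) u.2.1 *
          n2 (PL.H315.iv k p.2.1 ×ˢ PL.H315.iv k p.2.2) u.2.2 +
        nN (PL.H315.iv k p.1 ×ˢ PL.H315.iv k p.2.1) u.1 *
          nN (PL.H315.iv k p.2.1 ×ˢ PL.H315.iv k p.2.2) u.2.2 *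
          n2 (PL.H315.iv k p.1 ×ˢ PL.H315.iv k p.2.2) u.2.1 +
        nN (PL.H315.iv k p.1 ×ˢ PL.H315.iv k p.2.2) u.2.1 *
          nN (PL.H315.iv k p.2.1 ×ˢ PL.H315.iv k p.2.2) u.2.2 *
          n2 (PL.H315.iv k p.1 ×ˢ PL.H315.iv k p.2.1) u.1 :=
  pw3_box ⟨_, PL.H315.self_mem_iv _ _⟩ ⟨_, PL.H315.self_mem_iv _ _⟩
    ⟨_, PL.H315.self_mem_iv _ _⟩ u

/-! ### Uniformity -/

/-- The uniformity of a function on a box with the pair weight, edge form (the three terms). -/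
def UnifB (d : ℝ) (A B C : Finset ℤ) (G : ℤ × ℤ × ℤ → ℝ) : Prop :=
  ∀ u : Tri, |avg (A ×ˢ B ×ˢ C) (fun q => G q * atm u q)| ≤
    d * (nN (A ×ˢ B) u.1 * nN (A ×ˢ C) u.2.1 * n2 (B ×ˢ C) u.2.2 +
      nN (A ×ˢ B) u.1 * nN (B ×ˢ C) u.2.2 * n2 (A ×ˢ C) u.2.1 +
      nN (A ×ˢ C) u.2.1 * nN (B ×ˢ C) u.2.2 * n2 (A ×ˢ B) u.1)

/-- uniformity on a cube, normalised -/
theorem unifB_of_cube {d : ℝ} {k : ℕ} {p : ℤ × ℤ × ℤ} {G : ℤ × ℤ × ℤ → ℝ}
    (h : ∀ u : Tri, |avg (cube3 k p) (fun q => G q * atm u q)| ≤ d * pw3 (cube3 k p) u) :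
    UnifB d (PL.H315.iv k p.1) (PL.H315.iv k p.2.1) (PL.H315.iv k p.2.2) G := by
  intro u
  have h1 := h u
  rw [pw3_cube] at h1
  exact h1

/-- uniformity on a cube as a sum against the weight `wP` -/
theorem unifB_of_sum {d : ℝ} {k : ℕ} {p : ℤ × ℤ × ℤ} {G : ℤ × ℤ × ℤ → ℝ}
    (h : ∀ u : Tri, |∑ q ∈ cube3 k p, G q * atm u q| ≤ wP d (cube3 k p) u) :
    UnifB d (PL.H315.iv k p.1) (PL.H315.iv k p.2.1) (PL.H315.iv k p.2.2) G := by
  refine unifB_of_cube fun u => ?_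
  have h1 := h u
  have hc := card_cube3_pos k p
  unfold avg
  rw [abs_mul, abs_of_nonneg (inv_nonneg.mpr hc.le), inv_mul_le_iff₀ hc]
  refine h1.trans (le_of_eq ?_)
  unfold wP
  ring

/-- uniformity on the line against the push-forwards of the products on one cube is the
uniformity of the lift cut to the cell -/
theorem unifB_lft {d : ℝ} {k : ℕ} {c q : ℤ × ℤ × ℤ} {J : Finset ℤ} {O : ℤ → ℝ}
    (h : ∀ u : Tri, |dot J O (a1 c k (q, u))| ≤ wP d (cube3 k q) u) :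
    UnifB d (PL.H315.iv k q.1) (PL.H315.iv k q.2.1) (PL.H315.iv k q.2.2) (lft c J O) := by
  refine unifB_of_sum fun u => ?_
  have h1 := h u
  rw [dot_a1] at h1
  have h2 : ∑ y ∈ cube3 k q, lft c J O y * atm u y =
      ∑ y ∈ cube3 k q, (if el c y ∈ J then O (el c y) * atm u y else 0) := by
    refine Finset.sum_congr rfl fun y _ => ?_
    unfold lft
    split_ifs <;> simp
  rw [h2]
  exact h1

/-- the same, whole lift, when the image of the cube is in the cell -/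
theorem unifB_lift {d : ℝ} {k : ℕ} {c q : ℤ × ℤ × ℤ} {J : Finset ℤ} {O : ℤ → ℝ}
    (hJ : ∀ y ∈ cube3 k q, el c y ∈ J)
    (h : ∀ u : Tri, |dot J O (a1 c k (q, u))| ≤ wP d (cube3 k q) u) :
    UnifB d (PL.H315.iv k q.1) (PL.H315.iv k q.2.1) (PL.H315.iv k q.2.2) (fun p => O (el c p)) := by
  refine unifB_of_sum fun u => ?_
  have h1 := h u
  rw [dot_a1] at h1
  have h2 : ∑ y ∈ cube3 k q, O (el c y) * atm u y =
      ∑ y ∈ cube3 k q, (if el c y ∈ J then O (el c y) * atm u y else 0) := by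
    refine Finset.sum_congr rfl fun y hy => ?_
    rw [if_pos (hJ y hy)]
  rw [h2]
  exact h1

/-- the level may be enlarged -/
theorem UnifB.mono {d d' : ℝ} (hd : d ≤ d') {A B C : Finset ℤ} {G : ℤ × ℤ × ℤ → ℝ}
    (h : UnifB d A B C G) : UnifB d' A B C G := by
  intro u
  refine (h u).trans (mul_le_mul_of_nonneg_right hd ?_)
  have := H922.nN_nonneg (A ×ˢ B) u.1
  have := H922.nN_nonneg (A ×ˢ C) u.2.1
  have := H922.nN_nonneg (B ×ˢ C) u.2.2
  have := H922.n2_nonneg (A ×ˢ B) u.1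
  have := H922.n2_nonneg (A ×ˢ C) u.2.1
  have := H922.n2_nonneg (B ×ˢ C) u.2.2
  positivity

/-- only the values on the box matter -/
theorem UnifB.congr {d : ℝ} {A B C : Finset ℤ} {G G' : ℤ × ℤ × ℤ → ℝ}
    (h : UnifB d A B C G) (hG : ∀ q ∈ A ×ˢ B ×ˢ C, G' q = G q) : UnifB d A B C G' := by
  intro u
  rw [avg_congr fun q hq => by rw [hG q hq]]
  exact h u

/-! ### Line averages -/

section lines

variable {c : ℤ × ℤ × ℤ} {J : Finset ℤ} {O : ℤ → ℝ}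

/-- the squares of a lift along an injective path are part of the energy of the cell -/
theorem sum_path_le (J : Finset ℤ) (O : ℤ → ℝ) (S : Finset ℤ) (φ : ℤ → ℤ)
    (hφ : ∀ a b, φ a = φ b → a = b) :
    ∑ z ∈ S, (if φ z ∈ J then O (φ z) else 0) ^ 2 ≤ dot J O O := by
  have h1 : ∑ z ∈ S, (if φ z ∈ J then O (φ z) else 0) ^ 2 =
      ∑ z ∈ S.filter (fun z => φ z ∈ J), O (φ z) * O (φ z) := by
    rw [Finset.sum_filter]
    refine Finset.sum_congr rfl fun z _ => ?_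
    split_ifs <;> ring
  rw [h1, ← Finset.sum_image (f := fun r => O r * O r) (fun a _ b _ h => hφ a b h)]
  unfold dot
  refine Finset.sum_le_sum_of_subset_of_nonneg ?_ fun _ _ _ => mul_self_nonneg _
  intro r hr
  rw [Finset.mem_image] at hr
  obtain ⟨z, hz, rfl⟩ := hr
  exact (Finset.mem_filter.mp hz).2

theorem inj1 (hc : c.1 ≠ 0) (x y : ℤ) (a b : ℤ) (h : el c (a, x, y) = el c (b, x, y)) : a = b := by
  simp only [el] at h
  exact mul_left_cancel₀ hc (by linarith)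

theorem inj2 (hc : c.2.1 ≠ 0) (x y : ℤ) (a b : ℤ) (h : el c (x, a, y) = el c (x, b, y)) :
    a = b := by
  simp only [el] at h
  exact mul_left_cancel₀ hc (by linarith)

theorem inj3 (hc : c.2.2 ≠ 0) (x y : ℤ) (a b : ℤ) (h : el c (x, y, a) = el c (x, y, b)) :
    a = b := by
  simp only [el] at h
  exact mul_left_cancel₀ hc (by linarith)

/-- line sums of the cut lift, first direction (any finite set of points of the line) -/
theorem line1_lft (hc : c.1 ≠ 0) (J : Finset ℤ) (O : ℤ → ℝ) (S : Finset ℤ) (x y : ℤ) :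
    ∑ z ∈ S, lft c J O (z, x, y) ^ 2 ≤ dot J O O :=
  sum_path_le J O S (fun z => el c (z, x, y)) (inj1 hc x y)

theorem line2_lft (hc : c.2.1 ≠ 0) (J : Finset ℤ) (O : ℤ → ℝ) (S : Finset ℤ) (x y : ℤ) :
    ∑ z ∈ S, lft c J O (x, z, y) ^ 2 ≤ dot J O O :=
  sum_path_le J O S (fun z => el c (x, z, y)) (inj2 hc x y)

theorem line3_lft (hc : c.2.2 ≠ 0) (J : Finset ℤ) (O : ℤ → ℝ) (S : Finset ℤ) (x y : ℤ) :
    ∑ z ∈ S, lft c J O (x, y, z) ^ 2 ≤ dot J O O :=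
  sum_path_le J O S (fun z => el c (x, y, z)) (inj3 hc x y)

/-- from a sum over an interval of the grid to its average -/
theorem avg_iv_le {k : ℕ} {s : ℤ} {f : ℤ → ℝ} {E : ℝ}
    (h : ∑ z ∈ PL.H315.iv k s, f z ≤ E * 2 ^ k) : avg (PL.H315.iv k s) f ≤ E := by
  unfold avg
  rw [PL.H315.card_iv]
  push_cast
  rw [inv_mul_le_iff₀ (by positivity)]
  linarith

/-- **line averages of the cut lift**, three directions: energy of the cell at most `E 2 ^ k` -/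
theorem avg1_lft {k : ℕ} {E : ℝ} (hc : c.1 ≠ 0) (hE : dot J O O ≤ E * 2 ^ k) (s x y : ℤ) :
    (avg (PL.H315.iv k s) fun z => lft c J O (z, x, y) ^ 2) ≤ E :=
  avg_iv_le ((line1_lft hc J O _ x y).trans hE)

@[inherit_doc avg1_lft]
theorem avg2_lft {k : ℕ} {E : ℝ} (hc : c.2.1 ≠ 0) (hE : dot J O O ≤ E * 2 ^ k) (s x y : ℤ) :
    (avg (PL.H315.iv k s) fun z => lft c J O (x, z, y) ^ 2) ≤ E :=
  avg_iv_le ((line2_lft hc J O _ x y).trans hE)

@[inherit_doc avg1_lft]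
theorem avg3_lft {k : ℕ} {E : ℝ} (hc : c.2.2 ≠ 0) (hE : dot J O O ≤ E * 2 ^ k) (s x y : ℤ) :
    (avg (PL.H315.iv k s) fun z => lft c J O (x, y, z) ^ 2) ≤ E :=
  avg_iv_le ((line3_lft hc J O _ x y).trans hE)

/-- the whole lift on a path with values in the cell -/
theorem sum_path_win (J : Finset ℤ) (O : ℤ → ℝ) (S : Finset ℤ) (φ : ℤ → ℤ)
    (hφ : ∀ a b, φ a = φ b → a = b) (hJ : ∀ z ∈ S, φ z ∈ J) :
    ∑ z ∈ S, O (φ z) ^ 2 ≤ dot J O O := by
  refine le_trans (le_of_eq ?_) (sum_path_le J O S φ hφ)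
  refine Finset.sum_congr rfl fun z hz => ?_
  rw [if_pos (hJ z hz)]

/-- **line averages of the whole lift**, three directions: the image of the cube is in the cell
`J`, the energy of the cell is at most `E 2 ^ k` -/
theorem avg1_win {k : ℕ} {E : ℝ} {q : ℤ × ℤ × ℤ} (hc : c.1 ≠ 0)
    (hJ : ∀ y ∈ cube3 k q, el c y ∈ J) (hE : dot J O O ≤ E * 2 ^ k) {x y : ℤ}
    (hx : x ∈ PL.H315.iv k q.2.1) (hy : y ∈ PL.H315.iv k q.2.2) :
    (avg (PL.H315.iv k q.1) fun z => O (el c (z, x, y)) ^ 2) ≤ E :=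
  avg_iv_le ((sum_path_win J O _ (fun z => el c (z, x, y)) (inj1 hc x y)
    fun _ hz => hJ _ (mem_cube3.mpr ⟨hz, hx, hy⟩)).trans hE)

@[inherit_doc avg1_win]
theorem avg2_win {k : ℕ} {E : ℝ} {q : ℤ × ℤ × ℤ} (hc : c.2.1 ≠ 0)
    (hJ : ∀ y ∈ cube3 k q, el c y ∈ J) (hE : dot J O O ≤ E * 2 ^ k) {x y : ℤ}
    (hx : x ∈ PL.H315.iv k q.1) (hy : y ∈ PL.H315.iv k q.2.2) :
    (avg (PL.H315.iv k q.2.1) fun z => O (el c (x, z, y)) ^ 2) ≤ E :=
  avg_iv_le ((sum_path_win J O _ (fun z => el c (x, z, y)) (inj2 hc x y)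
    fun _ hz => hJ _ (mem_cube3.mpr ⟨hx, hz, hy⟩)).trans hE)

@[inherit_doc avg1_win]
theorem avg3_win {k : ℕ} {E : ℝ} {q : ℤ × ℤ × ℤ} (hc : c.2.2 ≠ 0)
    (hJ : ∀ y ∈ cube3 k q, el c y ∈ J) (hE : dot J O O ≤ E * 2 ^ k) {x y : ℤ}
    (hx : x ∈ PL.H315.iv k q.1) (hy : y ∈ PL.H315.iv k q.2.1) :
    (avg (PL.H315.iv k q.2.2) fun z => O (el c (x, y, z)) ^ 2) ≤ E :=
  avg_iv_le ((sum_path_win J O _ (fun z => el c (x, y, z)) (inj3 hc x y)
    fun _ hz => hJ _ (mem_cube3.mpr ⟨hx, hy, hz⟩)).trans hE)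

/-- all coefficients of all faces are nonzero -/
theorem fc_ne (j : Fin 4) : (fc j).1 ≠ 0 ∧ (fc j).2.1 ≠ 0 ∧ (fc j).2.2 ≠ 0 := by
  fin_cases j <;> simp [fc]

/-- energy of a cell of the grid with the cells of length `2 ^ (k + c0)`: local energy `e` gives
the constant `2 ^ c0 * e` -/
theorem energy_gr {c0 : ℕ} {s : ℤ} {k : ℕ} {x : ℤ} {e : ℝ}
    (h : dot ((PL.H95.gr c0 s).cube k x) O O ≤ e * ((PL.H95.gr c0 s).cube k x).card) :
    dot ((PL.H95.gr c0 s).cube k x) O O ≤ (2 ^ c0 * e) * 2 ^ k := by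
  refine h.trans (le_of_eq ?_)
  rw [PL.H95.card_gr]
  push_cast
  rw [pow_add]
  ring

/-- energy of the window of a node -/
theorem energy_W {k : ℕ} {v : ℤ} {e : ℝ}
    (h : ∑ y ∈ PL.H571.W k v, O y ^ 2 ≤ e * 2 ^ (k + 5)) :
    dot (PL.H571.W k v) O O ≤ (32 * e) * 2 ^ k := by
  unfold dot
  refine le_trans (le_of_eq ?_) (h.trans (le_of_eq ?_))
  · exact Finset.sum_congr rfl fun y _ => by ring
  · rw [pow_add]
    ring

end lines

end

end Vale.Agent.P141.H944
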