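import Vale.Agent.P141.H944.BoxP
import Vale.Agent.P141.H834.CntP

/-!
# P141, line W: `UnifP` and `LineB` on the boxes of the grid from the line

`UnifP` and `LineB` (H834/CntP) on the box of a cube of the grid, for the cut lift `lft c J O` and
for the whole lift `fun p => O (el c p)`, from the uniformity of `O` on the cell `J` against the
push-forwards of the product functions on the cube and from the energy of the cell.
-/

namespace Vale.Agent.P141.H944

noncomputable section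

open scoped BigOperators
open Finset
open Vale.Agent.P141.H315
open Vale.Agent.P141.PL.H315 (cube3 mem_cube3 card_cube3 card_cube3_pos atm Tri avg)
open Vale.Agent.P141.PL.H318 (a1)
open Vale.Agent.P141.H769 (lft)
open Vale.Agent.P141.H922 (pw3 wP)
open Vale.Agent.P141.H834 (UnifP LineB)
open Vale.Agent.P141.PL (el fc)

variable {d E : ℝ} {k : ℕ} {c q : ℤ × ℤ × ℤ} {J : Finset ℤ} {O : ℤ → ℝ}

theorem unifP_iff {A B C : Finset ℤ} {G : ℤ × ℤ × ℤ → ℝ} :
    UnifP d A B C G ↔ UnifB d A B C G := Iff.rfl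

/-- uniformity on a cube, normalised -/
theorem unifP_of_cube {G : ℤ × ℤ × ℤ → ℝ}
    (h : ∀ u : Tri, |avg (cube3 k q) (fun p => G p * atm u p)| ≤ d * pw3 (cube3 k q) u) :
    UnifP d (PL.H315.iv k q.1) (PL.H315.iv k q.2.1) (PL.H315.iv k q.2.2) G :=
  unifB_of_cube h

/-- uniformity on a cube as a sum against the weight `wP` -/
theorem unifP_of_sum {G : ℤ × ℤ × ℤ → ℝ}
    (h : ∀ u : Tri, |∑ p ∈ cube3 k q, G p * atm u p| ≤ wP d (cube3 k q) u) :
    UnifP d (PL.H315.iv k q.1) (PL.H315.iv k q.2.1) (PL.H315.iv k q.2.2) G :=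
  unifB_of_sum h

/-- uniformity of the cut lift -/
theorem unifP_lft (h : ∀ u : Tri, |dot J O (a1 c k (q, u))| ≤ wP d (cube3 k q) u) :
    UnifP d (PL.H315.iv k q.1) (PL.H315.iv k q.2.1) (PL.H315.iv k q.2.2) (lft c J O) :=
  unifB_lft h

/-- uniformity of the whole lift, image of the cube in the cell -/
theorem unifP_lift (hJ : ∀ y ∈ cube3 k q, el c y ∈ J)
    (h : ∀ u : Tri, |dot J O (a1 c k (q, u))| ≤ wP d (cube3 k q) u) :
    UnifP d (PL.H315.iv k q.1) (PL.H315.iv k q.2.1) (PL.H315.iv k q.2.2) (fun p => O (el c p)) :=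
  unifB_lift hJ h

/-- the level may be enlarged -/
theorem unifP_mono {d' : ℝ} (hd : d ≤ d') {A B C : Finset ℤ} {G : ℤ × ℤ × ℤ → ℝ}
    (h : UnifP d A B C G) : UnifP d' A B C G :=
  UnifB.mono hd h

/-- only the values on the box matter -/
theorem unifP_congr {A B C : Finset ℤ} {G G' : ℤ × ℤ × ℤ → ℝ}
    (h : UnifP d A B C G) (hG : ∀ p ∈ A ×ˢ B ×ˢ C, G' p = G p) : UnifP d A B C G' :=
  UnifB.congr h hG

/-- **line averages of the cut lift** -/
theorem lineB_lft (h1 : c.1 ≠ 0) (h2 : c.2.1 ≠ 0) (h3 : c.2.2 ≠ 0)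
    (hE : dot J O O ≤ E * 2 ^ k) :
    LineB E (PL.H315.iv k q.1) (PL.H315.iv k q.2.1) (PL.H315.iv k q.2.2) (lft c J O) where
  l1 y _ z _ := avg1_lft h1 hE q.1 y z
  l2 x _ z _ := avg2_lft h2 hE q.2.1 x z
  l3 x _ y _ := avg3_lft h3 hE q.2.2 x y

/-- **line averages of the whole lift**, image of the cube in the cell -/
theorem lineB_lift (h1 : c.1 ≠ 0) (h2 : c.2.1 ≠ 0) (h3 : c.2.2 ≠ 0)
    (hJ : ∀ y ∈ cube3 k q, el c y ∈ J) (hE : dot J O O ≤ E * 2 ^ k) :
    LineB E (PL.H315.iv k q.1) (PL.H315.iv k q.2.1) (PL.H315.iv k q.2.2)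
      (fun p => O (el c p)) where
  l1 _ hy _ hz := avg1_win h1 hJ hE hy hz
  l2 _ hx _ hz := avg2_win h2 hJ hE hx hz
  l3 _ hx _ hy := avg3_win h3 hJ hE hx hy

/-- the bound may be enlarged -/
theorem lineB_mono {E' : ℝ} (hE : E ≤ E') {A B C : Finset ℤ} {G : ℤ × ℤ × ℤ → ℝ}
    (h : LineB E A B C G) : LineB E' A B C G where
  l1 y hy z hz := (h.l1 y hy z hz).trans hE
  l2 x hx z hz := (h.l2 x hx z hz).trans hE
  l3 x hx y hy := (h.l3 x hx y hy).trans hE

/-- only the values on the box matter -/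
theorem lineB_congr {A B C : Finset ℤ} {G G' : ℤ × ℤ × ℤ → ℝ}
    (h : LineB E A B C G) (hG : ∀ p ∈ A ×ˢ B ×ˢ C, G' p = G p) : LineB E A B C G' where
  l1 y hy z hz := by
    rw [H550.avg_congr fun x hx => by
      rw [hG (x, y, z) (mem_product.2 ⟨hx, mem_product.2 ⟨hy, hz⟩⟩)]]
    exact h.l1 y hy z hz
  l2 x hx z hz := by
    rw [H550.avg_congr fun y hy => by
      rw [hG (x, y, z) (mem_product.2 ⟨hx, mem_product.2 ⟨hy, hz⟩⟩)]]
    exact h.l2 x hx z hz
  l3 x hx y hy := by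
    rw [H550.avg_congr fun z hz => by
      rw [hG (x, y, z) (mem_product.2 ⟨hx, mem_product.2 ⟨hy, hz⟩⟩)]]
    exact h.l3 x hx y hy

/-- **the two hypotheses of the count lemma on a cell of the grid**: `O` is `d`-uniform on the cell
`J = (gr c0 s).cube k x` against the cube of `q` and has local energy at most `e` on it -/
theorem unifP_lineB_gr {c0 : ℕ} {s x : ℤ} {e : ℝ}
    (h1 : c.1 ≠ 0) (h2 : c.2.1 ≠ 0) (h3 : c.2.2 ≠ 0)
    (hU : ∀ u : Tri, |dot ((PL.H95.gr c0 s).cube k x) O (a1 c k (q, u))| ≤ wP d (cube3 k q) u)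
    (hE : dot ((PL.H95.gr c0 s).cube k x) O O ≤ e * ((PL.H95.gr c0 s).cube k x).card) :
    UnifP d (PL.H315.iv k q.1) (PL.H315.iv k q.2.1) (PL.H315.iv k q.2.2)
        (lft c ((PL.H95.gr c0 s).cube k x) O) ∧
      LineB (2 ^ c0 * e) (PL.H315.iv k q.1) (PL.H315.iv k q.2.1) (PL.H315.iv k q.2.2)
        (lft c ((PL.H95.gr c0 s).cube k x) O) :=
  ⟨unifP_lft hU, lineB_lft h1 h2 h3 (energy_gr hE)⟩

end

end Vale.Agent.P141.H944
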