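import Vale.Agent.P141.H944.BoxT
import Vale.Agent.P141.H238.GDef
import Vale.Agent.P141.H573.MomPerm

/-!
# P141, line W, weight `W_g`: the box form

* `v2_box1`, `v2_box2`, `v2_box3`: the three vertex averages of a box as iterated averages;
* `pG_six`: the density of `W_g` is the sixth root of the product of six averages; `pG_le_six`;
* `UnifG d A B C G`: uniformity on a box with the weight `W_g`; `unifG_test`: the test with the six
  bounds; `UnifG.mono`, `UnifG.congr`, the permutations of the three variables;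
* `unifG_of_cube`, `unifG_of_sum`, `unifG_lft`, `unifG_lift`: transfer from the cubes of the grid
  and from the line.
-/

namespace Vale.Agent.P141.H944

noncomputable section

open scoped BigOperators
open Finset
open Vale.Agent.P141.H315
open Vale.Agent.P141.PL.H315 (cube3 mem_cube3 card_cube3 card_cube3_pos atm e12 e13 e23 Tri avg
  avg_nonneg)
open Vale.Agent.P141.PL.H318 (a1 dot_a1)
open Vale.Agent.P141.H550 (avg_prod avg_comm avg_const avg_congr avg_mul_left avg_mul_right)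
open Vale.Agent.P141.H573 (avg_swap avg3_swap12 avg3_swap23 n2_swap)
open Vale.Agent.P141.H769 (lft)
open Vale.Agent.P141.H922 (n2 n2_nonneg n2_sq)
open Vale.Agent.P141.H238 (v2 v2_nonneg v2_comm pG pG_nonneg wG)
open Vale.Agent.P141.PL (el fc)

/-! ### The six averages -/

section six

variable {A B C : Finset ℤ}

/-- vertex `1`: edges `12` and `13` -/
theorem v2_box1 (A B C : Finset ℤ) (a b : ℤ × ℤ → ℝ) :
    v2 (A ×ˢ B ×ˢ C) (e12 a) (e13 b) =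
      avg A fun x => (avg B fun y => a (x, y) ^ 2) * avg C fun z => b (x, z) ^ 2 := by
  unfold v2
  rw [avg_prod]
  refine avg_congr fun x _ => ?_
  rw [avg_prod, ← avg_mul_right]
  refine avg_congr fun y _ => ?_
  rw [← avg_mul_left]
  rfl

/-- vertex `2`: edges `12` and `23` -/
theorem v2_box2 (A B C : Finset ℤ) (a c : ℤ × ℤ → ℝ) :
    v2 (A ×ˢ B ×ˢ C) (e12 a) (e23 c) =
      avg B fun y => (avg A fun x => a (x, y) ^ 2) * avg C fun z => c (y, z) ^ 2 := by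
  unfold v2
  rw [avg_prod]
  have h : (avg A fun x => avg (B ×ˢ C) fun q => e12 a (x, q) ^ 2 * e23 c (x, q) ^ 2) =
      avg A fun x => avg B fun y => avg C fun z => a (x, y) ^ 2 * c (y, z) ^ 2 :=
    avg_congr fun x _ => avg_prod _ _ _
  rw [h, avg_comm]
  refine avg_congr fun y _ => ?_
  rw [← avg_mul_right]
  refine avg_congr fun x _ => ?_
  rw [← avg_mul_left]

/-- vertex `3`: edges `13` and `23` -/
theorem v2_box3 (A B C : Finset ℤ) (b c : ℤ × ℤ → ℝ) :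
    v2 (A ×ˢ B ×ˢ C) (e13 b) (e23 c) =
      avg C fun z => (avg A fun x => b (x, z) ^ 2) * avg B fun y => c (y, z) ^ 2 := by
  unfold v2
  rw [avg_prod]
  have h : (avg A fun x => avg (B ×ˢ C) fun q => e13 b (x, q) ^ 2 * e23 c (x, q) ^ 2) =
      avg A fun x => avg C fun z => avg B fun y => b (x, z) ^ 2 * c (y, z) ^ 2 :=
    avg_congr fun x _ => by
      rw [avg_prod, avg_comm]
      rfl
  rw [h, avg_comm]
  refine avg_congr fun z _ => ?_
  rw [← avg_mul_right]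
  refine avg_congr fun x _ => ?_
  rw [← avg_mul_left]

/-- the product of the six averages -/
def six (A B C : Finset ℤ) (u : Tri) : ℝ :=
  (avg A fun x => avg B fun y => u.1 (x, y) ^ 2) *
    (avg A fun x => avg C fun z => u.2.1 (x, z) ^ 2) *
    (avg B fun y => avg C fun z => u.2.2 (y, z) ^ 2) *
    (avg A fun x => (avg B fun y => u.1 (x, y) ^ 2) * avg C fun z => u.2.1 (x, z) ^ 2) *
    (avg B fun y => (avg A fun x => u.1 (x, y) ^ 2) * avg C fun z => u.2.2 (y, z) ^ 2) *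
    (avg C fun z => (avg A fun x => u.2.1 (x, z) ^ 2) * avg B fun y => u.2.2 (y, z) ^ 2)

theorem six_nonneg (A B C : Finset ℤ) (u : Tri) : 0 ≤ six A B C u := by
  unfold six
  have h1 : ∀ (S T : Finset ℤ) (f : ℤ → ℤ → ℝ), 0 ≤ avg S fun x => avg T fun y => f x y ^ 2 :=
    fun S T f => avg_nonneg fun _ _ => avg_nonneg fun _ _ => sq_nonneg _
  have h2 : ∀ (S T R : Finset ℤ) (f g : ℤ → ℤ → ℝ),
      0 ≤ avg S fun x => (avg T fun y => f x y ^ 2) * avg R fun z => g x z ^ 2 :=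
    fun S T R f g => avg_nonneg fun _ _ =>
      mul_nonneg (avg_nonneg fun _ _ => sq_nonneg _) (avg_nonneg fun _ _ => sq_nonneg _)
  have a1 := h1 A B fun x y => u.1 (x, y)
  have a2 := h1 A C fun x y => u.2.1 (x, y)
  have a3 := h1 B C fun x y => u.2.2 (x, y)
  have a4 := h2 A B C (fun x y => u.1 (x, y)) fun x z => u.2.1 (x, z)
  have a5 := h2 B A C (fun y x => u.1 (x, y)) fun y z => u.2.2 (y, z)
  have a6 := h2 C A B (fun z x => u.2.1 (x, z)) fun z y => u.2.2 (y, z)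
  positivity

/-- **the density of `W_g` is the sixth root of the product of the six averages** -/
theorem pG_six (hA : A.Nonempty) (hB : B.Nonempty) (hC : C.Nonempty) (u : Tri) :
    pG (A ×ˢ B ×ˢ C) u = six A B C u ^ (1 / 6 : ℝ) := by
  have e1 : n2 (A ×ˢ B ×ˢ C) (e12 u.1) ^ 2 = avg A fun x => avg B fun y => u.1 (x, y) ^ 2 := by
    rw [n2_box12 hC, n2_sq, avg_prod]
  have e2 : n2 (A ×ˢ B ×ˢ C) (e13 u.2.1) ^ 2 =
      avg A fun x => avg C fun z => u.2.1 (x, z) ^ 2 := by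
    rw [n2_box13 hB, n2_sq, avg_prod]
  have e3 : n2 (A ×ˢ B ×ˢ C) (e23 u.2.2) ^ 2 =
      avg B fun y => avg C fun z => u.2.2 (y, z) ^ 2 := by
    rw [n2_box23 hA, n2_sq, avg_prod]
  have p1 := n2_nonneg (A ×ˢ B ×ˢ C) (e12 u.1)
  have p2 := n2_nonneg (A ×ˢ B ×ˢ C) (e13 u.2.1)
  have p3 := n2_nonneg (A ×ˢ B ×ˢ C) (e23 u.2.2)
  have q1 := v2_nonneg (A ×ˢ B ×ˢ C) (e12 u.1) (e13 u.2.1)
  have q2 := v2_nonneg (A ×ˢ B ×ˢ C) (e12 u.1) (e23 u.2.2)
  have q3 := v2_nonneg (A ×ˢ B ×ˢ C) (e13 u.2.1) (e23 u.2.2)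
  have hs : six A B C u = (n2 (A ×ˢ B ×ˢ C) (e12 u.1) * n2 (A ×ˢ B ×ˢ C) (e13 u.2.1) *
      n2 (A ×ˢ B ×ˢ C) (e23 u.2.2)) ^ 2 *
      (v2 (A ×ˢ B ×ˢ C) (e12 u.1) (e13 u.2.1) * v2 (A ×ˢ B ×ˢ C) (e12 u.1) (e23 u.2.2) *
        v2 (A ×ˢ B ×ˢ C) (e13 u.2.1) (e23 u.2.2)) := by
    rw [mul_pow, mul_pow, e1, e2, e3, v2_box1, v2_box2, v2_box3]
    unfold six
    ring
  rw [hs, Real.mul_rpow (by positivity) (by positivity), ← Real.rpow_natCast, ← Real.rpow_mul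
    (by positivity)]
  unfold pG
  norm_num

/-- six upper bounds in, the sixth root of the product out -/
theorem pG_le_six (hA : A.Nonempty) (hB : B.Nonempty) (hC : C.Nonempty) {u : Tri}
    {x1 x2 x3 v1 v2' v3 : ℝ}
    (h1 : (avg A fun x => avg B fun y => u.1 (x, y) ^ 2) ≤ x1)
    (h2 : (avg A fun x => avg C fun z => u.2.1 (x, z) ^ 2) ≤ x2)
    (h3 : (avg B fun y => avg C fun z => u.2.2 (y, z) ^ 2) ≤ x3)
    (h4 : (avg A fun x => (avg B fun y => u.1 (x, y) ^ 2) * avg C fun z => u.2.1 (x, z) ^ 2) ≤ v1)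
    (h5 : (avg B fun y => (avg A fun x => u.1 (x, y) ^ 2) * avg C fun z => u.2.2 (y, z) ^ 2) ≤ v2')
    (h6 : (avg C fun z => (avg A fun x => u.2.1 (x, z) ^ 2) * avg B fun y => u.2.2 (y, z) ^ 2) ≤
      v3) :
    pG (A ×ˢ B ×ˢ C) u ≤ (x1 * x2 * x3 * v1 * v2' * v3) ^ (1 / 6 : ℝ) := by
  rw [pG_six hA hB hC]
  refine Real.rpow_le_rpow (six_nonneg A B C u) ?_ (by norm_num)
  have n1 : 0 ≤ avg A fun x => avg B fun y => u.1 (x, y) ^ 2 :=
    avg_nonneg fun _ _ => avg_nonneg fun _ _ => sq_nonneg _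
  have n2' : 0 ≤ avg A fun x => avg C fun z => u.2.1 (x, z) ^ 2 :=
    avg_nonneg fun _ _ => avg_nonneg fun _ _ => sq_nonneg _
  have n3 : 0 ≤ avg B fun y => avg C fun z => u.2.2 (y, z) ^ 2 :=
    avg_nonneg fun _ _ => avg_nonneg fun _ _ => sq_nonneg _
  have n4' : 0 ≤ avg A fun x => (avg B fun y => u.1 (x, y) ^ 2) * avg C fun z => u.2.1 (x, z) ^ 2 :=
    avg_nonneg fun _ _ => mul_nonneg (avg_nonneg fun _ _ => sq_nonneg _)
      (avg_nonneg fun _ _ => sq_nonneg _)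
  have n5 : 0 ≤ avg B fun y => (avg A fun x => u.1 (x, y) ^ 2) * avg C fun z => u.2.2 (y, z) ^ 2 :=
    avg_nonneg fun _ _ => mul_nonneg (avg_nonneg fun _ _ => sq_nonneg _)
      (avg_nonneg fun _ _ => sq_nonneg _)
  have n6 : 0 ≤ avg C fun z => (avg A fun x => u.2.1 (x, z) ^ 2) * avg B fun y => u.2.2 (y, z) ^ 2 :=
    avg_nonneg fun _ _ => mul_nonneg (avg_nonneg fun _ _ => sq_nonneg _)
      (avg_nonneg fun _ _ => sq_nonneg _)
  unfold six
  have p1 := n1.trans h1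
  have p2 := n2'.trans h2
  have p3 := n3.trans h3
  have p4 := n4'.trans h4
  have p5 := n5.trans h5
  gcongr

end six

/-! ### Uniformity on a box -/

/-- `d`-uniformity on a box with the weight `W_g` -/
def UnifG (d : ℝ) (A B C : Finset ℤ) (G : ℤ × ℤ × ℤ → ℝ) : Prop :=
  ∀ u : Tri, |avg (A ×ˢ B ×ˢ C) (fun q => G q * atm u q)| ≤ d * pG (A ×ˢ B ×ˢ C) u

section unif

variable {d e : ℝ} {A B C : Finset ℤ} {G G' : ℤ × ℤ × ℤ → ℝ}

/-- one test with the six bounds -/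
theorem unifG_test (hd : 0 ≤ d) (hA : A.Nonempty) (hB : B.Nonempty) (hC : C.Nonempty)
    (h : UnifG d A B C G) {u : Tri} {x1 x2 x3 v1 v2' v3 : ℝ}
    (h1 : (avg A fun x => avg B fun y => u.1 (x, y) ^ 2) ≤ x1)
    (h2 : (avg A fun x => avg C fun z => u.2.1 (x, z) ^ 2) ≤ x2)
    (h3 : (avg B fun y => avg C fun z => u.2.2 (y, z) ^ 2) ≤ x3)
    (h4 : (avg A fun x => (avg B fun y => u.1 (x, y) ^ 2) * avg C fun z => u.2.1 (x, z) ^ 2) ≤ v1)
    (h5 : (avg B fun y => (avg A fun x => u.1 (x, y) ^ 2) * avg C fun z => u.2.2 (y, z) ^ 2) ≤ v2')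
    (h6 : (avg C fun z => (avg A fun x => u.2.1 (x, z) ^ 2) * avg B fun y => u.2.2 (y, z) ^ 2) ≤
      v3) :
    |avg A fun x => avg B fun y => avg C fun z =>
      G (x, y, z) * (u.1 (x, y) * u.2.1 (x, z) * u.2.2 (y, z))| ≤
      d * (x1 * x2 * x3 * v1 * v2' * v3) ^ (1 / 6 : ℝ) := by
  have h0 := h u
  have e1 : (avg (A ×ˢ B ×ˢ C) fun q => G q * atm u q) = avg A fun x => avg B fun y =>
      avg C fun z => G (x, y, z) * (u.1 (x, y) * u.2.1 (x, z) * u.2.2 (y, z)) := by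
    rw [avg_prod]
    refine avg_congr fun x _ => ?_
    rw [avg_prod]
    rfl
  rw [e1] at h0
  exact h0.trans (mul_le_mul_of_nonneg_left (pG_le_six hA hB hC h1 h2 h3 h4 h5 h6) hd)

/-- the level may be enlarged -/
theorem UnifG.mono {d' : ℝ} (hd : d ≤ d') (h : UnifG d A B C G) : UnifG d' A B C G :=
  fun u => (h u).trans (mul_le_mul_of_nonneg_right hd (pG_nonneg _ _))

/-- only the values on the box matter -/
theorem UnifG.congr (h : UnifG d A B C G) (hG : ∀ q ∈ A ×ˢ B ×ˢ C, G' q = G q) :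
    UnifG d A B C G' := by
  intro u
  rw [avg_congr fun q hq => by rw [hG q hq]]
  exact h u

theorem v2_swap23 (A B C : Finset ℤ) (f g : ℤ × ℤ × ℤ → ℝ) :
    v2 (A ×ˢ C ×ˢ B) (fun q => f (q.1, q.2.2, q.2.1)) (fun q => g (q.1, q.2.2, q.2.1)) =
      v2 (A ×ˢ B ×ˢ C) f g := by
  unfold v2
  rw [avg3_swap23 A B C]

theorem v2_swap12 (A B C : Finset ℤ) (f g : ℤ × ℤ × ℤ → ℝ) :
    v2 (B ×ˢ A ×ˢ C) (fun q => f (q.2.1, q.1, q.2.2)) (fun q => g (q.2.1, q.1, q.2.2)) =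
      v2 (A ×ˢ B ×ˢ C) f g := by
  unfold v2
  rw [avg3_swap12 A B C]

theorem n2_swap23 (A B C : Finset ℤ) (f : ℤ × ℤ × ℤ → ℝ) :
    n2 (A ×ˢ C ×ˢ B) (fun q => f (q.1, q.2.2, q.2.1)) = n2 (A ×ˢ B ×ˢ C) f := by
  unfold n2
  rw [avg3_swap23 A B C]

theorem n2_swap12 (A B C : Finset ℤ) (f : ℤ × ℤ × ℤ → ℝ) :
    n2 (B ×ˢ A ×ˢ C) (fun q => f (q.2.1, q.1, q.2.2)) = n2 (A ×ˢ B ×ˢ C) f := by
  unfold n2
  rw [avg3_swap12 A B C]

/-- the density under the exchange of the last two variables -/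
theorem pG_swap23 (A B C : Finset ℤ) (u : Tri) :
    pG (A ×ˢ C ×ˢ B) u = pG (A ×ˢ B ×ˢ C) (u.2.1, u.1, fun q => u.2.2 (q.2, q.1)) := by
  have a1 : n2 (A ×ˢ C ×ˢ B) (e12 u.1) = n2 (A ×ˢ B ×ˢ C) (e13 u.1) :=
    n2_swap23 A B C (e13 u.1)
  have a2 : n2 (A ×ˢ C ×ˢ B) (e13 u.2.1) = n2 (A ×ˢ B ×ˢ C) (e12 u.2.1) :=
    n2_swap23 A B C (e12 u.2.1)
  have a3 : n2 (A ×ˢ C ×ˢ B) (e23 u.2.2) =
      n2 (A ×ˢ B ×ˢ C) (e23 fun q => u.2.2 (q.2, q.1)) :=
    n2_swap23 A B C (e23 fun q => u.2.2 (q.2, q.1))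
  have b1 : v2 (A ×ˢ C ×ˢ B) (e12 u.1) (e13 u.2.1) = v2 (A ×ˢ B ×ˢ C) (e13 u.1) (e12 u.2.1) :=
    v2_swap23 A B C (e13 u.1) (e12 u.2.1)
  have b2 : v2 (A ×ˢ C ×ˢ B) (e12 u.1) (e23 u.2.2) =
      v2 (A ×ˢ B ×ˢ C) (e13 u.1) (e23 fun q => u.2.2 (q.2, q.1)) :=
    v2_swap23 A B C (e13 u.1) (e23 fun q => u.2.2 (q.2, q.1))
  have b3 : v2 (A ×ˢ C ×ˢ B) (e13 u.2.1) (e23 u.2.2) =
      v2 (A ×ˢ B ×ˢ C) (e12 u.2.1) (e23 fun q => u.2.2 (q.2, q.1)) :=
    v2_swap23 A B C (e12 u.2.1) (e23 fun q => u.2.2 (q.2, q.1))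
  unfold pG
  rw [a1, a2, a3, b1, b2, b3, v2_comm _ (e13 u.1) (e12 u.2.1)]
  congr 1
  · congr 1
    ring
  · congr 1
    ring

/-- the density under the exchange of the first two variables -/
theorem pG_swap12 (A B C : Finset ℤ) (u : Tri) :
    pG (B ×ˢ A ×ˢ C) u = pG (A ×ˢ B ×ˢ C) (fun q => u.1 (q.2, q.1), u.2.2, u.2.1) := by
  have a1 : n2 (B ×ˢ A ×ˢ C) (e12 u.1) = n2 (A ×ˢ B ×ˢ C) (e12 fun q => u.1 (q.2, q.1)) :=
    n2_swap12 A B C (e12 fun q => u.1 (q.2, q.1))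
  have a2 : n2 (B ×ˢ A ×ˢ C) (e13 u.2.1) = n2 (A ×ˢ B ×ˢ C) (e23 u.2.1) :=
    n2_swap12 A B C (e23 u.2.1)
  have a3 : n2 (B ×ˢ A ×ˢ C) (e23 u.2.2) = n2 (A ×ˢ B ×ˢ C) (e13 u.2.2) :=
    n2_swap12 A B C (e13 u.2.2)
  have b1 : v2 (B ×ˢ A ×ˢ C) (e12 u.1) (e13 u.2.1) =
      v2 (A ×ˢ B ×ˢ C) (e12 fun q => u.1 (q.2, q.1)) (e23 u.2.1) :=
    v2_swap12 A B C (e12 fun q => u.1 (q.2, q.1)) (e23 u.2.1)
  have b2 : v2 (B ×ˢ A ×ˢ C) (e12 u.1) (e23 u.2.2) =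
      v2 (A ×ˢ B ×ˢ C) (e12 fun q => u.1 (q.2, q.1)) (e13 u.2.2) :=
    v2_swap12 A B C (e12 fun q => u.1 (q.2, q.1)) (e13 u.2.2)
  have b3 : v2 (B ×ˢ A ×ˢ C) (e13 u.2.1) (e23 u.2.2) =
      v2 (A ×ˢ B ×ˢ C) (e23 u.2.1) (e13 u.2.2) :=
    v2_swap12 A B C (e23 u.2.1) (e13 u.2.2)
  unfold pG
  rw [a1, a2, a3, b1, b2, b3, v2_comm _ (e23 u.2.1) (e13 u.2.2)]
  congr 1
  · congr 1
    ring
  · congr 1
    ring

theorem unifG_132 (h : UnifG d A B C G) : UnifG d A C B fun q => G (q.1, q.2.2, q.2.1) := by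
  intro u
  have h1 := h (u.2.1, u.1, fun q => u.2.2 (q.2, q.1))
  have e1 : (avg (A ×ˢ C ×ˢ B) fun q => G (q.1, q.2.2, q.2.1) * atm u q) =
      avg (A ×ˢ B ×ˢ C) fun q => G q * atm (u.2.1, u.1, fun q => u.2.2 (q.2, q.1)) q := by
    rw [avg3_swap23 A B C]
    refine avg_congr fun q _ => ?_
    simp only [atm, e12, e13, e23]
    ring
  rw [e1, pG_swap23]
  exact h1

theorem unifG_213 (h : UnifG d A B C G) : UnifG d B A C fun q => G (q.2.1, q.1, q.2.2) := by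
  intro u
  have h1 := h (fun q => u.1 (q.2, q.1), u.2.2, u.2.1)
  have e1 : (avg (B ×ˢ A ×ˢ C) fun q => G (q.2.1, q.1, q.2.2) * atm u q) =
      avg (A ×ˢ B ×ˢ C) fun q => G q * atm (fun q => u.1 (q.2, q.1), u.2.2, u.2.1) q := by
    rw [avg3_swap12 A B C]
    refine avg_congr fun q _ => ?_
    simp only [atm, e12, e13, e23]
    ring
  rw [e1, pG_swap12]
  exact h1

theorem unifG_231 (h : UnifG d A B C G) : UnifG d B C A fun q => G (q.2.2, q.1, q.2.1) :=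
  unifG_132 (unifG_213 h)

theorem unifG_312 (h : UnifG d A B C G) : UnifG d C A B fun q => G (q.2.1, q.2.2, q.1) :=
  unifG_213 (unifG_132 h)

theorem unifG_321 (h : UnifG d A B C G) : UnifG d C B A fun q => G (q.2.2, q.2.1, q.1) :=
  unifG_213 (unifG_231 h)

end unif

/-! ### Transfer -/

section transfer

variable {d : ℝ} {k : ℕ} {c q : ℤ × ℤ × ℤ} {J : Finset ℤ} {O : ℤ → ℝ}

/-- uniformity on a cube, normalised -/
theorem unifG_of_cube {G : ℤ × ℤ × ℤ → ℝ}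
    (h : ∀ u : Tri, |avg (cube3 k q) (fun p => G p * atm u p)| ≤ d * pG (cube3 k q) u) :
    UnifG d (PL.H315.iv k q.1) (PL.H315.iv k q.2.1) (PL.H315.iv k q.2.2) G := h

/-- uniformity on a cube as a sum against the weight `wG` -/
theorem unifG_of_sum {G : ℤ × ℤ × ℤ → ℝ}
    (h : ∀ u : Tri, |∑ p ∈ cube3 k q, G p * atm u p| ≤ wG d (cube3 k q) u) :
    UnifG d (PL.H315.iv k q.1) (PL.H315.iv k q.2.1) (PL.H315.iv k q.2.2) G := by
  refine unifG_of_cube fun u => ?_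
  have h1 := h u
  have hc := card_cube3_pos k q
  unfold avg
  rw [abs_mul, abs_of_nonneg (inv_nonneg.mpr hc.le), inv_mul_le_iff₀ hc]
  refine h1.trans (le_of_eq ?_)
  unfold wG
  ring

/-- uniformity of the cut lift -/
theorem unifG_lft (h : ∀ u : Tri, |dot J O (a1 c k (q, u))| ≤ wG d (cube3 k q) u) :
    UnifG d (PL.H315.iv k q.1) (PL.H315.iv k q.2.1) (PL.H315.iv k q.2.2) (lft c J O) := by
  refine unifG_of_sum fun u => ?_
  have h1 := h u
  rw [dot_a1] at h1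
  have h2 : ∑ y ∈ cube3 k q, lft c J O y * atm u y =
      ∑ y ∈ cube3 k q, (if el c y ∈ J then O (el c y) * atm u y else 0) := by
    refine Finset.sum_congr rfl fun y _ => ?_
    unfold lft
    split_ifs <;> simp
  rw [h2]
  exact h1

/-- uniformity of the whole lift, image of the cube in the cell -/
theorem unifG_lift (hJ : ∀ y ∈ cube3 k q, el c y ∈ J)
    (h : ∀ u : Tri, |dot J O (a1 c k (q, u))| ≤ wG d (cube3 k q) u) :
    UnifG d (PL.H315.iv k q.1) (PL.H315.iv k q.2.1) (PL.H315.iv k q.2.2) (fun p => O (el c p)) := by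
  refine unifG_of_sum fun u => ?_
  have h1 := h u
  rw [dot_a1] at h1
  have h2 : ∑ y ∈ cube3 k q, O (el c y) * atm u y =
      ∑ y ∈ cube3 k q, (if el c y ∈ J then O (el c y) * atm u y else 0) := by
    refine Finset.sum_congr rfl fun y hy => ?_
    rw [if_pos (hJ y hy)]
  rw [h2]
  exact h1

end transfer

end

end Vale.Agent.P141.H944
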