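import Vale.Agent.P141.H56.PnFd
import Vale.Agent.P141.H58.EW

/-!
# P141, line (A), flow part: the near term for row-level signs

* `qN_cs` : the near term of ANY slot in two factors, `E1R` the energy of the steps of the slot;
* `RowStep` : the steps of the slot are at most the label matrices of the root, any sign and any
  mask of a row (a cell of `x₀`, a cell of `x₃`, a point `x₁`);
* `E1R_le`, `qN_cls` : the near term of such a slot at class data, the number of `H56.Pn.PN_cls`;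
* `Rm_step` : the slots `H841.Rm (MxR ..)` with any signs `|S| ≤ 1`;
* `partRow_qN`, `leafN_row` : the price.
-/

namespace Vale.Agent.P141.H944.RowN

open Finset Matrix
open Vale.Agent.P141.PL (Pt iv hs ix mem_iv ix_ix cb mem_cb cx)
open Vale.Agent.P141.PL.H560 (cbs bx0)
open Vale.Agent.P141.PL.H315 (Tri)
open Vale.Agent.P141.H48 (US ES cst)
open Vale.Agent.P141.H352 (In In2 p)
open Vale.Agent.P141.H795 (kp TS)
open Vale.Agent.P141.H677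
open Vale.Agent.P141.H677.Sk
open Vale.Agent.P141.H922 (ck)
open Vale.Agent.P141.H58 (MxR)
open Vale.Agent.P141.H56.Pn (dk qv E2 dot_nn cs_two tr_root v_root PNd E2_root pn_price cN
  cN_nonneg pnd mN)
open Vale.Agent.P141.H305 (ClsM kapM price_mono)
open Vale.Agent.P141.H401 (PartX PartF Bun)

noncomputable section

open scoped Classical

variable {ι : Type} [Fintype ι] [DecidableEq ι]

/-- the step of the slot on `C` -/
def wR (R : Slt ι) (C : FamV ι) (x0 : ℤ) (k : ℕ) (x1 x3 : ℤ) : ι → ℝ :=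
  (R x0 k x3 x1 - R x0 (k + 1) x3 x1) *ᵥ C x0 (k + 1) x3 x1

/-- the energy of the steps of the slot -/
def E1R (K : ℕ) (M : Pt) (R : Slt ι) (C : FamV ι) : ℝ :=
  ∑ t ∈ rt M, ∑ x0 ∈ iv K t, ∑ k ∈ range K, ∑ x1 ∈ iv K M.1, ∑ x3 ∈ iv K M.2.2,
    wR R C x0 k x1 x3 ⬝ᵥ wR R C x0 k x1 x3

omit [DecidableEq ι] in
theorem GA_step (R : Slt ι) (A : FamA) (b C : FamV ι) (x0 : ℤ) (k : ℕ) (y : Pt) :
    GA (A x0) (b x0) (C x0) (R x0) k (k + 1) y -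
      GA (A x0) (b x0) (C x0) (R x0) (k + 1) (k + 1) y =
      wR R C x0 k y.1 y.2.2 ⬝ᵥ qv A b x0 k y := by
  unfold GA wR
  have e : qv A b x0 k y = A x0 (k + 1) y.2.2 y.2.1 • b x0 (k + 1) y.1 y.2.1 := by
    funext i
    unfold H56.Pn.qv
    rw [Pi.smul_apply, smul_eq_mul]
  rw [e, dotProduct_smul, smul_eq_mul, sub_mulVec, sub_dotProduct, mul_sub,
    dotProduct_comm (R x0 k y.2.2 y.1 *ᵥ C x0 (k + 1) y.2.2 y.1),
    dotProduct_comm (R x0 (k + 1) y.2.2 y.1 *ᵥ C x0 (k + 1) y.2.2 y.1)]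

omit [DecidableEq ι] in
/-- **Two factors.** -/
theorem qN_cs (o : ℤ) (K : ℕ) (M : Pt) (R : Slt ι) (A : FamA) (b C : FamV ι) :
    qN o K M R A b C ≤ √(E1R K M R C) * √(E2 o K M A b) := by
  have h1 : ∀ x0 : ℤ, ∑ k ∈ range K,
      |In K M (fun y => p (k + 1) (cP o x0 (k + 1)) y - kp (-x0) (k + 1) y) (fun y =>
        GA (A x0) (b x0) (C x0) (R x0) k (k + 1) y -
          GA (A x0) (b x0) (C x0) (R x0) (k + 1) (k + 1) y)| ≤
      √(∑ k ∈ range K, ∑ x1 ∈ iv K M.1, ∑ x3 ∈ iv K M.2.2,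
        wR R C x0 k x1 x3 ⬝ᵥ wR R C x0 k x1 x3) *
      √(∑ k ∈ range K, ∑ x1 ∈ iv K M.1, ∑ x3 ∈ iv K M.2.2,
        H352.In2 K M.2.1 (dk o x0 k) (qv A b x0 k) x1 x3 ⬝ᵥ
          H352.In2 K M.2.1 (dk o x0 k) (qv A b x0 k) x1 x3) := by
    intro x0
    refine le_trans (le_of_eq ?_) (H352.near_two K K M (fun k => dk o x0 k)
      (fun k => wR R C x0 k) (fun k => qv A b x0 k))
    refine sum_congr rfl fun k _ => ?_
    congr 1
    refine congrArg (In K M (dk o x0 k)) (funext fun y => ?_)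
    exact GA_step R A b C x0 k y
  unfold qN E1R H56.Pn.E2
  refine (sum_le_sum fun t _ => sum_le_sum fun x0 _ => h1 x0).trans ?_
  exact cs_two M K _ _
    (fun x0 => sum_nonneg fun k _ => sum_nonneg fun _ _ => sum_nonneg fun _ _ => dot_nn _)
    (fun x0 => sum_nonneg fun k _ => sum_nonneg fun _ _ => sum_nonneg fun _ _ => dot_nn _)

/-- **Row-level layers.** -/
def RowStep (o : ℤ) (l : ℝ) (K : ℕ) (M : Pt) (u : ℤ → ℤ → ι → ℝ) (R : Slt ι) : Prop :=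
  ∀ x0 z x : ℤ, ∀ k < K, x ∈ iv K M.1 → z ∈ iv K M.2.2 → ∃ μ : ℝ, |μ| ≤ 1 ∧
    R x0 k z x - R x0 (k + 1) z x = μ • MxR l K M u x (k + 1) (ck o x z (k + 1) - ix (k + 1) x0)

/-- **The energy of the steps.** -/
theorem E1R_le {o : ℤ} {K : ℕ} {x : Pt} {l e P : ℝ} {u v : ℤ → ℤ → ι → ℝ} {R : Slt ι}
    {C : FamV ι} {φ : ℤ → ℕ → ℤ → ℤ → ℝ} (ho : o = 1 ∨ o = -1) (hl : 0 < l)
    (hR : RowStep o l K (cx K x) u R)
    (hC : ∀ x0 k x3 x1, C x0 k x3 x1 = φ x0 k x3 x1 • v x1 x3)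
    (hv : ∀ x1 ∈ iv K (cx K x).1, ∀ θ : ι → ℝ,
      ∑ x3 ∈ iv K (cx K x).2.2, (θ ⬝ᵥ v x1 x3) ^ 2 ≤ P * (θ ⬝ᵥ θ)) (he : 0 ≤ e)
    (hφ : ∀ k ≤ K, ∀ j x1 x3, ∑ x0 ∈ iv k j, φ x0 k x3 x1 ^ 2 ≤ e * 2 ^ k) :
    E1R K (cx K x) R C ≤ e * (2 ^ K * ((2 * l)⁻¹ *
      (P * ∑ x1 ∈ iv K (cx K x).1, (GT u x1 K (cx K x).2.1).trace))) := by
  have h := H483.q_stack (A := fun _ _ => True) (sg := fun _ _ => (0 : ℝ)) (v := v) (u := u) ho hl
    (fun _ _ => by rw [abs_zero]; exact zero_le_one) x hv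
    (W := fun k x0 x1 x3 => φ x0 k x3 x1 ^ 2) (fun _ _ _ _ => sq_nonneg _) he hφ 0
  have e0 : ((0 : ℝ) ^ 2)⁻¹ = 0 := by norm_num
  simp only [e0, zero_mul, add_zero, mul_zero, one_mul] at h
  refine le_trans ?_ h
  unfold E1R
  refine sum_le_sum fun t _ => sum_le_sum fun x0 _ => ?_
  have e2 : ∀ f : ℕ → ℝ, ∑ k ∈ Icc 1 K, f k = ∑ j ∈ range K, f (j + 1) := by
    intro f
    rw [range_eq_Ico, sum_Ico_add' f 0 K 1]
    rfl
  rw [e2]
  refine sum_le_sum fun k hk => ?_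
  rw [mem_range] at hk
  rw [H483.sN_points (A := fun _ _ => True) (o := o) (M := cx K x) (by omega : k + 1 ≤ K) x0
    (fun m x1 x3 => φ x0 (k + 1) x3 x1 ^ 2 *
      ((MT l (KT l u x1) (k + 1) m.2.1 *ᵥ v x1 x3) ⬝ᵥ
        (MT l (KT l u x1) (k + 1) m.2.1 *ᵥ v x1 x3)))]
  refine sum_le_sum fun x1 hx1 => sum_le_sum fun x3 hx3 => ?_
  obtain ⟨μ, hμ, hs⟩ := hR x0 x3 x1 k hk hx1 hx3
  have e3 : (nd3 o x0 x3 x1 (k + 1)).2.1 = ck o x1 x3 (k + 1) - ix (k + 1) x0 := by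
    unfold H922.ck H677.nd3 H677.cP
    show o - 2 - ix (k + 1) x0 - ix (k + 1) x1 - ix (k + 1) x3 =
      o - 2 - ix (k + 1) x1 - ix (k + 1) x3 - ix (k + 1) x0
    ring
  have e4 : wR R C x0 k x1 x3 = (μ * φ x0 (k + 1) x3 x1) •
      (MxR l K (cx K x) u x1 (k + 1) (ck o x1 x3 (k + 1) - ix (k + 1) x0) *ᵥ v x1 x3) := by
    unfold wR
    rw [hs, hC, smul_mulVec, mulVec_smul, smul_smul]
  rw [e4, smul_dotProduct, dotProduct_smul, smul_eq_mul, smul_eq_mul, ← mul_assoc]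
  by_cases hc : ix (K - (k + 1)) (ck o x1 x3 (k + 1) - ix (k + 1) x0) = (cx K x).2.1
  · have hn : nd3 o x0 x3 x1 (k + 1) ∈ sN (fun _ _ => True) o K (cx K x) x0 (k + 1) := by
      rw [mem_sN]
      refine ⟨?_, ?_, trivial⟩
      · unfold PL.H560.cbs
        rw [mem_product, mem_product, mem_iv, mem_iv, mem_iv]
        refine ⟨?_, ?_, ?_⟩
        · show ix (K - (k + 1)) (ix (k + 1) x1) = (cx K x).1
          rw [ix_ix, Nat.add_sub_cancel' (by omega : k + 1 ≤ K)]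
          exact mem_iv.1 hx1
        · show ix (K - (k + 1)) (nd3 o x0 x3 x1 (k + 1)).2.1 = (cx K x).2.1
          rw [e3]
          exact hc
        · show ix (K - (k + 1)) (ix (k + 1) x3) = (cx K x).2.2
          rw [ix_ix, Nat.add_sub_cancel' (by omega : k + 1 ≤ K)]
          exact mem_iv.1 hx3
      · rw [mem_iv]
        unfold PL.H560.bx0 H677.rv H677.nd3 H677.cP
        simp only
        ring
    rw [if_pos hn, e3]
    have e5 : MxR l K (cx K x) u x1 (k + 1) (ck o x1 x3 (k + 1) - ix (k + 1) x0) =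
        MT l (KT l u x1) (k + 1) (ck o x1 x3 (k + 1) - ix (k + 1) x0) := by
      unfold H58.MxR
      rw [if_pos hc]
    rw [e5]
    have hd := dot_nn (MT l (KT l u x1) (k + 1) (ck o x1 x3 (k + 1) - ix (k + 1) x0) *ᵥ v x1 x3)
    refine mul_le_mul_of_nonneg_right ?_ hd
    have h1 : μ ^ 2 ≤ 1 := by
      rw [← sq_abs]
      exact pow_le_one₀ (abs_nonneg _) hμ
    have h2 := sq_nonneg (φ x0 (k + 1) x3 x1)
    nlinarith
  · have e5 : MxR l K (cx K x) u x1 (k + 1) (ck o x1 x3 (k + 1) - ix (k + 1) x0) = 0 := by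
      unfold H58.MxR
      rw [if_neg hc]
    rw [e5, zero_mulVec, dotProduct_zero, mul_zero]
    split_ifs
    · exact mul_nonneg (sq_nonneg _) (dot_nn _)
    · exact le_rfl

section cls

variable {K : ℕ} {x : Pt} {s r P κ : ℝ} {U : Tri} {g : ℤ → ℤ → ℝ} {u v : ℤ → ℤ → ι → ℝ}

/-- **The near term of row-level signs at class data.** -/
theorem qN_cls (Cl : ClsM K x s r P κ U g u v) {o : ℤ} {l ez B : ℝ} {R : Slt ι} {A : FamA}
    {b C : FamV ι} (ho : o = 1 ∨ o = -1) (hl : 0 < l) (hP : 0 ≤ P) (hez : 0 ≤ ez)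
    (hR : RowStep o l K (cx K x) u R) (D : PNd o K x ez B v A b C) :
    qN o K (cx K x) R A b C ≤ √(8 ^ K * (ez * ((2 * l)⁻¹ * (P * s)))) * √B := by
  obtain ⟨φ, v', hv', hC, hφ⟩ := D.C_eq
  obtain ⟨BN, BG, hG0, hN, hG, hB⟩ := D.num
  refine (qN_cs o K (cx K x) R A b C).trans ?_
  refine mul_le_mul (Real.sqrt_le_sqrt ?_)
    (Real.sqrt_le_sqrt ((E2_root ho K (cx K x) A b hG0 hN hG).trans hB)) (Real.sqrt_nonneg _)
    (Real.sqrt_nonneg _)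
  refine (E1R_le (P := 2 ^ K * P) ho hl hR hC (v_root Cl hv') hez hφ).trans ?_
  have h1 := mul_le_mul_of_nonneg_left (tr_root Cl) (by positivity : (0 : ℝ) ≤ 2 ^ K * P)
  have h2 := mul_le_mul_of_nonneg_left h1 (by positivity : (0 : ℝ) ≤ (2 * l)⁻¹)
  have h3 := mul_le_mul_of_nonneg_left h2 (by positivity : (0 : ℝ) ≤ ez * 2 ^ K)
  have e8 : (8 : ℝ) ^ K = 2 ^ K * (2 ^ K * 2 ^ K) := by rw [← mul_pow, ← mul_pow]; norm_num
  rw [e8]
  calc ez * (2 ^ K * ((2 * l)⁻¹ * (2 ^ K * P * ∑ x1 ∈ iv K (cx K x).1,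
        (GT u x1 K (cx K x).2.1).trace)))
      = ez * 2 ^ K * ((2 * l)⁻¹ * (2 ^ K * P * ∑ x1 ∈ iv K (cx K x).1,
        (GT u x1 K (cx K x).2.1).trace)) := by ring
    _ ≤ ez * 2 ^ K * ((2 * l)⁻¹ * (2 ^ K * P * (2 ^ K * s))) := h3
    _ = 2 ^ K * (2 ^ K * 2 ^ K) * (ez * ((2 * l)⁻¹ * (P * s))) := by ring

end cls

/-- the slots of `H841` with any signs -/
theorem Rm_step {o : ℤ} {l : ℝ} {K : ℕ} {M : Pt} {u : ℤ → ℤ → ι → ℝ}
    {S : ℤ → ℕ → ℤ → ℤ → ℝ} (hS : ∀ x k a b, |S x k a b| ≤ 1) :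
    RowStep o l K M u (fun x0 j z x => H841.Rm (MxR l K M u x) o x (S x) K j x0 z) := by
  intro x0 z x k hk _ _
  refine ⟨S x (k + 1) (ix (k + 1) x0) (ix (k + 1) z) * (hs (k + 1) x0 * hs (k + 1) z), ?_, ?_⟩
  · rw [abs_mul, abs_mul, PL.abs_hs, PL.abs_hs, mul_one, mul_one]
    exact hS _ _ _ _
  · show H841.Rm (MxR l K M u x) o x (S x) K k x0 z -
      H841.Rm (MxR l K M u x) o x (S x) K (k + 1) x0 z = _
    unfold H841.Rm
    rw [sum_eq_sum_Ico_succ_bot hk, add_sub_cancel_right]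
    rfl

/-! ### The price -/

/-- **The quantifiers for slots**: `Sl` says which slots. -/
def PartSl (D : Bun)
    (Sl : ∀ (ι : Type) [Fintype ι] [DecidableEq ι], ℤ → ℝ → ℕ → Pt → (ℤ → ℤ → ι → ℝ) → Slt ι → Prop)
    (T : ∀ (ι : Type) [Fintype ι] [DecidableEq ι], ℤ → ℕ → Pt → Slt ι → FamA → FamV ι → FamV ι →
      ℝ) : Prop :=
  PartX fun ι _ _ p n ez F1 F2 F3 o K x s r U g u v B =>
    ∀ (A : FamA) (b C : FamV ι), D ι p n ez F1 F2 F3 o K x s r U g u v A b C →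
      ∀ R : Slt ι, Sl ι o (p.lam s r) K (cx K x) u R → T ι o K (cx K x) R A b C ≤ B

/-- **The price of the near term, every slot with row-level steps.** -/
theorem partSl_PN {D : Bun} (Q : H401.Num → ℝ) (hQ0 : ∀ p, 0 ≤ Q p)
    (hQt : ∀ (p : H401.Num) (t : ℝ), Q { p with t := t } = Q p)
    (hD : ∀ (ι : Type) [Fintype ι] [DecidableEq ι] (p : H401.Num) (n : ℕ) (ez : ℝ)
      (F1 F2 F3 : ℕ → Pt → ℝ) (o : ℤ) (K : ℕ) (x : Pt) (s r : ℝ) (U : Tri) (g : ℤ → ℤ → ℝ)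
      (u v : ℤ → ℤ → ι → ℝ) (A : FamA) (b C : FamV ι), 0 < p.t → p.t ≤ 1 → 0 < p.Kt → 1 ≤ p.e →
      0 ≤ p.cP → 1 ≤ p.L → 1 ≤ p.CD → 0 < p.e0 → 0 < p.k3 → 0 ≤ p.c → 0 < p.d →
      US n (p.Kt * p.t ^ (1 - p.c)) p.e p.cP F1 → US n (p.Kt * p.t ^ (1 - p.c)) p.e p.cP F3 →
      ES n ez p.cP F2 → o = 1 ∨ o = -1 → K ≤ n → 0 < s → 1 ≤ r →
      ClsM K x s r (p.L * p.t ^ (2 - p.c) * √s) (kapM p.L p.t p.a s r) U g u v →
      D ι p n ez F1 F2 F3 o K x s r U g u v A b C →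
      PNd o K x ez (Q p * (p.t ^ (2 - 2 * p.k3 - 8 * p.c - 8 * p.d) * s ^ (3 / 2 : ℝ) *
        r ^ (2 * p.k3) * 8 ^ K)) v A b C) :
    PartSl D (fun _ _ _ o l K M u R => RowStep o l K M u R)
      (fun _ _ _ o K M R A b C => qN o K M R A b C) := by
  intro a ha ha1
  refine ⟨1, one_pos, fun e0 he0 he0' => ⟨1, one_pos, fun k8 hk8 hk8' =>
    ⟨e0 / 8, by positivity, fun k3 hk3 hk3' => ?_⟩⟩⟩
  refine ⟨e0 / 8, e0 / 64, e0 / 64, e0 / 4, by positivity, by positivity, by positivity,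
    by positivity, fun c hc hcc d hd hdd Kt e cP L hK he hcP hL CD hCD => ?_⟩
  refine ⟨√(L * Q ⟨a, e0, k8, k3, c, d, Kt, e, cP, L, CD, 1⟩), Real.sqrt_nonneg _, ?_⟩
  intro t ht ht1 n ez F1 F2 F3 h1 h3 h2 o ho K hKn x ι _ _ s r U g u v hs hr hcls A b C hDD R hR
  have hd1 := hD ι ⟨a, e0, k8, k3, c, d, Kt, e, cP, L, CD, t⟩ n ez F1 F2 F3 o K x s r U g u v A b
    C ht ht1 hK he hcP hL hCD he0 hk3 hc hd h1 h3 h2 ho hKn hs hr hcls hDD
  have hl := H401.Num.lam_pos (p := ⟨a, e0, k8, k3, c, d, Kt, e, cP, L, CD, t⟩) ht hs hr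
  have hP : 0 ≤ L * t ^ (2 - c) * √s := by positivity
  refine (qN_cls hcls ho hl hP h2.1 hR hd1).trans ?_
  have e1 : Q ⟨a, e0, k8, k3, c, d, Kt, e, cP, L, CD, 1⟩ =
      Q ⟨a, e0, k8, k3, c, d, Kt, e, cP, L, CD, t⟩ :=
    hQt ⟨a, e0, k8, k3, c, d, Kt, e, cP, L, CD, t⟩ 1
  rw [e1]
  exact pn_price K ht ht1 hs hr (by linarith) (hQ0 _) he0 hk3' hcc hdd

/-- **The near term of the flow part, every slot with row-level steps.** -/
theorem leafN_sl : PartSl FD (fun _ _ _ o l K M u R => RowStep o l K M u R)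
    (fun _ _ _ o K M R A b C => qN o K M R A b C) := by
  refine partSl_PN (fun p => cN * (|p.CD| * (|p.cP| + 2))) (fun p => ?_) (fun p t => rfl) ?_
  · have := cN_nonneg
    positivity
  intro ι _ _ p n ez F1 F2 F3 o K x s r U g u v A b C ht ht1 hKt he hcP hL hCD he0 hk3 hc hd
    hU1 hU3 hE2 ho hK hs hr hcls hD
  obtain ⟨Q1, Q2, Q3, v', h⟩ := hD
  have hLm : 0 ≤ p.Lm := by
    unfold H401.Num.Lm
    positivity
  have hm : 0 ≤ p.CD * (p.Lm * s) := by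
    have : 0 ≤ p.CD := by linarith
    positivity
  have h1 := pnd h hK hE2.1 hm hcP ho
  obtain ⟨hC, BN, BG, hG0, hN, hG, hB⟩ := h1
  refine ⟨hC, BN, BG, hG0, hN, hG, hB.trans ?_⟩
  have e1 : |p.CD| = p.CD := abs_of_nonneg (by linarith)
  have e2 : |p.cP| = p.cP := abs_of_nonneg hcP
  have e3 := H401.Num.th_sq (p := p) ht hs hr
  have e4 : √s * s = s ^ (3 / 2 : ℝ) := by
    rw [Real.sqrt_eq_rpow]
    nth_rewrite 2 [← Real.rpow_one s]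
    rw [← Real.rpow_add hs]
    norm_num
  have e5 : p.t ^ (2 - 2 * p.k3) * p.Lm ≤ p.t ^ (2 - 2 * p.k3 - 8 * p.c - 8 * p.d) := by
    unfold H401.Num.Lm
    rw [← Real.rpow_add ht]
    exact Real.rpow_le_rpow_of_exponent_ge ht ht1 (by linarith)
  unfold H56.Pn.mN
  rw [e1, e2, e3]
  have hr0 : 0 < r := by linarith
  have w0 : 0 ≤ cN * (p.CD * (p.cP + 2)) * (s ^ (3 / 2 : ℝ) * r ^ (2 * p.k3) * 8 ^ K) := by
    have := cN_nonneg
    have : 0 ≤ p.CD := by linarith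
    positivity
  calc (432000 * (3 * (1868 * (12736 * 12 + 16080) * 4)) + 17100 * (3 * (1085 * 4))) *
        (p.t ^ (2 - 2 * p.k3) * √s * r ^ (2 * p.k3) *
          (p.CD * (p.Lm * s) * ((p.cP + 2) * 8 ^ K)))
      = cN * (p.CD * (p.cP + 2)) * ((√s * s) * r ^ (2 * p.k3) * 8 ^ K) *
        (p.t ^ (2 - 2 * p.k3) * p.Lm) := by unfold H56.Pn.cN; ring
    _ = cN * (p.CD * (p.cP + 2)) * (s ^ (3 / 2 : ℝ) * r ^ (2 * p.k3) * 8 ^ K) *
        (p.t ^ (2 - 2 * p.k3) * p.Lm) := by rw [e4]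
    _ ≤ cN * (p.CD * (p.cP + 2)) * (s ^ (3 / 2 : ℝ) * r ^ (2 * p.k3) * 8 ^ K) *
        p.t ^ (2 - 2 * p.k3 - 8 * p.c - 8 * p.d) := mul_le_mul_of_nonneg_left e5 w0
    _ = cN * (p.CD * (p.cP + 2)) * (p.t ^ (2 - 2 * p.k3 - 8 * p.c - 8 * p.d) *
        s ^ (3 / 2 : ℝ) * r ^ (2 * p.k3) * 8 ^ K) := by ring

end

end Vale.Agent.P141.H944.RowN
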