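import Vale.Agent.P141.H924.SlotS
import Vale.Agent.P141.H944.RowN

/-!
# P141, line (A), flow part: the near term for row-level signs, letters of `H924`

`leafN_row : PartRow FD (qN o)`.
-/

namespace Vale.Agent.P141.H944.RowN

open Finset Matrix
open Vale.Agent.P141.PL (Pt cx)
open Vale.Agent.P141.H677.Sk
open Vale.Agent.P141.H924 (slG PartRow FunR)
open Vale.Agent.P141.H401 (PartX)

noncomputable section

variable {ι : Type} [Fintype ι] [DecidableEq ι]

/-- the slots with row-level signs have row-level steps -/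
theorem slG_step {S : ℤ → ℕ → ℤ → ℤ → ℝ} (hS : ∀ x k a b, |S x k a b| ≤ 1) (o : ℤ) (l : ℝ) (K : ℕ)
    (M : Pt) (u : ℤ → ℤ → ι → ℝ) : RowStep o l K M u (slG S o l K M u) := Rm_step hS

/-- from all the slots with row-level steps to `PartRow` -/
theorem PartSl.row {D : H401.Bun} {T : FunR}
    (H : PartSl D (fun _ _ _ o l K M u R => RowStep o l K M u R) T) : PartRow D T := by
  intro a ha ha1
  obtain ⟨es, hes, H⟩ := H a ha ha1
  refine ⟨es, hes, fun e0 he0 he0' => ?_⟩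
  obtain ⟨k8, hk8, H⟩ := H e0 he0 he0'
  refine ⟨k8, hk8, fun k8' hk8' hk8'' => ?_⟩
  obtain ⟨k3, hk3, H⟩ := H k8' hk8' hk8''
  refine ⟨k3, hk3, fun k3' hk3' hk3'' => ?_⟩
  obtain ⟨g1, c1, d1, l1, hg1, hc1, hd1, hl1, H⟩ := H k3' hk3' hk3''
  refine ⟨g1, c1, d1, l1, hg1, hc1, hd1, hl1,
    fun c' hc' hcc d hd hdd Kt e cP L hK he hcP hL CD hCD => ?_⟩
  obtain ⟨C, hC, H⟩ := H c' hc' hcc d hd hdd Kt e cP L hK he hcP hL CD hCD
  refine ⟨C, hC, ?_⟩
  intro t ht ht1 n ez F1 F2 F3 h1 h3 h2 o ho K hKn x ι _ _ s r U g u v hs hr hcls A b C' hD S hS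
  exact H t ht ht1 n ez F1 F2 F3 h1 h3 h2 o ho K hKn x ι s r U g u v hs hr hcls A b C' hD _
    (slG_step hS o _ K (cx K x) u)

/-- **The near term of every slot with row-level signs.** -/
theorem leafN_row : PartRow FD fun _ι _ _ o K M R A b C => qN o K M R A b C := leafN_sl.row

end

end Vale.Agent.P141.H944.RowN
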