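import Vale.Agent.P141.H970.SkelG

/-!
# P141, line (A), births: the numbers of one generation

Units of `H970.SkG`: caps `kg t r 1`, energies `eg c e0 1 t r`, logarithms `lg t r`.

* `qn t r γ` : the number of steps of the tail; `qn_le`, `half_qn`;
* `En` : the energies of `H944.EVs` in the units of the classes; `En_le`;
* `brk` : the bracket of the births of one generation.
-/

namespace Vale.Agent.P141.H944.EVn

open Finset
open Vale.Agent.P141.H970.SkG (kg eg lg kg_pos eg_pos lg_ge)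

noncomputable section

/-- the number of steps of the tail -/
def qn (t r : ℝ) (γ : ℕ) : ℕ := ⌈8 * Real.logb 2 (r / t)⌉₊ + 8 * γ

theorem one_le_rho {t r : ℝ} (ht : 0 < t) (ht1 : t ≤ 1) (hr : 1 ≤ r) : 1 ≤ r / t := by
  rw [le_div_iff₀ ht]
  linarith

theorem qn_le {t r : ℝ} (ht : 0 < t) (ht1 : t ≤ 1) (hr : 1 ≤ r) (γ : ℕ) :
    (qn t r γ : ℝ) ≤ 12 * lg t r γ := by
  have hρ := one_le_rho ht ht1 hr
  have h0 : 0 ≤ Real.log (r / t) := Real.log_nonneg hρ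
  have h2 : 0 ≤ 8 * Real.logb 2 (r / t) := by
    have := Real.logb_nonneg (by norm_num : (1 : ℝ) < 2) hρ
    linarith
  have h3 : (⌈8 * Real.logb 2 (r / t)⌉₊ : ℝ) ≤ 8 * Real.logb 2 (r / t) + 1 :=
    (Nat.ceil_lt_add_one h2).le
  have h4 : 8 * Real.logb 2 (r / t) ≤ 12 * Real.log (r / t) := by
    have hl2 : (0.6931471803 : ℝ) < Real.log 2 := Real.log_two_gt_d9
    have hl : 0 < Real.log 2 := by linarith
    rw [Real.logb, ← mul_div_assoc, div_le_iff₀ hl]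
    nlinarith
  have h5 : (0 : ℝ) ≤ γ := Nat.cast_nonneg γ
  unfold qn lg
  push_cast
  linarith

theorem half_qn {t r : ℝ} (ht : 0 < t) (ht1 : t ≤ 1) (hr : 1 ≤ r) (γ : ℕ) :
    ((1 : ℝ) / 2) ^ qn t r γ ≤ ((r / t) ^ 8 * (2 ^ γ) ^ 8)⁻¹ := by
  have hρ := one_le_rho ht ht1 hr
  have hρ0 : 0 < r / t := by linarith
  have h1 : (r / t) ^ 8 ≤ (2 : ℝ) ^ ⌈8 * Real.logb 2 (r / t)⌉₊ := by
    have h2 : 8 * Real.logb 2 (r / t) ≤ (⌈8 * Real.logb 2 (r / t)⌉₊ : ℝ) := Nat.le_ceil _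
    have h3 : (r / t) ^ 8 = (2 : ℝ) ^ (8 * Real.logb 2 (r / t)) := by
      rw [mul_comm, Real.rpow_mul (by norm_num), Real.rpow_logb (by norm_num) (by norm_num) hρ0]
      norm_cast
    rw [h3, ← Real.rpow_natCast]
    exact Real.rpow_le_rpow_of_exponent_le (by norm_num) h2
  have h4 : (2 : ℝ) ^ (8 * γ) = (2 ^ γ) ^ 8 := by
    rw [mul_comm, pow_mul]
  unfold qn
  rw [pow_add, mul_inv]
  refine mul_le_mul ?_ ?_ (by positivity) (by positivity)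
  · rw [one_div, inv_pow]
    exact inv_anti₀ (by positivity) h1
  · rw [one_div, inv_pow, h4]

/-- the energies of the generations, `l = t ^ (2 - e0) √s r ^ e0`, `P = L t ^ (2 - c) √s`,
rows `r √s`, mass `s` -/
def En (c e0 L t r s : ℝ) : ℕ → ℝ
  | 0 => (2 * (t ^ (2 - e0) * √s * r ^ e0))⁻¹ * (L * t ^ (2 - c) * √s) * s
  | g + 1 => 7560000 * ((2 * (t ^ (2 - e0) * √s * r ^ e0))⁻¹ * (r * √s)) / kg t r 1 g ^ 6 * s

theorem En_le {c e0 L t r s : ℝ} (ht : 0 < t) (ht1 : t ≤ 1) (hr : 1 ≤ r) (hs : 0 < s)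
    (he0 : 0 < e0) (he1 : e0 ≤ 1) (hL : 0 ≤ L) (γ : ℕ) :
    En c e0 L t r s γ ≤ (L / 2 + 3780000) * (s * eg c e0 1 t r γ) := by
  have hr0 : 0 < r := by linarith
  have hsq : 0 < √s := Real.sqrt_pos.2 hs
  have ha : 0 < t ^ (2 - e0) := Real.rpow_pos_of_pos ht _
  have hb : 0 < r ^ e0 := Real.rpow_pos_of_pos hr0 _
  have heg := eg_pos ht hr c e0 1 γ
  cases γ with
  | zero =>
    have e1 : (2 * (t ^ (2 - e0) * √s * r ^ e0))⁻¹ * (L * t ^ (2 - c) * √s) * s =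
        L / 2 * (s * (t ^ (-c) * (t / r) ^ e0)) := by
      have h1 : t ^ (2 - c) = t ^ (2 - e0) * (t ^ (-c) * t ^ e0) := by
        rw [← Real.rpow_add ht, ← Real.rpow_add ht]
        congr 1
        ring
      rw [h1, Real.div_rpow ht.le hr0.le]
      field_simp
    show (2 * (t ^ (2 - e0) * √s * r ^ e0))⁻¹ * (L * t ^ (2 - c) * √s) * s ≤
      (L / 2 + 3780000) * (s * (t ^ (-c) * (t / r) ^ e0))
    rw [e1]
    have h2 : 0 ≤ s * (t ^ (-c) * (t / r) ^ e0) := by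
      have z1 : 0 < t ^ (-c) := Real.rpow_pos_of_pos ht _
      have z2 : 0 < (t / r) ^ e0 := Real.rpow_pos_of_pos (div_pos ht hr0) _
      positivity
    nlinarith
  | succ g =>
    have hk := kg_pos ht hr 1 g
    have h6 : 0 < kg t r 1 g ^ 6 := pow_pos hk 6
    have h1 : (2 * (t ^ (2 - e0) * √s * r ^ e0))⁻¹ * (r * √s) ≤ 1 / 2 * (r / t) ^ 2 := by
      have h2 : (2 * (t ^ (2 - e0) * √s * r ^ e0))⁻¹ * (r * √s) =
          1 / 2 * (r * (t ^ (2 - e0) * r ^ e0)⁻¹) := by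
        field_simp
      rw [h2]
      refine mul_le_mul_of_nonneg_left ?_ (by norm_num)
      have h3 : t ^ 2 ≤ t ^ (2 - e0) := by
        have : t ^ (2 : ℝ) ≤ t ^ (2 - e0) :=
          Real.rpow_le_rpow_of_exponent_ge ht ht1 (by linarith)
        calc t ^ 2 = t ^ (2 : ℝ) := by norm_cast
          _ ≤ _ := this
      have h4 : 1 ≤ r ^ e0 := Real.one_le_rpow hr he0.le
      have h5 : t ^ 2 ≤ t ^ (2 - e0) * r ^ e0 := by
        have := mul_le_mul h3 h4 zero_le_one ha.le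
        linarith
      have h7 : (t ^ (2 - e0) * r ^ e0)⁻¹ ≤ (t ^ 2)⁻¹ := inv_anti₀ (by positivity) h5
      calc r * (t ^ (2 - e0) * r ^ e0)⁻¹ ≤ r * (t ^ 2)⁻¹ := mul_le_mul_of_nonneg_left h7 hr0.le
        _ ≤ r ^ 2 * (t ^ 2)⁻¹ := by
            refine mul_le_mul_of_nonneg_right ?_ (by positivity)
            nlinarith
        _ = (r / t) ^ 2 := by rw [div_pow]; rfl
    show 7560000 * ((2 * (t ^ (2 - e0) * √s * r ^ e0))⁻¹ * (r * √s)) / kg t r 1 g ^ 6 * s ≤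
      (L / 2 + 3780000) * (s * ((r / t) ^ 2 / (kg t r 1 g) ^ 6))
    have h8 : 7560000 * ((2 * (t ^ (2 - e0) * √s * r ^ e0))⁻¹ * (r * √s)) / kg t r 1 g ^ 6 * s ≤
        7560000 * (1 / 2 * (r / t) ^ 2) / kg t r 1 g ^ 6 * s := by
      refine mul_le_mul_of_nonneg_right ?_ hs.le
      refine div_le_div_of_nonneg_right ?_ h6.le
      exact mul_le_mul_of_nonneg_left h1 (by norm_num)
    refine h8.trans ?_
    have h9 : 7560000 * (1 / 2 * (r / t) ^ 2) / kg t r 1 g ^ 6 * s =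
        3780000 * (s * ((r / t) ^ 2 / (kg t r 1 g) ^ 6)) := by ring
    rw [h9]
    have h10 : 0 ≤ s * ((r / t) ^ 2 / (kg t r 1 g) ^ 6) := by positivity
    nlinarith

/-- the tail -/
theorem tail_le {c e0 t r : ℝ} (ht : 0 < t) (ht1 : t ≤ 1) (hr : 1 ≤ r) (hc : 0 ≤ c)
    (he1 : e0 ≤ 1) (γ : ℕ) :
    (kg t r 1 γ + 1) ^ 2 * (1 / 2) ^ qn t r γ ≤ 4 * eg c e0 1 t r γ := by
  have hr0 : 0 < r := by linarith
  have hρ := one_le_rho ht ht1 hr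
  have hρ0 : 0 < r / t := by linarith
  have h2g : (1 : ℝ) ≤ 2 ^ γ := one_le_pow₀ (by norm_num)
  have hk : kg t r 1 γ = r / t * 2 ^ γ := by
    unfold kg
    rw [Real.rpow_one]
  have hk1 : 1 ≤ kg t r 1 γ := by
    rw [hk]
    nlinarith
  have h1 : (kg t r 1 γ + 1) ^ 2 ≤ 4 * kg t r 1 γ ^ 2 := by nlinarith
  have h2 := half_qn ht ht1 hr γ
  have h3 : (kg t r 1 γ + 1) ^ 2 * (1 / 2) ^ qn t r γ ≤
      4 * kg t r 1 γ ^ 2 * ((r / t) ^ 8 * (2 ^ γ) ^ 8)⁻¹ :=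
    mul_le_mul h1 h2 (by positivity) (by positivity)
  refine h3.trans ?_
  rw [hk]
  have h4 : 4 * (r / t * 2 ^ γ) ^ 2 * ((r / t) ^ 8 * (2 ^ γ) ^ 8)⁻¹ =
      4 * ((r / t) ^ 6 * (2 ^ γ) ^ 6)⁻¹ := by
    have a1 : (r / t) ≠ 0 := hρ0.ne'
    have a2 : (2 : ℝ) ^ γ ≠ 0 := by positivity
    rw [mul_inv, mul_inv]
    have e8 : (r / t) ^ 8 = (r / t) ^ 6 * (r / t) ^ 2 := by ring
    have f8 : ((2 : ℝ) ^ γ) ^ 8 = (2 ^ γ) ^ 6 * (2 ^ γ) ^ 2 := by ring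
    rw [e8, f8, mul_inv, mul_inv, mul_pow]
    have b1 : (r / t) ^ 2 * ((r / t) ^ 2)⁻¹ = 1 := mul_inv_cancel₀ (by positivity)
    have b2 : ((2 : ℝ) ^ γ) ^ 2 * ((2 ^ γ) ^ 2)⁻¹ = 1 := mul_inv_cancel₀ (by positivity)
    calc 4 * ((r / t) ^ 2 * (2 ^ γ) ^ 2) *
          (((r / t) ^ 6)⁻¹ * ((r / t) ^ 2)⁻¹ * (((2 ^ γ) ^ 6)⁻¹ * ((2 ^ γ) ^ 2)⁻¹)) =
          4 * ((r / t) ^ 6)⁻¹ * ((2 ^ γ) ^ 6)⁻¹ * ((r / t) ^ 2 * ((r / t) ^ 2)⁻¹) *
            ((2 ^ γ) ^ 2 * ((2 ^ γ) ^ 2)⁻¹) := by ring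
      _ = 4 * (((r / t) ^ 6)⁻¹ * ((2 ^ γ) ^ 6)⁻¹) := by rw [b1, b2]; ring
  rw [h4]
  refine mul_le_mul_of_nonneg_left ?_ (by norm_num)
  cases γ with
  | zero =>
    show ((r / t) ^ 6 * (2 ^ 0) ^ 6)⁻¹ ≤ t ^ (-c) * (t / r) ^ e0
    have h5 : 1 ≤ t ^ (-c) := Real.one_le_rpow_of_pos_of_le_one_of_nonpos ht ht1 (by linarith)
    have h6 : ((r / t) ^ 6)⁻¹ ≤ (t / r) ^ e0 := by
      have e1 : ((r / t) ^ 6)⁻¹ = (t / r) ^ (6 : ℝ) := by
        rw [← inv_pow, inv_div]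
        norm_cast
      rw [e1]
      have htr : t / r ≤ 1 := by
        rw [div_le_one hr0]
        linarith
      exact Real.rpow_le_rpow_of_exponent_ge (div_pos ht hr0) htr (by linarith)
    have h7 : 0 ≤ (t / r) ^ e0 := (Real.rpow_pos_of_pos (div_pos ht hr0) _).le
    rw [pow_zero, one_pow, mul_one]
    nlinarith
  | succ g =>
    show ((r / t) ^ 6 * (2 ^ (g + 1)) ^ 6)⁻¹ ≤ (r / t) ^ 2 / (kg t r 1 g) ^ 6
    have hk' : kg t r 1 g = r / t * 2 ^ g := by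
      unfold kg
      rw [Real.rpow_one]
    rw [hk', mul_pow, le_div_iff₀ (by positivity)]
    have b1 : (0 : ℝ) < (2 ^ g) ^ 6 := by positivity
    have b2 : ((2 : ℝ) ^ (g + 1)) ^ 6 = 64 * (2 ^ g) ^ 6 := by
      have b0 : (2 : ℝ) ^ (g + 1) = 2 * 2 ^ g := by ring
      rw [b0, mul_pow]
      norm_num
    rw [b2]
    have b3 : (0 : ℝ) < (r / t) ^ 6 := by positivity
    have e2 : ((r / t) ^ 6 * (64 * (2 ^ g) ^ 6))⁻¹ * ((r / t) ^ 6 * (2 ^ g) ^ 6) = 1 / 64 := by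
      field_simp
    rw [e2]
    nlinarith

/-- **The bracket of the births of one generation.** -/
theorem brk {c e0 d L t r s ez P : ℝ} {h : ℕ} (ht : 0 < t) (ht1 : t ≤ 1) (hr : 1 ≤ r) (hs : 0 < s)
    (he0 : 0 < e0) (he1 : e0 ≤ 1) (hc : 0 ≤ c) (hd : 0 ≤ d) (hL : 0 ≤ L) (hez : 0 ≤ ez)
    (hP : 0 ≤ P) (γ : ℕ) :
    (1 + h * (qn t r γ : ℝ)) * (2 * ez * En c e0 L t r s γ) +
        2 * ez * ((kg t r 1 γ + 1) ^ 2 * (4 * t ^ (-d) * s)) * P * (1 / 2) ^ qn t r γ ≤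
      (2 * (1 + 12 * h) * (L / 2 + 3780000) + 32 * P) *
        (ez * s * t ^ (-d) * (lg t r γ * eg c e0 1 t r γ)) := by
  have hq := qn_le ht ht1 hr γ
  have hlg := lg_ge ht ht1 hr γ
  have heg := (eg_pos ht hr c e0 1 γ).le
  have htd : 1 ≤ t ^ (-d) := Real.one_le_rpow_of_pos_of_le_one_of_nonpos ht ht1 (by linarith)
  have hh : (0 : ℝ) ≤ h := Nat.cast_nonneg h
  have hE := En_le (c := c) ht ht1 hr hs he0 he1 hL γ
  have hT := tail_le (c := c) (e0 := e0) ht ht1 hr hc he1 γ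
  have hq0 : (0 : ℝ) ≤ qn t r γ := Nat.cast_nonneg _
  have h1 : 1 + h * (qn t r γ : ℝ) ≤ (1 + 12 * h) * lg t r γ := by nlinarith
  have hes : 0 ≤ ez * (s * eg c e0 1 t r γ) := by positivity
  have p1 : (1 + h * (qn t r γ : ℝ)) * (2 * ez * En c e0 L t r s γ) ≤
      (1 + 12 * h) * lg t r γ * (2 * ez * ((L / 2 + 3780000) * (s * eg c e0 1 t r γ))) := by
    have a1 : 2 * ez * En c e0 L t r s γ ≤
        2 * ez * ((L / 2 + 3780000) * (s * eg c e0 1 t r γ)) :=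
      mul_le_mul_of_nonneg_left hE (by positivity)
    have a2 : 0 ≤ 1 + h * (qn t r γ : ℝ) := by positivity
    have a3 : 0 ≤ 2 * ez * ((L / 2 + 3780000) * (s * eg c e0 1 t r γ)) := by positivity
    exact (mul_le_mul_of_nonneg_left a1 a2).trans (mul_le_mul_of_nonneg_right h1 a3)
  have p2 : 2 * ez * ((kg t r 1 γ + 1) ^ 2 * (4 * t ^ (-d) * s)) * P * (1 / 2) ^ qn t r γ ≤
      32 * P * (ez * s * t ^ (-d) * (lg t r γ * eg c e0 1 t r γ)) := by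
    have a1 : 2 * ez * ((kg t r 1 γ + 1) ^ 2 * (4 * t ^ (-d) * s)) * P * (1 / 2) ^ qn t r γ =
        8 * ez * t ^ (-d) * s * P * ((kg t r 1 γ + 1) ^ 2 * (1 / 2) ^ qn t r γ) := by ring
    rw [a1]
    have a2 : 0 ≤ 8 * ez * t ^ (-d) * s * P := by positivity
    refine (mul_le_mul_of_nonneg_left hT a2).trans ?_
    have a3 : 0 ≤ 32 * P * (ez * s * t ^ (-d)) * eg c e0 1 t r γ := by positivity
    nlinarith
  refine (add_le_add p1 p2).trans ?_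
  have a4 : 0 ≤ 2 * (1 + 12 * (h : ℝ)) * (L / 2 + 3780000) * (ez * s *
      (lg t r γ * eg c e0 1 t r γ)) := by positivity
  have a5 := mul_le_mul_of_nonneg_left htd a4
  have e3 : (1 + 12 * (h : ℝ)) * lg t r γ * (2 * ez * ((L / 2 + 3780000) *
      (s * eg c e0 1 t r γ))) = 2 * (1 + 12 * (h : ℝ)) * (L / 2 + 3780000) * (ez * s *
      (lg t r γ * eg c e0 1 t r γ)) * 1 := by ring
  rw [e3]
  have e4 : (2 * (1 + 12 * (h : ℝ)) * (L / 2 + 3780000) + 32 * P) *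
        (ez * s * t ^ (-d) * (lg t r γ * eg c e0 1 t r γ)) =
      2 * (1 + 12 * (h : ℝ)) * (L / 2 + 3780000) * (ez * s *
      (lg t r γ * eg c e0 1 t r γ)) * t ^ (-d) +
      32 * P * (ez * s * t ^ (-d) * (lg t r γ * eg c e0 1 t r γ)) := by ring
  rw [e4]
  linarith

end

end Vale.Agent.P141.H944.EVn
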