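import Vale.Agent.P141.H460.PBle
import Vale.Agent.P141.H540.GenRA
import Vale.Agent.P141.H305.TopM

/-!
# P141, line (A), births: the generations as moving slots and their energies

* `slm_RG`, `cap_RG` : the slot of a generation is a moving slot with the cap `(κ g + 1) ^ 2`;
* `mass_le` : the mass of `v` on the root square;
* `E_all`, `E_next` : energies of the generations from class data, in the letters of
  `H460.qB_cut`.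
-/

namespace Vale.Agent.P141.H944.EVs

open Finset Matrix
open Vale.Agent.P141.PL (Pt iv ix cb cx mem_iv mem_cb card_iv)
open Vale.Agent.P141.PL.H315 (Tri A2)
open Vale.Agent.P141.H460
open Vale.Agent.P141.H540 (RG RG_cap RG_end RG_next RG_sum sgn)
open Vale.Agent.P141.H43 (nsq nsq_nonneg)
open Vale.Agent.P141.H677 (GT MT KT)
open Vale.Agent.P141.H305 (Cls)

noncomputable section

open scoped Classical

set_option linter.unusedSectionVars false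

variable {ι : Type} [Fintype ι] [DecidableEq ι]

variable {Al : ℕ → Pt → Prop} {o : ℤ} {K : ℕ} {M : Pt} {sg : ℕ → Pt → ℝ} {l : ℝ}
  {u v : ℤ → ℤ → ι → ℝ} {κ : ℕ → ℝ}

/-- the slot of the generation `g`, order of the letters of `H677.Sk` -/
def SG (Al : ℕ → Pt → Prop) (o : ℤ) (K : ℕ) (M : Pt) (sg : ℕ → Pt → ℝ) (l : ℝ)
    (u : ℤ → ℤ → ι → ℝ) (κ : ℕ → ℝ) (g : ℕ) : H677.Sk.Slt ι :=
  fun x0 j z x => RG Al o K M sg l u κ g j x0 z x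

/-- **The slot of a generation is a moving slot.** -/
theorem slm_RG (g : ℕ) : SlM K (SG Al o K M sg l u κ g) := by
  constructor
  · intro _ _ x0 y0 z x hx
    unfold SG H540.RG H841.Rm
    refine sum_congr rfl fun i hi => ?_
    have hi' := (mem_Ico.1 hi).1
    have a0 := H677.ix_le hi' hx
    have b0 := H677.ix_le (Nat.le_succ i) a0
    unfold H841.Lm
    rw [b0, H677.hs_ix a0]
  · intro z x w
    exact H540.Rm_mart0 (o := o) (x1 := x) (n := K) (sgn Al o K M sg l u κ g x)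
      (MT l (KT l u x)) z w

/-- **The cap.** -/
theorem cap_RG (hl : 0 < l) (ho : o = 1 ∨ o = -1) (hsg : ∀ k m, |sg k m| ≤ 1)
    (hκ : ∀ g, 0 < κ g) (g : ℕ) : ∀ j ≤ K, ∀ (x0 z x : ℤ) (w : ι → ℝ),
    (SG Al o K M sg l u κ g x0 j z x *ᵥ w) ⬝ᵥ (SG Al o K M sg l u κ g x0 j z x *ᵥ w) ≤
      (κ g + 1) ^ 2 * (w ⬝ᵥ w) :=
  fun j hj x0 z x w => RG_cap hl ho hsg hκ g hj x0 z x w

/-- `RT` is the sum of the generations -/
theorem sl_eq (κ : ℕ → ℝ) : H677.Sk.sl Al o K M sg l u =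
    fun x0 j z x => ∑ g ∈ range (K + 1), SG Al o K M sg l u κ g x0 j z x := by
  funext x0 j z x
  exact (RG_sum (κ := κ) j x0 z x).symm

/-- the mass of `v` on the root square -/
theorem mass_le {U : Tri} {x : Pt} {σ : ℝ}
    (hv : ∀ a ∈ iv K (ix K x.1), ∀ z ∈ iv K (ix K x.2.2), v a z ⬝ᵥ v a z ≤ U.2.1 (a, z) ^ 2)
    (hσ : A2 K U.2.1 x.1 x.2.2 ≤ σ) :
    ∑ a ∈ iv K (ix K x.1), ∑ z ∈ iv K (ix K x.2.2), v a z ⬝ᵥ v a z ≤ σ * 4 ^ K := by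
  refine (sum_le_sum fun a ha => sum_le_sum fun z hz => hv a ha z hz).trans ?_
  rw [A2_sq]
  have h4 : (0 : ℝ) ≤ 4 ^ K := by positivity
  nlinarith

theorem cb_swap (t A B : ℤ) (f : ℤ → ℤ → ℤ → ℝ) :
    ∑ a ∈ cb K (t, A, B), f a.1 a.2.1 a.2.2 =
      ∑ x1 ∈ iv K A, ∑ x3 ∈ iv K B, ∑ x0 ∈ iv K t, f x0 x1 x3 := by
  unfold PL.cb
  rw [sum_product]
  simp only [sum_product]
  rw [sum_comm]
  refine sum_congr rfl fun x1 _ => ?_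
  rw [sum_comm]

section energy

variable {x : Pt} {U : Tri} {σ P ρ : ℝ}

/-- **The energy of every generation.** -/
theorem E_all (hl : 0 < l) (hsg : ∀ k m, |sg k m| ≤ 1) (hP : 0 ≤ P)
    (hpot : ∀ a ∈ iv K (ix K x.1), ∀ w : ι → ℝ, w ⬝ᵥ GT u a K (ix K x.2.1) *ᵥ w ≤ P * (w ⬝ᵥ w))
    (hv : ∀ a ∈ iv K (ix K x.1), ∀ z ∈ iv K (ix K x.2.2), v a z ⬝ᵥ v a z ≤ U.2.1 (a, z) ^ 2)
    (hσ : A2 K U.2.1 x.1 x.2.2 ≤ σ) (g : ℕ) (t : ℤ) :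
    ∑ a ∈ cb K (t, ix K x.1, ix K x.2.2),
      ((SG Al o K (cx K x) sg l u κ g a.1 0 a.2.2 a.2.1 *ᵥ v a.2.1 a.2.2) ⬝ᵥ
        (SG Al o K (cx K x) sg l u κ g a.1 0 a.2.2 a.2.1 *ᵥ v a.2.1 a.2.2)) ≤
      ((2 * l)⁻¹ * P * σ) * 8 ^ K := by
  have h0 : (0 : ℝ) ≤ (2 * l)⁻¹ := by positivity
  refine (le_of_eq (cb_swap t _ _ fun x0 x1 x3 =>
    (SG Al o K (cx K x) sg l u κ g x0 0 x3 x1 *ᵥ v x1 x3) ⬝ᵥ
      (SG Al o K (cx K x) sg l u κ g x0 0 x3 x1 *ᵥ v x1 x3))).trans ?_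
  have h1 : ∀ x1 ∈ iv K (ix K x.1), ∀ x3 ∈ iv K (ix K x.2.2),
      ∑ x0 ∈ iv K t, (SG Al o K (cx K x) sg l u κ g x0 0 x3 x1 *ᵥ v x1 x3) ⬝ᵥ
        (SG Al o K (cx K x) sg l u κ g x0 0 x3 x1 *ᵥ v x1 x3) ≤
      2 ^ K * ((2 * l)⁻¹ * P) * (v x1 x3 ⬝ᵥ v x1 x3) := by
    intro x1 hx1 x3 _
    have h2 := RG_end (K := K) (Al := Al) (o := o) (P := cx K x) (u := u) (κ := κ) hl hsg g {t} x3 x1
      (v x1 x3)
    rw [sum_singleton] at h2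
    refine h2.trans ?_
    have h3 := mul_le_mul_of_nonneg_left (hpot x1 hx1 (v x1 x3)) h0
    have h4 := mul_le_mul_of_nonneg_left h3 (by positivity : (0 : ℝ) ≤ 2 ^ K)
    refine h4.trans (le_of_eq (by ring))
  refine (sum_le_sum fun x1 hx1 => sum_le_sum fun x3 hx3 => h1 x1 hx1 x3 hx3).trans ?_
  simp only [← mul_sum]
  have h5 := mass_le hv hσ
  have h6 : (0 : ℝ) ≤ 2 ^ K * ((2 * l)⁻¹ * P) := by positivity
  refine (mul_le_mul_of_nonneg_left h5 h6).trans (le_of_eq ?_)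
  rw [show (8 : ℝ) ^ K = 2 ^ K * 4 ^ K by rw [← mul_pow]; norm_num]
  ring

/-- **The energy of a later generation.** -/
theorem E_next (hl : 0 < l) (ho : o = 1 ∨ o = -1) (hsg : ∀ k m, |sg k m| ≤ 1)
    (hκ : ∀ g, 0 < κ g) (hρ : 0 ≤ ρ)
    (hrow : ∀ a ∈ iv K (ix K x.1), (GT u a K (ix K x.2.1)).trace ≤ ρ)
    (hv : ∀ a ∈ iv K (ix K x.1), ∀ z ∈ iv K (ix K x.2.2), v a z ⬝ᵥ v a z ≤ U.2.1 (a, z) ^ 2)
    (hσ : A2 K U.2.1 x.1 x.2.2 ≤ σ) (g : ℕ) (t : ℤ) :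
    ∑ a ∈ cb K (t, ix K x.1, ix K x.2.2),
      ((SG Al o K (cx K x) sg l u κ (g + 1) a.1 0 a.2.2 a.2.1 *ᵥ v a.2.1 a.2.2) ⬝ᵥ
        (SG Al o K (cx K x) sg l u κ (g + 1) a.1 0 a.2.2 a.2.1 *ᵥ v a.2.1 a.2.2)) ≤
      (7560000 * ((2 * l)⁻¹ * ρ) / κ g ^ 6 * σ) * 8 ^ K := by
  have h0 : (0 : ℝ) ≤ (2 * l)⁻¹ := by positivity
  have h6 : 0 < κ g ^ 6 := pow_pos (hκ g) 6
  refine (le_of_eq (cb_swap t _ _ fun x0 x1 x3 =>
    (SG Al o K (cx K x) sg l u κ (g + 1) x0 0 x3 x1 *ᵥ v x1 x3) ⬝ᵥ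
      (SG Al o K (cx K x) sg l u κ (g + 1) x0 0 x3 x1 *ᵥ v x1 x3))).trans ?_
  have h1 : ∀ x1 ∈ iv K (ix K x.1), ∀ x3 ∈ iv K (ix K x.2.2),
      ∑ x0 ∈ iv K t, (SG Al o K (cx K x) sg l u κ (g + 1) x0 0 x3 x1 *ᵥ v x1 x3) ⬝ᵥ
        (SG Al o K (cx K x) sg l u κ (g + 1) x0 0 x3 x1 *ᵥ v x1 x3) ≤
      2 ^ K * (7560000 * ((2 * l)⁻¹ * ρ) / κ g ^ 6) * (v x1 x3 ⬝ᵥ v x1 x3) := by
    intro x1 hx1 x3 _
    have h2 := RG_next (K := K) (Al := Al) (o := o) (P := cx K x) (u := u) (κ := κ) hl ho hsg hκ g {t} x3 x1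
      (v x1 x3)
    rw [sum_singleton] at h2
    refine h2.trans ?_
    have h3 := mul_le_mul_of_nonneg_left (hrow x1 hx1) h0
    have h4 : 2520000 * (2 ^ K * ((2 * l)⁻¹ * (GT u x1 K (ix K x.2.1)).trace)) / κ g ^ 6 ≤
        2520000 * (2 ^ K * ((2 * l)⁻¹ * ρ)) / κ g ^ 6 := by
      refine div_le_div_of_nonneg_right ?_ h6.le
      have : (0 : ℝ) ≤ 2 ^ K := by positivity
      nlinarith [mul_le_mul_of_nonneg_left h3 this]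
    have h5 : 0 ≤ 3 * nsq (v x1 x3) := mul_nonneg (by norm_num) (H43.nsq_nonneg _)
    refine (mul_le_mul_of_nonneg_left h4 h5).trans (le_of_eq ?_)
    unfold H43.nsq
    ring
  refine (sum_le_sum fun x1 hx1 => sum_le_sum fun x3 hx3 => h1 x1 hx1 x3 hx3).trans ?_
  simp only [← mul_sum]
  have h5 := mass_le hv hσ
  have h6 : (0 : ℝ) ≤ 2 ^ K * (7560000 * ((2 * l)⁻¹ * ρ) / κ g ^ 6) := by positivity
  refine (mul_le_mul_of_nonneg_left h5 h6).trans (le_of_eq ?_)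
  rw [show (8 : ℝ) ^ K = 2 ^ K * 4 ^ K by rw [← mul_pow]; norm_num]
  ring

/-- class data: potentials -/
theorem pot_of {s r : ℝ} {g : ℤ → ℤ → ℝ} {w' : ℤ → ℤ → ι → ℝ} (h : Cls K x s r P U g u w') :
    ∀ a ∈ iv K (ix K x.1), ∀ w : ι → ℝ, w ⬝ᵥ GT u a K (ix K x.2.1) *ᵥ w ≤ P * (w ⬝ᵥ w) := by
  intro a ha w
  rw [H677.GT_form, ← H677.avg_iv]
  exact h.u_pot a ha w

/-- class data: rows -/
theorem row_of {s r : ℝ} {g : ℤ → ℤ → ℝ} {w' : ℤ → ℤ → ι → ℝ} (h : Cls K x s r P U g u w') :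
    ∀ a ∈ iv K (ix K x.1), (GT u a K (ix K x.2.1)).trace ≤ r * √s := by
  intro a ha
  rw [H677.GT_trace, ← H677.avg_iv]
  exact h.u_row a ha

end energy

end

end Vale.Agent.P141.H944.EVs
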