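import Vale.Agent.P141.H944.NumT
import Vale.Agent.P141.H585.KopN
import Vale.Agent.P141.H443.LsupW
import Vale.Agent.P141.H780.DrNum

/-!
# P141, line END: all the numbers of the main family, explicit

`topE` (operator norm: `H585.kS` + residual), `lE` (alive mass: `H443.cA`, `cB`), `dE` (dropped
mass: `H780.DrN`), `kerE` (`H606.tker_rgn`), `resE` (`H540.rpart_num`).
`mainNum`: `kerE + resE ≤ A2 * 2 ^ (-((κ + eE) j))` in the quantifiers of `MainT`.
-/

namespace Vale.Agent.P141.H944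

open Real
open Vale.Agent.P141.H606 (TN)
open Vale.Agent.P141.H585 (kS kS_le kS_nonneg cKop cKop_nonneg)
open Vale.Agent.P141.H443 (cA cB cA_nonneg)
open Vale.Agent.P141.H780 (DrN cN cN_nonneg DrN_nonneg)
open Vale.Agent.P141.PL.H855 (tj tj_pos tj_le_one tj_eq kapE muE m1E MmE)

noncomputable section

/-- the threshold of the alive components -/
def sgE (aM j : ℕ) : ℝ := tj j ^ (aM + 2)

/-- the exponent of the alive and of the dropped mass -/
def aLE (aM : ℕ) : ℕ := 153 * aM + 305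

/-- the threshold of the square functions -/
def epE (aM j : ℕ) : ℝ := tj j ^ (aLE aM + 1)

/-- the operator norm -/
def topE (A κ : ℝ) (aM j : ℕ) : ℝ :=
  kS A (tj j) (2 ^ (-(κ * (j : ℝ)))) (tj j ^ 2) + 3 / 2 * sgE aM j * m1E aM j

/-- the alive mass -/
def lE (A Lg : ℝ) (aM j : ℕ) : ℝ :=
  17 * ((cA (kapE aM j) (muE aM j) (sgE aM j) Lg (256 * A) +
    cB (kapE aM j) (muE aM j) (sgE aM j) (256 * A)) * m1E aM j)

/-- the dropped mass -/
def dE (A Lg : ℝ) (aM j : ℕ) : ℝ :=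
  DrN (kapE aM j) (muE aM j) (sgE aM j) Lg A (128 * MmE A aM j)

/-- the ker part -/
def kerE (A κ Lg : ℝ) (aM j : ℕ) (en K' : ℝ) : ℝ :=
  TN (epE aM j) (topE A κ aM j) (512 * en) (lE A Lg aM j) 157 (40192 * (K' + 1)) (dE A Lg aM j)

/-- the residual part -/
def resE (A LG : ℝ) (aM j : ℕ) (en K' : ℝ) : ℝ :=
  MmE A aM j * xR (muE aM j) (kapE aM j) (sgE aM j) LG (50944 * A / kapE aM j ^ 8)
    (3710 * (en * (K' + 1))) (259 * en) (259 * en)

variable {aM j : ℕ}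

theorem kapE_pos : 0 < kapE aM j := by
  have := tj_pos j
  unfold kapE; positivity

theorem kapE_le_one : kapE aM j ≤ 1 := pow_le_one₀ (tj_pos j).le (tj_le_one j)

theorem muE_pos : 0 < muE aM j := by
  have := kapE_pos (aM := aM) (j := j)
  unfold muE; positivity

theorem one_le_muE : 1 ≤ muE aM j := by
  unfold muE
  exact one_le_inv_iff₀.2 ⟨pow_pos kapE_pos _, pow_le_one₀ kapE_pos.le kapE_le_one⟩

theorem sgE_pos : 0 < sgE aM j := by
  have := tj_pos j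
  unfold sgE; positivity

theorem sgE_le_one : sgE aM j ≤ 1 := pow_le_one₀ (tj_pos j).le (tj_le_one j)

theorem m1E_pos : 0 < m1E aM j := by
  have := tj_pos j
  unfold m1E; positivity

theorem epE_pos : 0 < epE aM j := by
  have := tj_pos j
  unfold epE; positivity

theorem MmE_nonneg {A : ℝ} (hA : 0 ≤ A) : 0 ≤ MmE A aM j := by
  have := tj_pos j
  unfold MmE; positivity

theorem cB_nonneg' {κ μ sg Λ : ℝ} : 0 ≤ cB κ μ sg Λ := by
  unfold cB; positivity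

theorem topE_nonneg {A κ : ℝ} (hA : 0 ≤ A) : 0 ≤ topE A κ aM j := by
  have h1 := kS_nonneg (C := A) (t := tj j) (e0 := 2 ^ (-(κ * (j : ℝ)))) (lam := tj j ^ 2) hA
    (tj_pos j).le
  have h2 := sgE_pos (aM := aM) (j := j)
  have h3 := m1E_pos (aM := aM) (j := j)
  unfold topE; positivity

theorem lE_nonneg {A Lg : ℝ} (hL : 0 ≤ Lg) : 0 ≤ lE A Lg aM j := by
  have h1 := cA_nonneg (κ := kapE aM j) (sg := sgE aM j) (Λ := 256 * A)
    (muE_pos (aM := aM) (j := j)).le hL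
  have h2 := cB_nonneg' (κ := kapE aM j) (μ := muE aM j) (sg := sgE aM j) (Λ := 256 * A)
  have h3 := m1E_pos (aM := aM) (j := j)
  unfold lE; positivity

theorem dE_nonneg {A Lg : ℝ} (hA : 0 ≤ A) (hL : 0 ≤ Lg) : 0 ≤ dE A Lg aM j :=
  DrN_nonneg muE_pos.le hL (mul_nonneg (by norm_num) (MmE_nonneg hA))

/-- powers of `mu` -/
theorem mu_frac {a b c : ℕ} (X : ℝ) :
    muE aM j ^ a * X / (kapE aM j ^ b * sgE aM j ^ c) =
      X * ((kapE aM j ^ (26 * a + b))⁻¹ * (sgE aM j ^ c)⁻¹) := by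
  have h1 := kapE_pos (aM := aM) (j := j)
  have h2 := sgE_pos (aM := aM) (j := j)
  have e1 : muE aM j ^ a = (kapE aM j ^ (26 * a))⁻¹ := by
    unfold muE
    rw [inv_pow, ← pow_mul]
  rw [e1, pow_add]
  field_simp

theorem lE_le {A Lg : ℝ} (hL : 0 ≤ Lg) :
    2 * lE A Lg aM j ≤
      (34 * (557056 * (256 * A) ^ 2 * Lg + 1114112 * (256 * A) ^ 2)) / tj j ^ aLE aM := by
  have hk := kapE_pos (aM := aM) (j := j)
  have hk1 := kapE_le_one (aM := aM) (j := j)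
  have hs := sgE_pos (aM := aM) (j := j)
  have hs1 := sgE_le_one (aM := aM) (j := j)
  have hm := m1E_pos (aM := aM) (j := j)
  refine conv_le (aM := aM) (j := j) (p := 146) (q := 6) (r := 1) (s := 0) (by positivity) ?_
    (by unfold aLE; omega)
  have es : tj j ^ (aM + 2) = sgE aM j := rfl
  rw [pow_zero, mul_one, pow_one, es]
  have e1 : cA (kapE aM j) (muE aM j) (sgE aM j) Lg (256 * A) =
      557056 * (256 * A) ^ 2 * Lg * ((kapE aM j ^ 146)⁻¹ * (sgE aM j ^ 6)⁻¹) := by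
    unfold cA
    have := mu_frac (aM := aM) (j := j) (a := 5) (b := 16) (c := 6) ((256 * A) ^ 2 * Lg)
    rw [mul_assoc (muE aM j ^ 5), this]
    ring
  have e2 : cB (kapE aM j) (muE aM j) (sgE aM j) (256 * A) ≤
      1114112 * (256 * A) ^ 2 * ((kapE aM j ^ 146)⁻¹ * (sgE aM j ^ 6)⁻¹) := by
    unfold cB
    have e3 := mu_frac (aM := aM) (j := j) (a := 4) (b := 12) (c := 2) ((256 * A) ^ 2)
    rw [e3]
    have e4 : (kapE aM j ^ (26 * 4 + 12))⁻¹ ≤ (kapE aM j ^ 146)⁻¹ :=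
      inv_anti₀ (by positivity) (pow_le_pow_of_le_one hk.le hk1 (by norm_num))
    have e5 : (sgE aM j ^ 2)⁻¹ ≤ (sgE aM j ^ 6)⁻¹ :=
      inv_anti₀ (by positivity) (pow_le_pow_of_le_one hs.le hs1 (by norm_num))
    have e6 : (kapE aM j ^ (26 * 4 + 12))⁻¹ * (sgE aM j ^ 2)⁻¹ ≤
        (kapE aM j ^ 146)⁻¹ * (sgE aM j ^ 6)⁻¹ :=
      mul_le_mul e4 e5 (by positivity) (by positivity)
    calc _ ≤ 1114112 * ((256 * A) ^ 2 * ((kapE aM j ^ 146)⁻¹ * (sgE aM j ^ 6)⁻¹)) :=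
          mul_le_mul_of_nonneg_left (mul_le_mul_of_nonneg_left e6 (by positivity)) (by norm_num)
      _ = _ := by ring
  unfold lE
  rw [e1]
  have e7 := mul_le_mul_of_nonneg_right (add_le_add_right e2 (557056 * (256 * A) ^ 2 * Lg *
    ((kapE aM j ^ 146)⁻¹ * (sgE aM j ^ 6)⁻¹))) hm.le
  calc _ ≤ 2 * (17 * ((557056 * (256 * A) ^ 2 * Lg *
      ((kapE aM j ^ 146)⁻¹ * (sgE aM j ^ 6)⁻¹) + 1114112 * (256 * A) ^ 2 *
      ((kapE aM j ^ 146)⁻¹ * (sgE aM j ^ 6)⁻¹)) * m1E aM j)) := by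
        refine mul_le_mul_of_nonneg_left (mul_le_mul_of_nonneg_left e7 (by norm_num))
          (by norm_num)
    _ = _ := by ring

theorem dE_le {A Lg : ℝ} (hA : 0 ≤ A) (hL : 0 ≤ Lg) :
    dE A Lg aM j ≤ (187 * (34 * cN * ((1 + Lg) * A ^ 2)) * (128 * A)) / tj j ^ aLE aM := by
  have hc := cN_nonneg
  refine conv_le (aM := aM) (j := j) (p := 98) (q := 6) (r := 0) (s := 1) (by positivity)
    (le_of_eq ?_) (by unfold aLE; omega)
  have es : tj j ^ (aM + 2) = sgE aM j := rfl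
  rw [pow_zero, mul_one, pow_one, es]
  unfold dE DrN
  have e1 := mu_frac (aM := aM) (j := j) (a := 3) (b := 20) (c := 6) ((1 + Lg) * A ^ 2)
  rw [mul_assoc (muE aM j ^ 3), e1]
  unfold MmE
  ring

/-- **All the numbers of the main family**, in the quantifiers of `MainT`. -/
theorem mainNum {κ : ℝ} (hκ : 0 < κ) (aM : ℕ) :
    ∃ B eE : ℝ, 0 ≤ B ∧ 0 < eE ∧ ∀ A : ℝ, 1 ≤ A → ∀ A3 A4 Lg LG : ℝ, 0 ≤ A3 → 0 ≤ A4 → 0 ≤ Lg →
      0 ≤ LG → ∃ A2 : ℝ, 0 ≤ A2 ∧ ∀ (j : ℕ) (en K' : ℝ), 0 < en →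
        en ≤ A * 2 ^ (-(B * (j : ℝ))) → 1 ≤ K' → en * K' ≤ A * 2 ^ (-(κ * (j : ℝ))) →
        A3 * kerE A κ Lg aM j en K' + A4 * resE A LG aM j en K' ≤
          A2 * 2 ^ (-((κ + eE) * (j : ℝ))) := by
  refine ⟨BE aM (aLE aM) 8 κ, min (3 / 8) (κ / 2), BE_nonneg hκ.le, ?_, ?_⟩
  · exact lt_min (by norm_num) (by positivity)
  intro A hA A3 A4 Lg LG hA3 hA4 hLg hLG
  have hA0 : 0 ≤ A := by linarith
  have hc := cN_nonneg
  have hck := cKop_nonneg hA
  set CL : ℝ := 34 * (557056 * (256 * A) ^ 2 * Lg + 1114112 * (256 * A) ^ 2) with hCL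
  set CD : ℝ := 187 * (34 * cN * ((1 + Lg) * A ^ 2)) * (128 * A) with hCD
  have hCL0 : 0 ≤ CL := by positivity
  have hCD0 : 0 ≤ CD := by positivity
  refine ⟨cMain A 512 CL CD (3 * cKop A + 3 / 2) LG (50944 * A) 3710 259 259 157 40192 A3 A4,
    cMain_nonneg hA0 (by norm_num) hCL0 hCD0 (by positivity) (by norm_num) (by norm_num)
      (by norm_num) (by norm_num) hA3 hA4, ?_⟩
  intro j en K' hen henB hK henK
  have hK0 : 0 ≤ K' := by linarith
  have ht := tj_pos j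
  have hp0 : (0 : ℝ) < 2 ^ (-(κ * (j : ℝ))) := rpow_pos_of_pos two_pos _
  have hp1 : (2 : ℝ) ^ (-(κ * (j : ℝ))) ≤ 1 := rpow_le_one_of_one_le_of_nonpos one_le_two (by
    have := mul_nonneg hκ.le (Nat.cast_nonneg j (α := ℝ))
    linarith)
  have hk8 : 0 < kapE aM j ^ 8 := pow_pos kapE_pos 8
  have htop : topE A κ aM j ≤ (3 * cKop A + 3 / 2) * tj j ^ min (3 / 8) (κ / 2) := by
    refine top_tj (aM := aM) hck (by norm_num)
      (kS_le hA ht (tj_le_one j) hp0.le hp1 (by positivity)) (le_of_eq ?_)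
    unfold sgE; ring
  exact main_num (aL := aLE aM) (pE := 8) hA0 (by norm_num) hCL0 hCD0 (by positivity) hLG
    (by positivity) (by norm_num) (by norm_num) (by norm_num) (by norm_num) (by norm_num) hA3 hA4
    hen henB hK henK (by positivity) le_rfl le_rfl (lE_nonneg hLg) (dE_nonneg hA0 hLg) (lE_le hLg)
    (dE_le hA0 hLg) (topE_nonneg hA0) htop le_rfl (by positivity)
    (by rw [div_eq_mul_inv]) (by positivity) le_rfl (by positivity) le_rfl

end

end Vale.Agent.P141.H944
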