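import Vale.Agent.P141.H944.MainNum

/-!
# P141, line END: `MainT` from the estimate of the main family with explicit numbers

`mainEst_mono`: the conclusion of `H998.MainEst` may be enlarged.
`mainT_of`: if for every datum the estimate of the main family holds with the number
`A3 * kerE + A4 * resE` (`H944/MainNum`), then `MainT` (`PL/H855/EndSpine`).
-/

namespace Vale.Agent.P141.H944

open Real
open Vale.Agent.P141.PL (Pt)
open Vale.Agent.P141.PL.H95 (gr shf)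
open Vale.Agent.P141.PL.H318
open Vale.Agent.P141.PL.H855 (N4 tj tj_pos tj_le_one kapE muE m1E MmE MainT)
open Vale.Agent.P141.H347 (Dat2 Root2 cd cd_pos)
open Vale.Agent.P141.H347.Gs (Ex)
open Vale.Agent.P141.H782 (gb LSys LSys.S LSys.w used)
open Vale.Agent.P141.H379 (nvF)
open Vale.Agent.P141.H998 (MainEst lmM)

noncomputable section

/-- the conclusion of `MainEst` may be enlarged -/
theorem mainEst_mono {α κι : Type*} {s : ℤ} {nv : N4 (gr 7 s) α} {gd : ℕ → ℤ → Prop} {L : ℕ}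
    {U : Fin 4 → CSys (gr 7 s) κι} {lmf : Pt → Finset H998.Bi → (H998.Bi → ℝ) → ℕ → ℤ → ℝ}
    {C e0 lam m1 e K κ μ Mm cM cM' : ℝ}
    (h : MainEst nv gd L U lmf C e0 lam m1 e K κ μ Mm cM) (hc : cM ≤ cM') :
    MainEst nv gd L U lmf C e0 lam m1 e K κ μ Mm cM' := by
  intro σ Λ x ud hΛ hR hx P GP D G1 B cf E v F hd hP hu hG hD hu2 hG1 hlam hlm t W hW
  exact (h σ Λ x ud hΛ hR hx P GP D G1 B cf E v F hd hP hu hG hD hu2 hG1 hlam hlm t W hW).trans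
    (mul_le_mul_of_nonneg_right hc (cd_pos _ _ _).le)

/-- **`MainT` from the estimate of the main family with explicit numbers.** -/
theorem mainT_of {A3 A4 : ℝ} {Lg LG : ℝ → ℝ} (hA3 : 0 ≤ A3) (hA4 : 0 ≤ A4)
    (hLg : ∀ A, 1 ≤ A → 0 ≤ Lg A) (hLG : ∀ A, 1 ≤ A → 0 ≤ LG A)
    (h : ∀ (e : Ex) (κ : ℝ), 0 < e.g → 0 < κ → κ ≤ 1 → ∀ aM : ℕ, 1 ≤ aM → e.a' ≤ aM →
      ∀ A : ℝ, 1 ≤ A → ∀ (n : ℕ) (P : ℝ), 0 ≤ P → Root2 n P → ∀ f o K V 𝒩
        (hd : Dat2 n f o K V 𝒩), ∀ j : ℕ, 1 ≤ j → ∀ b, ∀ en K' : ℝ, 0 < en → 1 ≤ K' →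
      MainEst (s := shf (n + 7) b) (nvF hd b ∅) (used n K V f b) K ((e.T n).sys.S j b)
        (lmM (shf (n + 7) b) 1024) A (2 ^ (-(κ * (j : ℝ)))) (tj j ^ 2) (m1E aM j) en K' (kapE aM j)
        (muE aM j) (MmE A aM j) (A3 * kerE A κ (Lg A) aM j en K' +
          A4 * resE A (LG A) aM j en K')) : MainT := by
  intro e κ he hκ hκ1 aM hM1 ha
  obtain ⟨B, eE, hB, heE, hnum⟩ := mainNum hκ aM
  refine ⟨B, eE, hB, heE, fun A hA => ?_⟩
  obtain ⟨A2, hA2, hnum⟩ := hnum A hA A3 A4 (Lg A) (LG A) hA3 hA4 (hLg A hA) (hLG A hA)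
  refine ⟨A2, hA2, ?_⟩
  intro n P hP hroot f o K V 𝒩 hd j hj b en K' hen henB hK' henK
  refine mainEst_mono (h e κ he hκ hκ1 aM hM1 ha A hA n P hP hroot f o K V 𝒩 hd j hj b en K' hen
    hK') ?_
  have h1 := hnum j en K' hen henB hK' henK
  have h2 : 0 ≤ A2 * 2 ^ (-((κ + eE) * (j : ℝ))) :=
    mul_nonneg hA2 (rpow_pos_of_pos two_pos _).le
  refine h1.trans ?_
  nlinarith

end

end Vale.Agent.P141.H944
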