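import Mathlib

/-!
# P141, line END, module NumE: the order of constants, pure reals

Letters: `t` = uniformity level (`0 < t ≤ 1`), `e0` = threshold of the windows (`e0 ≤ t ^ x0`),
`e` = energy of the blocks (`e ≤ Ee * (t ^ N * e0)`, `N` as large as needed), `K` = hereditary
packing (`1 ≤ K`, `e * K ≤ Ep * e0`), `CP` = constant of the black box, `Mm` = mass of the births
(`Mm ≤ Cm / t ^ aM`).

Parameters of END: `kap = t ^ n1`, `mu = kap ^ (-26)`, `lam = t ^ 2`, `m1 = t ^ (-(aM + 1))`,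
`sig = t ^ n2` (`aM + 2 ≤ n1, n2`), `eps = t ^ (aL + 1)` (`aL` = exponent of `L` and of the dropped
mass).

`restR`: the number of everything but the main family (998, `restN`); `xKer`, `top_le`, `xRes`: the
numbers of the main family.  Each of them is at most `A * (t ^ g * e0)` times `CP` or `1`,
`g = min (4 / 9) (x0 / 2)`; `end_num` is the sum, in the form of `EndOut`.
-/

namespace Vale.Agent.P141.H944

open Real

noncomputable section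

/-! ## Powers -/

theorem tpow_le {t : ℝ} (h0 : 0 < t) (h1 : t ≤ 1) {n : ℕ} {g : ℝ} (h : g ≤ n) :
    t ^ n ≤ t ^ g := by
  rw [← rpow_natCast]
  exact rpow_le_rpow_of_exponent_ge h0 h1 h

theorem t_le {t g : ℝ} (h0 : 0 < t) (h1 : t ≤ 1) (h : g ≤ 1) : t ≤ t ^ g := by
  have h2 := rpow_le_rpow_of_exponent_ge h0 h1 h
  rwa [rpow_one] at h2

theorem tpow_le' {t : ℝ} (h0 : 0 < t) (h1 : t ≤ 1) {x g : ℝ} (h : g ≤ x) : t ^ x ≤ t ^ g :=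
  rpow_le_rpow_of_exponent_ge h0 h1 h

theorem sqrt_rp {t : ℝ} (h0 : 0 < t) (x : ℝ) : √(t ^ x) = t ^ (x / 2) := by
  rw [sqrt_eq_rpow, ← rpow_mul h0.le]
  congr 1
  ring

/-- the energy of the last round is small -/
theorem small_e {t e0 τ c0 E0 k1 : ℝ} {nR N : ℕ} (h0 : 0 < t) (h1 : t ≤ 1) (he0 : 0 ≤ e0)
    (hτ0 : 0 ≤ τ) (hτ : τ ≤ t ^ c0) (hE : 0 ≤ E0) (hk : 0 ≤ k1) (hN : (N : ℝ) ≤ c0 * nR) :
    E0 * e0 * (k1 * τ) ^ nR ≤ E0 * k1 ^ nR * (t ^ N * e0) := by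
  have h2 : τ ^ nR ≤ t ^ N := by
    refine (pow_le_pow_left₀ hτ0 hτ nR).trans ?_
    rw [← rpow_natCast (t ^ c0), ← rpow_mul h0.le, ← rpow_natCast t N]
    exact rpow_le_rpow_of_exponent_ge h0 h1 hN
  rw [mul_pow]
  calc E0 * e0 * (k1 ^ nR * τ ^ nR) = E0 * e0 * k1 ^ nR * τ ^ nR := by ring
    _ ≤ E0 * e0 * k1 ^ nR * t ^ N := mul_le_mul_of_nonneg_left h2 (by positivity)
    _ = _ := by ring

/-- the tiny factor -/
theorem tiny_eq {kap mu : ℝ} (hk : 0 < kap) (hm : mu = (kap ^ 26)⁻¹) :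
    6 * kap + 8 / (kap ^ 12 * √mu) = 14 * kap := by
  have h1 : √mu = (kap ^ 13)⁻¹ := by
    rw [hm, sqrt_inv, show kap ^ 26 = (kap ^ 13) ^ 2 by ring, sqrt_sq (by positivity)]
  rw [h1]
  field_simp
  ring

/-! ## The numbers of the parts (per point of the root cell) -/

/-- everything but the main family (998, `restN`): tiny slot, border, exceptional cells of the tiny
part, exceptional cells of the mass density (`τ`) -/
def restR (CP C e0 lam e K kap mu Mm τ : ℝ) : ℝ :=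
  362 * 10 ^ 3 * CP * (√(2 * (C + C * e0)) * √C * (e * K)) *
      ((√lam)⁻¹ * (16 * (6 * kap + 8 / (kap ^ 12 * √mu)) * Mm) + τ) +
    CP * √C * e * (4 * (68 * 10 ^ 4) * K * (16 * (6 * kap + 8 / (kap ^ 12 * √mu)) * Mm) +
      68 ^ 4 / 32 * √(2 * (C + C * e0)))

/-- the ker part (606, `T_ker`) -/
def xKer (top eps L Dr e K : ℝ) : ℝ :=
  (top + 2 * √(eps * L) + eps) *
    (e * (1 + K + (1 + L / eps) / eps * Dr + 2 * (eps ^ 2)⁻¹ * (L ^ 2 + 2 * L * Dr)))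

/-- the residual part (540, `T_res`), powers `p`, `q`, `r` -/
def xRes (p q r : ℕ) (kap sig e K Mm : ℝ) : ℝ :=
  Mm * ((kap ^ p)⁻¹ * (sig ^ q)⁻¹ * (√e * √(e * (1 + K + (kap ^ r)⁻¹))) +
    sig * (e * (1 + K + (kap ^ r)⁻¹)))

variable {t e0 e K Ee Ep Cm CP C Mm g : ℝ} {N aM n1 n2 : ℕ}

/-- `t ^ n * Mm` -/
theorem pMm_le (h0 : 0 < t) (h1 : t ≤ 1) {n m : ℕ} (hn : aM + m ≤ n) (hCm : 0 ≤ Cm)
    (hMm : Mm ≤ Cm / t ^ aM) : t ^ n * Mm ≤ Cm * t ^ m := by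
  calc t ^ n * Mm ≤ t ^ n * (Cm / t ^ aM) := mul_le_mul_of_nonneg_left hMm (by positivity)
    _ ≤ t ^ (aM + m) * (Cm / t ^ aM) :=
        mul_le_mul_of_nonneg_right (pow_le_pow_of_le_one h0.le h1 hn) (by positivity)
    _ = _ := by rw [pow_add]; field_simp

/-- the constant of `restR_le` -/
def cRest (C Ee Ep Cm Cτ : ℝ) : ℝ :=
  362 * 10 ^ 3 * (2 * C * Ep) * (224 * Cm + Cτ) +
    (4 * (68 * 10 ^ 4) * 224 * (√C * Cm * Ep) + 68 ^ 4 / 16 * (C * Ee))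

/-- **Everything but the main family.** -/
theorem restR_le (h0 : 0 < t) (h1 : t ≤ 1) (hg : g ≤ 1) (hN : 1 ≤ N) (he0 : 0 ≤ e0)
    (he1 : e0 ≤ 1) (hC : 0 ≤ C) (hCP : 0 ≤ CP) (hEe : 0 ≤ Ee) (hEp : 0 ≤ Ep) (hK : 0 ≤ K)
    (he : 0 ≤ e) (heK : e * K ≤ Ep * e0) (heN : e ≤ Ee * (t ^ N * e0)) (hCm : 0 ≤ Cm)
    (hMm : Mm ≤ Cm / t ^ aM) (hMm0 : 0 ≤ Mm) (hn1 : aM + 2 ≤ n1) {τ Cτ : ℝ} (hτ0 : 0 ≤ τ)
    (hτ : τ ≤ Cτ * t) :
    restR CP C e0 (t ^ 2) e K (t ^ n1) ((t ^ n1) ^ 26)⁻¹ Mm τ ≤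
      cRest C Ee Ep Cm Cτ * (t ^ g * e0) * CP := by
  have hp : t ≤ t ^ g := t_le h0 h1 hg
  have hg0 : 0 < t ^ g := rpow_pos_of_pos h0 g
  have hs : √C * √C = C := mul_self_sqrt hC
  have hsC := sqrt_nonneg C
  have hCτ : 0 ≤ Cτ := by
    by_contra h
    have : Cτ * t < 0 := mul_neg_of_neg_of_pos (not_le.1 h) h0
    linarith
  have hs2 : √(2 * (C + C * e0)) ≤ 2 * √C := by
    have h5 : √(2 * (C + C * e0)) ≤ √(2 ^ 2 * C) := sqrt_le_sqrt (by nlinarith)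
    have h6 : √(2 ^ 2 * C) = 2 * √C := by
      rw [sqrt_mul (by positivity), sqrt_sq (by norm_num)]
    rwa [h6] at h5
  set s2 := √(2 * (C + C * e0)) with hs2d
  have hs20 : 0 ≤ s2 := sqrt_nonneg _
  set T : ℝ := 16 * (6 * t ^ n1 + 8 / ((t ^ n1) ^ 12 * √((t ^ n1) ^ 26)⁻¹)) * Mm with hT
  have hT1 : T = 224 * (t ^ n1 * Mm) := by
    rw [hT, tiny_eq (by positivity) rfl]; ring
  have hT0 : 0 ≤ T := by rw [hT1]; positivity
  have hT2 : T ≤ 224 * Cm * t ^ 2 := by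
    rw [hT1, mul_assoc]
    exact mul_le_mul_of_nonneg_left (pMm_le h0 h1 hn1 hCm hMm) (by norm_num)
  have hT3 : (√(t ^ 2))⁻¹ * T ≤ 224 * Cm * t := by
    rw [sqrt_sq h0.le]
    calc t⁻¹ * T ≤ t⁻¹ * (224 * Cm * t ^ 2) := mul_le_mul_of_nonneg_left hT2 (by positivity)
      _ = _ := by field_simp
  have hT4 : T ≤ 224 * Cm * t := by
    refine hT2.trans (mul_le_mul_of_nonneg_left ?_ (by positivity))
    nlinarith
  have heK0 : 0 ≤ e * K := mul_nonneg he hK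
  -- first term
  have b1 : 362 * 10 ^ 3 * CP * (s2 * √C * (e * K)) * ((√(t ^ 2))⁻¹ * T + τ) ≤
      362 * 10 ^ 3 * (2 * C * Ep) * (224 * Cm + Cτ) * (t ^ g * e0) * CP := by
    have c1 : s2 * √C * (e * K) ≤ 2 * C * (Ep * e0) := by
      have c2 : s2 * √C ≤ 2 * C := by
        calc s2 * √C ≤ 2 * √C * √C := mul_le_mul_of_nonneg_right hs2 hsC
          _ = 2 * C := by rw [mul_assoc, hs]
      exact mul_le_mul c2 heK heK0 (by positivity)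
    have c3 : (√(t ^ 2))⁻¹ * T + τ ≤ (224 * Cm + Cτ) * t ^ g := by
      calc (√(t ^ 2))⁻¹ * T + τ ≤ 224 * Cm * t + Cτ * t := add_le_add hT3 hτ
        _ = (224 * Cm + Cτ) * t := by ring
        _ ≤ _ := mul_le_mul_of_nonneg_left hp (by positivity)
    have c4 : 0 ≤ (√(t ^ 2))⁻¹ * T + τ := by positivity
    calc _ = 362 * 10 ^ 3 * CP * ((s2 * √C * (e * K)) * ((√(t ^ 2))⁻¹ * T + τ)) := by ring
      _ ≤ 362 * 10 ^ 3 * CP * ((2 * C * (Ep * e0)) * ((224 * Cm + Cτ) * t ^ g)) := by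
          refine mul_le_mul_of_nonneg_left (mul_le_mul c1 c3 c4 (by positivity)) (by positivity)
      _ = _ := by ring
  -- second term
  have b2 : CP * √C * e * (4 * (68 * 10 ^ 4) * K * T + 68 ^ 4 / 32 * s2) ≤
      (4 * (68 * 10 ^ 4) * 224 * (√C * Cm * Ep) + 68 ^ 4 / 16 * (C * Ee)) * (t ^ g * e0) * CP := by
    have c1 : e * K * T ≤ Ep * e0 * (224 * Cm * t ^ g) :=
      mul_le_mul heK (hT4.trans (mul_le_mul_of_nonneg_left hp (by positivity))) hT0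
        (by positivity)
    have c2 : e ≤ Ee * (t ^ g * e0) := by
      refine heN.trans (mul_le_mul_of_nonneg_left (mul_le_mul_of_nonneg_right ?_ he0) hEe)
      refine le_trans ?_ hp
      calc t ^ N ≤ t ^ 1 := pow_le_pow_of_le_one h0.le h1 hN
        _ = t := pow_one t
    have c3 : √C * s2 * e ≤ 2 * C * (Ee * (t ^ g * e0)) := by
      have c4 : √C * s2 ≤ 2 * C := by
        calc √C * s2 ≤ √C * (2 * √C) := mul_le_mul_of_nonneg_left hs2 hsC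
          _ = 2 * (√C * √C) := by ring
          _ = 2 * C := by rw [hs]
      exact mul_le_mul c4 c2 he (by positivity)
    calc _ = CP * (4 * (68 * 10 ^ 4) * √C * (e * K * T) + 68 ^ 4 / 32 * (√C * s2 * e)) := by ring
      _ ≤ CP * (4 * (68 * 10 ^ 4) * √C * (Ep * e0 * (224 * Cm * t ^ g)) +
          68 ^ 4 / 32 * (2 * C * (Ee * (t ^ g * e0)))) := by
          refine mul_le_mul_of_nonneg_left (add_le_add ?_ ?_) hCP
          · exact mul_le_mul_of_nonneg_left c1 (by positivity)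
          · exact mul_le_mul_of_nonneg_left c3 (by positivity)
      _ = _ := by ring
  unfold restR cRest
  rw [← hs2d, ← hT]
  refine (add_le_add b1 b2).trans (le_of_eq ?_)
  ring

/-- the bracket of `xKer` -/
theorem brk_le (h0 : 0 < t) (h1 : t ≤ 1) (he0 : 0 ≤ e0) (hEe : 0 ≤ Ee)
    (hK : 1 ≤ K) (he : 0 ≤ e) (heK : e * K ≤ Ep * e0) (heN : e ≤ Ee * (t ^ N * e0))
    {aL : ℕ} (hN : 4 * aL + 2 ≤ N) {L Dr CL CD : ℝ} (hL0 : 0 ≤ L) (hD0 : 0 ≤ Dr) (hCL : 0 ≤ CL)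
    (hCD : 0 ≤ CD) (hL : L ≤ CL / t ^ aL) (hD : Dr ≤ CD / t ^ aL) :
    e * (1 + K + (1 + L / t ^ (aL + 1)) / t ^ (aL + 1) * Dr +
      2 * ((t ^ (aL + 1)) ^ 2)⁻¹ * (L ^ 2 + 2 * L * Dr)) ≤
      (2 * Ep + Ee * ((1 + CL) * CD + 2 * (CL ^ 2 + 2 * CL * CD))) * e0 := by
  have hp : 0 < t ^ (aL + 1) := by positivity
  have hq : 0 < t ^ aL := by positivity
  have hr : 0 < t ^ (4 * aL + 2) := by positivity
  have b1 : e * (1 + K) ≤ 2 * Ep * e0 := by nlinarith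
  have e1 : t ^ (4 * aL + 2) = t ^ (aL + 1) * (t ^ (aL + 1) * (t ^ aL * t ^ aL)) := by ring
  -- the two fractions
  have b2 : (1 + L / t ^ (aL + 1)) / t ^ (aL + 1) * Dr ≤ (1 + CL) * CD / t ^ (4 * aL + 2) := by
    have c1 : 1 + L / t ^ (aL + 1) ≤ (1 + CL) / (t ^ (aL + 1) * t ^ aL) := by
      have c2 : (1 : ℝ) ≤ 1 / (t ^ (aL + 1) * t ^ aL) := by
        rw [le_div_iff₀ (by positivity), one_mul, ← pow_add]
        exact pow_le_one₀ h0.le h1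
      have c3 : L / t ^ (aL + 1) ≤ CL / (t ^ (aL + 1) * t ^ aL) := by
        rw [mul_comm (t ^ (aL + 1)), ← div_div]
        exact div_le_div_of_nonneg_right hL hp.le
      rw [add_div]
      linarith
    calc (1 + L / t ^ (aL + 1)) / t ^ (aL + 1) * Dr
        ≤ (1 + CL) / (t ^ (aL + 1) * t ^ aL) / t ^ (aL + 1) * (CD / t ^ aL) := by
          refine mul_le_mul (div_le_div_of_nonneg_right c1 hp.le) hD hD0 (by positivity)
      _ = _ := by rw [e1]; field_simp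
  have b3 : ((t ^ (aL + 1)) ^ 2)⁻¹ * (L ^ 2 + 2 * L * Dr) ≤
      (CL ^ 2 + 2 * CL * CD) / t ^ (4 * aL + 2) := by
    have c1 : L ^ 2 + 2 * L * Dr ≤ (CL ^ 2 + 2 * CL * CD) / (t ^ aL * t ^ aL) := by
      have c2 : L ^ 2 ≤ CL ^ 2 / (t ^ aL * t ^ aL) := by
        refine (pow_le_pow_left₀ hL0 hL 2).trans (le_of_eq ?_)
        rw [div_pow, sq (t ^ aL)]
      have c3 : L * Dr ≤ CL * CD / (t ^ aL * t ^ aL) := by
        refine (mul_le_mul hL hD hD0 (by positivity)).trans (le_of_eq ?_)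
        rw [div_mul_div_comm]
      rw [add_div]
      have c4 : 2 * CL * CD / (t ^ aL * t ^ aL) = 2 * (CL * CD / (t ^ aL * t ^ aL)) := by ring
      rw [c4]
      linarith
    calc ((t ^ (aL + 1)) ^ 2)⁻¹ * (L ^ 2 + 2 * L * Dr)
        ≤ ((t ^ (aL + 1)) ^ 2)⁻¹ * ((CL ^ 2 + 2 * CL * CD) / (t ^ aL * t ^ aL)) :=
          mul_le_mul_of_nonneg_left c1 (by positivity)
      _ = _ := by rw [e1]; field_simp
  set Q := (1 + CL) * CD + 2 * (CL ^ 2 + 2 * CL * CD) with hQ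
  have hQ0 : 0 ≤ Q := by positivity
  have b4 : (1 + L / t ^ (aL + 1)) / t ^ (aL + 1) * Dr +
      2 * (((t ^ (aL + 1)) ^ 2)⁻¹ * (L ^ 2 + 2 * L * Dr)) ≤ Q / t ^ (4 * aL + 2) := by
    have c1 : Q / t ^ (4 * aL + 2) = (1 + CL) * CD / t ^ (4 * aL + 2) +
        2 * ((CL ^ 2 + 2 * CL * CD) / t ^ (4 * aL + 2)) := by rw [hQ]; ring
    rw [c1]
    linarith
  have b5 : e * (Q / t ^ (4 * aL + 2)) ≤ Ee * Q * e0 := by
    have c1 : t ^ N ≤ t ^ (4 * aL + 2) := pow_le_pow_of_le_one h0.le h1 hN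
    calc e * (Q / t ^ (4 * aL + 2)) ≤ Ee * (t ^ (4 * aL + 2) * e0) * (Q / t ^ (4 * aL + 2)) := by
          refine mul_le_mul_of_nonneg_right (heN.trans ?_) (by positivity)
          exact mul_le_mul_of_nonneg_left (mul_le_mul_of_nonneg_right c1 he0) hEe
      _ = _ := by field_simp
  have b6 := mul_le_mul_of_nonneg_left b4 he
  calc _ = e * (1 + K) + e * ((1 + L / t ^ (aL + 1)) / t ^ (aL + 1) * Dr +
      2 * (((t ^ (aL + 1)) ^ 2)⁻¹ * (L ^ 2 + 2 * L * Dr))) := by ring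
    _ ≤ 2 * Ep * e0 + Ee * Q * e0 := add_le_add b1 (b6.trans b5)
    _ = _ := by ring

/-- the constant of `xKer_le` -/
def cKer (Ee Ep CL CD Ct : ℝ) : ℝ :=
  (Ct + 2 * √CL + 1) * (2 * Ep + Ee * ((1 + CL) * CD + 2 * (CL ^ 2 + 2 * CL * CD)))

/-- **The ker part.** -/
theorem xKer_le (h0 : 0 < t) (h1 : t ≤ 1) (hg : g ≤ 1 / 2) (he0 : 0 ≤ e0) (hEe : 0 ≤ Ee)
    (hEp : 0 ≤ Ep) (hK : 1 ≤ K) (he : 0 ≤ e) (heK : e * K ≤ Ep * e0)
    (heN : e ≤ Ee * (t ^ N * e0)) {aL : ℕ} (hN : 4 * aL + 2 ≤ N) {L Dr CL CD top Ct : ℝ}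
    (hL0 : 0 ≤ L) (hD0 : 0 ≤ Dr) (hCL : 0 ≤ CL) (hCD : 0 ≤ CD) (hL : L ≤ CL / t ^ aL)
    (hD : Dr ≤ CD / t ^ aL) (hCt : 0 ≤ Ct) (htop : top ≤ Ct * t ^ g) :
    xKer top (t ^ (aL + 1)) L Dr e K ≤ cKer Ee Ep CL CD Ct * (t ^ g * e0) := by
  have b := brk_le h0 h1 he0 hEe hK he heK heN hN hL0 hD0 hCL hCD hL hD
  unfold cKer
  set Q := 2 * Ep + Ee * ((1 + CL) * CD + 2 * (CL ^ 2 + 2 * CL * CD)) with hQ
  have hQ0 : 0 ≤ Q := by positivity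
  have hg0 : 0 < t ^ g := rpow_pos_of_pos h0 g
  have c1 : √(t ^ (aL + 1) * L) ≤ √CL * t ^ g := by
    have c2 : t ^ (aL + 1) * L ≤ CL * t := by
      calc t ^ (aL + 1) * L ≤ t ^ (aL + 1) * (CL / t ^ aL) :=
            mul_le_mul_of_nonneg_left hL (by positivity)
        _ = _ := by rw [pow_succ]; field_simp
    refine (sqrt_le_sqrt c2).trans ?_
    rw [sqrt_mul hCL, sqrt_eq_rpow t]
    exact mul_le_mul_of_nonneg_left (tpow_le' h0 h1 hg) (sqrt_nonneg _)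
  have c3 : t ^ (aL + 1) ≤ t ^ g := by
    refine tpow_le h0 h1 ?_
    push_cast
    have : (0 : ℝ) ≤ aL := Nat.cast_nonneg _
    linarith
  have c4 : top + 2 * √(t ^ (aL + 1) * L) + t ^ (aL + 1) ≤ (Ct + 2 * √CL + 1) * t ^ g := by
    linarith
  unfold xKer
  have c5 : 0 ≤ e * (1 + K + (1 + L / t ^ (aL + 1)) / t ^ (aL + 1) * Dr +
      2 * ((t ^ (aL + 1)) ^ 2)⁻¹ * (L ^ 2 + 2 * L * Dr)) := by
    have : 0 ≤ K := by linarith
    positivity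
  calc _ ≤ ((Ct + 2 * √CL + 1) * t ^ g) * (Q * e0) :=
        mul_le_mul c4 b c5 (by positivity)
    _ = _ := by ring

/-- **The operator norm off the exceptional cells.** -/
theorem top_le (h0 : 0 < t) (h1 : t ≤ 1) {x0 : ℝ} (hg : g ≤ 4 / 9) (hg' : g ≤ x0 / 2)
    (he : e0 ≤ t ^ x0) (hn2 : aM + 2 ≤ n2) {Ct top : ℝ} (hCt : 0 ≤ Ct)
    (h : top ≤ Ct * (t ^ (4 / 9 : ℝ) + √e0 + √(t ^ 2) + t ^ n2 * (t ^ (aM + 1))⁻¹)) :
    top ≤ 4 * Ct * t ^ g := by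
  have b1 : t ^ (4 / 9 : ℝ) ≤ t ^ g := tpow_le' h0 h1 hg
  have b2 : √e0 ≤ t ^ g := by
    refine (sqrt_le_sqrt he).trans ?_
    rw [sqrt_rp h0]
    exact tpow_le' h0 h1 hg'
  have b3 : √(t ^ 2) ≤ t ^ g := by
    rw [sqrt_sq h0.le]
    exact t_le h0 h1 (by linarith)
  have b4 : t ^ n2 * (t ^ (aM + 1))⁻¹ ≤ t ^ g := by
    refine le_trans ?_ (t_le h0 h1 (by linarith))
    calc t ^ n2 * (t ^ (aM + 1))⁻¹ ≤ t ^ (aM + 2) * (t ^ (aM + 1))⁻¹ :=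
          mul_le_mul_of_nonneg_right (pow_le_pow_of_le_one h0.le h1 hn2) (by positivity)
      _ = t := by rw [pow_succ]; field_simp
  calc top ≤ _ := h
    _ ≤ Ct * (t ^ g + t ^ g + t ^ g + t ^ g) :=
        mul_le_mul_of_nonneg_left (by linarith) hCt
    _ = _ := by ring

/-- the constant of `xRes_le` -/
def cRes (Ee Ep Cm : ℝ) : ℝ := Cm * (√Ee * √(2 * Ep + Ee) + (2 * Ep + Ee))

/-- **The residual part.** -/
theorem xRes_le (h0 : 0 < t) (h1 : t ≤ 1) (hg : g ≤ 1) (he0 : 0 ≤ e0) (hEe : 0 ≤ Ee)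
    (hEp : 0 ≤ Ep) (hK : 1 ≤ K) (he : 0 ≤ e) (heK : e * K ≤ Ep * e0)
    (heN : e ≤ Ee * (t ^ N * e0)) {p q r : ℕ} (hn2 : aM + 2 ≤ n2) (hN1 : n1 * r ≤ N)
    (hN : 2 * (aM + 1 + n1 * p + n2 * q) ≤ N) (hCm : 0 ≤ Cm) (hMm : Mm ≤ Cm / t ^ aM) :
    xRes p q r (t ^ n1) (t ^ n2) e K Mm ≤ cRes Ee Ep Cm * (t ^ g * e0) := by
  have hp := t_le h0 h1 hg
  have hg0 : 0 < t ^ g := rpow_pos_of_pos h0 g
  have hK0 : 0 ≤ K := by linarith
  have b1 : e * (1 + K + ((t ^ n1) ^ r)⁻¹) ≤ (2 * Ep + Ee) * e0 := by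
    have c1 : e * (1 + K) ≤ 2 * Ep * e0 := by nlinarith
    have c2 : e * ((t ^ n1) ^ r)⁻¹ ≤ Ee * e0 := by
      have c3 : t ^ N ≤ (t ^ n1) ^ r := by
        rw [← pow_mul]; exact pow_le_pow_of_le_one h0.le h1 hN1
      calc e * ((t ^ n1) ^ r)⁻¹ ≤ Ee * ((t ^ n1) ^ r * e0) * ((t ^ n1) ^ r)⁻¹ := by
            refine mul_le_mul_of_nonneg_right (heN.trans ?_) (by positivity)
            exact mul_le_mul_of_nonneg_left (mul_le_mul_of_nonneg_right c3 he0) hEe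
        _ = _ := by field_simp
    calc _ = e * (1 + K) + e * ((t ^ n1) ^ r)⁻¹ := by ring
      _ ≤ 2 * Ep * e0 + Ee * e0 := add_le_add c1 c2
      _ = _ := by ring
  have hbr : 0 ≤ e * (1 + K + ((t ^ n1) ^ r)⁻¹) := by positivity
  set m := aM + 1 + n1 * p + n2 * q with hm
  -- the first term
  have b2 : √e * √(e * (1 + K + ((t ^ n1) ^ r)⁻¹)) ≤
      √Ee * √(2 * Ep + Ee) * (t ^ m * e0) := by
    have c1 : √e ≤ √Ee * (t ^ m * √e0) := by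
      have c2 : t ^ N ≤ (t ^ m) ^ 2 := by
        rw [← pow_mul]; exact pow_le_pow_of_le_one h0.le h1 (by omega)
      have c3 : e ≤ Ee * ((t ^ m) ^ 2 * e0) :=
        heN.trans (mul_le_mul_of_nonneg_left (mul_le_mul_of_nonneg_right c2 he0) hEe)
      refine (sqrt_le_sqrt c3).trans (le_of_eq ?_)
      rw [sqrt_mul hEe, sqrt_mul (by positivity), sqrt_sq (by positivity)]
    have c4 : √(e * (1 + K + ((t ^ n1) ^ r)⁻¹)) ≤ √(2 * Ep + Ee) * √e0 := by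
      refine (sqrt_le_sqrt b1).trans (le_of_eq ?_)
      rw [sqrt_mul (by positivity)]
    calc _ ≤ (√Ee * (t ^ m * √e0)) * (√(2 * Ep + Ee) * √e0) :=
          mul_le_mul c1 c4 (sqrt_nonneg _) (by positivity)
      _ = √Ee * √(2 * Ep + Ee) * (t ^ m * (√e0 * √e0)) := by ring
      _ = _ := by rw [mul_self_sqrt he0]
  unfold xRes cRes
  have b3 : Mm * (((t ^ n1) ^ p)⁻¹ * ((t ^ n2) ^ q)⁻¹ *
      (√e * √(e * (1 + K + ((t ^ n1) ^ r)⁻¹)))) ≤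
      Cm * (√Ee * √(2 * Ep + Ee)) * (t ^ g * e0) := by
    calc _ ≤ Cm / t ^ aM * (((t ^ n1) ^ p)⁻¹ * ((t ^ n2) ^ q)⁻¹ *
          (√Ee * √(2 * Ep + Ee) * (t ^ m * e0))) := by
          refine mul_le_mul hMm ?_ (by positivity) (by positivity)
          exact mul_le_mul_of_nonneg_left b2 (by positivity)
      _ = Cm * (√Ee * √(2 * Ep + Ee)) * (t * e0) := by
          have e1 : t ^ m = t ^ aM * (t * ((t ^ n1) ^ p * (t ^ n2) ^ q)) := by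
            rw [← pow_mul, ← pow_mul, hm]; ring
          rw [e1]
          field_simp
      _ ≤ _ := by
          refine mul_le_mul_of_nonneg_left (mul_le_mul_of_nonneg_right hp he0) (by positivity)
  have b4 : Mm * (t ^ n2 * (e * (1 + K + ((t ^ n1) ^ r)⁻¹))) ≤
      Cm * (2 * Ep + Ee) * (t ^ g * e0) := by
    have c0 : t ^ n2 * Mm ≤ Cm * t ^ g := by
      refine (pMm_le (m := 1) h0 h1 (by omega) hCm hMm).trans ?_
      rw [pow_one]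
      exact mul_le_mul_of_nonneg_left hp hCm
    calc _ = t ^ n2 * Mm * (e * (1 + K + ((t ^ n1) ^ r)⁻¹)) := by ring
      _ ≤ Cm * t ^ g * ((2 * Ep + Ee) * e0) := mul_le_mul c0 b1 hbr (by positivity)
      _ = _ := by ring
  calc _ = Mm * (((t ^ n1) ^ p)⁻¹ * ((t ^ n2) ^ q)⁻¹ *
      (√e * √(e * (1 + K + ((t ^ n1) ^ r)⁻¹)))) +
      Mm * (t ^ n2 * (e * (1 + K + ((t ^ n1) ^ r)⁻¹))) := by ring
    _ ≤ _ := add_le_add b3 b4
    _ = _ := by ring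

/-! ## The sum -/

/-- the constant of `end_num` -/
def cEnd (A1 Cb Cm Cτ CL CD Ct A3 A4 : ℝ) : ℝ :=
  cRest A1 A1 A1 Cm Cτ * Cb + A3 * cKer A1 A1 CL CD (4 * Ct) + A4 * cRes A1 A1 Cm

theorem cRest_nonneg {Cτ : ℝ} (hC : 0 ≤ C) (hEe : 0 ≤ Ee) (hEp : 0 ≤ Ep) (hCm : 0 ≤ Cm)
    (hCτ : 0 ≤ Cτ) : 0 ≤ cRest C Ee Ep Cm Cτ := by unfold cRest; positivity

theorem cKer_nonneg {CL CD Ct : ℝ} (hEe : 0 ≤ Ee) (hEp : 0 ≤ Ep) (hCL : 0 ≤ CL) (hCD : 0 ≤ CD)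
    (hCt : 0 ≤ Ct) : 0 ≤ cKer Ee Ep CL CD Ct := by unfold cKer; positivity

theorem cRes_nonneg (hEe : 0 ≤ Ee) (hEp : 0 ≤ Ep) (hCm : 0 ≤ Cm) : 0 ≤ cRes Ee Ep Cm := by
  unfold cRes; positivity

/-- **The numbers of END**, in the form of `EndOut`: `t = 2 ^ (-j)`, `e ≤ A1 t ^ B`,
`e K ≤ A1 t ^ κ`; `cM` = number of the main family. -/
theorem end_num {κ B A1 Cb P CP' Cτ τ CL CD L Dr top Ct A3 A4 cM : ℝ} {aM n1 n2 aL p q r : ℕ}
    (h0 : 0 < t) (h1 : t ≤ 1) (hκ : 0 < κ) (hP : 0 ≤ P) (hA1 : 0 ≤ A1)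
    (hB1 : 4 * (aL : ℝ) + 3 + κ ≤ B) (hB2 : (n1 : ℝ) * r + κ ≤ B)
    (hB3 : 2 * ((aM : ℝ) + 1 + n1 * p + n2 * q) + κ ≤ B)
    (hn1 : aM + 2 ≤ n1) (hn2 : aM + 2 ≤ n2)
    (he : 0 < e) (heB : e ≤ A1 * t ^ B) (hK : 1 ≤ K) (heK : e * K ≤ A1 * t ^ κ)
    (hCP : 0 ≤ CP') (hCPb : CP' ≤ Cb * (1 + P))
    (hCm : 0 ≤ Cm) (hMm : Mm ≤ Cm / t ^ aM) (hMm0 : 0 ≤ Mm) (hτ0 : 0 ≤ τ) (hτ : τ ≤ Cτ * t)
    (hL0 : 0 ≤ L) (hD0 : 0 ≤ Dr) (hCL : 0 ≤ CL) (hCD : 0 ≤ CD) (hL : L ≤ CL / t ^ aL)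
    (hD : Dr ≤ CD / t ^ aL) (hCt : 0 ≤ Ct)
    (htop : top ≤ Ct * (t ^ (4 / 9 : ℝ) + √(t ^ κ) + √(t ^ 2) + t ^ n2 * (t ^ (aM + 1))⁻¹))
    (hA3 : 0 ≤ A3) (hA4 : 0 ≤ A4)
    (hcM : cM ≤ A3 * xKer top (t ^ (aL + 1)) L Dr e K +
      A4 * xRes p q r (t ^ n1) (t ^ n2) e K Mm) :
    cM + restR CP' A1 (t ^ κ) (t ^ 2) e K (t ^ n1) ((t ^ n1) ^ 26)⁻¹ Mm τ ≤
      cEnd A1 Cb Cm Cτ CL CD Ct A3 A4 * t ^ (κ + min (4 / 9) (κ / 2)) * (1 + P) := by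
  set g : ℝ := min (4 / 9) (κ / 2) with hg
  have hg1 : g ≤ 4 / 9 := min_le_left _ _
  have hg2 : g ≤ κ / 2 := min_le_right _ _
  have hκ0 : 0 < t ^ κ := rpow_pos_of_pos h0 κ
  have hκ1 : t ^ κ ≤ 1 := rpow_le_one h0.le h1 hκ.le
  have hCτ : 0 ≤ Cτ := by
    by_contra h
    have : Cτ * t < 0 := mul_neg_of_neg_of_pos (not_le.1 h) h0
    linarith
  -- the energy
  obtain ⟨N, hN, hNB⟩ : ∃ N : ℕ, (4 * aL + 2 ≤ N ∧ n1 * r ≤ N ∧
      2 * (aM + 1 + n1 * p + n2 * q) ≤ N) ∧ (N : ℝ) + κ ≤ B := by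
    refine ⟨max (4 * aL + 2) (max (n1 * r) (2 * (aM + 1 + n1 * p + n2 * q))),
      ⟨le_max_left _ _, (le_max_left _ _).trans (le_max_right _ _),
        (le_max_right _ _).trans (le_max_right _ _)⟩, ?_⟩
    have : ((max (4 * aL + 2) (max (n1 * r) (2 * (aM + 1 + n1 * p + n2 * q))) : ℕ) : ℝ) ≤
        B - κ := by
      rw [Nat.cast_max, Nat.cast_max]
      refine max_le ?_ (max_le ?_ ?_)
      · push_cast; linarith
      · push_cast; linarith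
      · push_cast; linarith
    linarith
  have heN : e ≤ A1 * (t ^ N * t ^ κ) := by
    refine heB.trans (mul_le_mul_of_nonneg_left ?_ hA1)
    rw [← rpow_natCast, ← rpow_add h0]
    exact tpow_le' h0 h1 hNB
  have r1 := restR_le (g := g) (N := N) h0 h1 (by linarith) (by omega) hκ0.le hκ1 hA1 hCP hA1 hA1
    (by linarith) he.le heK heN hCm hMm hMm0 hn1 hτ0 hτ
  have r2 := top_le (g := g) h0 h1 hg1 hg2 le_rfl hn2 hCt htop
  have r3 := xKer_le (g := g) (N := N) h0 h1 (by linarith) hκ0.le hA1 hA1 hK he.le heK heN hN.1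
    hL0 hD0 hCL hCD hL hD (by positivity : 0 ≤ 4 * Ct) r2
  have r4 := xRes_le (g := g) (N := N) (p := p) (q := q) (r := r) (n1 := n1) h0 h1 (by linarith)
    hκ0.le hA1 hA1 hK he.le heK heN hn2 hN.2.1 hN.2.2 hCm hMm
  have c1 := cRest_nonneg hA1 hA1 hA1 hCm hCτ
  have c2 := cKer_nonneg (Ee := A1) (Ep := A1) hA1 hA1 hCL hCD (by positivity : 0 ≤ 4 * Ct)
  have c3 := cRes_nonneg (Ee := A1) (Ep := A1) hA1 hA1 hCm
  have hg0 : 0 < t ^ g := rpow_pos_of_pos h0 g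
  have hgk : 0 ≤ t ^ g * t ^ κ := by positivity
  have e1 : t ^ (κ + g) = t ^ g * t ^ κ := by rw [add_comm, rpow_add h0]
  rw [e1]
  have s1 : restR CP' A1 (t ^ κ) (t ^ 2) e K (t ^ n1) ((t ^ n1) ^ 26)⁻¹ Mm τ ≤
      cRest A1 A1 A1 Cm Cτ * Cb * (t ^ g * t ^ κ) * (1 + P) := by
    refine r1.trans ?_
    calc _ ≤ cRest A1 A1 A1 Cm Cτ * (t ^ g * t ^ κ) * (Cb * (1 + P)) :=
          mul_le_mul_of_nonneg_left hCPb (by positivity)
      _ = _ := by ring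
  have s2 : A3 * xKer top (t ^ (aL + 1)) L Dr e K ≤
      A3 * cKer A1 A1 CL CD (4 * Ct) * (t ^ g * t ^ κ) * (1 + P) := by
    calc _ ≤ A3 * (cKer A1 A1 CL CD (4 * Ct) * (t ^ g * t ^ κ)) * 1 := by
          rw [mul_one]; exact mul_le_mul_of_nonneg_left r3 hA3
      _ ≤ A3 * (cKer A1 A1 CL CD (4 * Ct) * (t ^ g * t ^ κ)) * (1 + P) :=
          mul_le_mul_of_nonneg_left (by linarith) (by positivity)
      _ = _ := by ring
  have s3 : A4 * xRes p q r (t ^ n1) (t ^ n2) e K Mm ≤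
      A4 * cRes A1 A1 Cm * (t ^ g * t ^ κ) * (1 + P) := by
    calc _ ≤ A4 * (cRes A1 A1 Cm * (t ^ g * t ^ κ)) * 1 := by
          rw [mul_one]; exact mul_le_mul_of_nonneg_left r4 hA4
      _ ≤ A4 * (cRes A1 A1 Cm * (t ^ g * t ^ κ)) * (1 + P) :=
          mul_le_mul_of_nonneg_left (by linarith) (by positivity)
      _ = _ := by ring
  unfold cEnd
  calc _ ≤ A3 * cKer A1 A1 CL CD (4 * Ct) * (t ^ g * t ^ κ) * (1 + P) +
        A4 * cRes A1 A1 Cm * (t ^ g * t ^ κ) * (1 + P) +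
        cRest A1 A1 A1 Cm Cτ * Cb * (t ^ g * t ^ κ) * (1 + P) := by linarith
    _ = _ := by ring

/-- `2 ^ (-(x j))` as a power of `t = 2 ^ (-j)` -/
theorem two_rp (x : ℝ) (j : ℕ) : (2 : ℝ) ^ (-(x * (j : ℝ))) = ((2 : ℝ) ^ (-(j : ℝ))) ^ x := by
  rw [← rpow_mul two_pos.le]
  congr 1
  ring

end

end Vale.Agent.P141.H944
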