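import Vale.Agent.P141.H944.NumR
import Vale.Agent.P141.H998.EndOf

/-!
# P141, line END: the number `restN` of `endStm_of`

`restN_eq`: `H998.restN` is `restR` of `H944/NumR`; `restN_le`: its bound.
-/

namespace Vale.Agent.P141.H944

open Real
open Vale.Agent.P141.H998 (restN tinyN)

noncomputable section

theorem restN_eq (CP C e0 lam e K κ μ Mm τ : ℝ) :
    restN CP C e0 lam e K κ μ Mm τ = restR CP C e0 lam e K κ μ Mm τ := rfl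

theorem restN_le {t e0 e K Ee Ep Cm CP C Mm g : ℝ} {N aM n1 : ℕ} (h0 : 0 < t) (h1 : t ≤ 1)
    (hg : g ≤ 1) (hN : 1 ≤ N) (he0 : 0 ≤ e0)
    (he1 : e0 ≤ 1) (hC : 0 ≤ C) (hCP : 0 ≤ CP) (hEe : 0 ≤ Ee) (hEp : 0 ≤ Ep) (hK : 0 ≤ K)
    (he : 0 ≤ e) (heK : e * K ≤ Ep * e0) (heN : e ≤ Ee * (t ^ N * e0)) (hCm : 0 ≤ Cm)
    (hMm : Mm ≤ Cm / t ^ aM) (hMm0 : 0 ≤ Mm) (hn1 : aM + 2 ≤ n1) {τ Cτ : ℝ} (hτ0 : 0 ≤ τ)
    (hτ : τ ≤ Cτ * t) :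
    restN CP C e0 (t ^ 2) e K (t ^ n1) ((t ^ n1) ^ 26)⁻¹ Mm τ ≤
      cRest C Ee Ep Cm Cτ * (t ^ g * e0) * CP :=
  restR_le h0 h1 hg hN he0 he1 hC hCP hEe hEp hK he heK heN hCm hMm hMm0 hn1 hτ0 hτ

end

end Vale.Agent.P141.H944
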