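import Vale.Agent.P141.H944.NumR
import Vale.Agent.P141.H606.TKer
import Vale.Agent.P141.H829.ExcOp
import Vale.Agent.P141.PL.H855.EndSpine

/-!
# P141, line END: the number of the main family

The numbers of `H606.tker` (`TN`), `H540.rpart_num` (`xR`), `H829.kOp` and of the residual operator
for the parameters of `PL.H855.MainT`: `t = tj j`, `kap = t ^ (aM + 2)`, `mu = kap ^ (-26)`,
`lam = t ^ 2`, `m1 = t ^ (-(aM + 1))`, `Mm = A t ^ (-aM)`, and `sig = t ^ (aM + 2)`,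
`eps = t ^ (aL + 1)`.

`main_num`: the sum is at most `A2 * 2 ^ (-((κ + eE) j))`, `eE = min (3 / 8) (κ / 2)`.
`low_num`: the levels with `1 < Cδ * tj j`.
-/

namespace Vale.Agent.P141.H944

open Real
open Vale.Agent.P141.H606 (TN)
open Vale.Agent.P141.H829 (kOp)
open Vale.Agent.P141.PL.H855 (tj tj_pos tj_le_one tj_eq kapE muE m1E MmE)

noncomputable section

variable {t e0 e K Ee Ep Cm C Mm g : ℝ} {N aM n1 n2 : ℕ}

/-! ## The ker part -/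

/-- `TN` from `xKer` -/
theorem TN_le_xKer {ε τ L D Nr tt Ct : ℝ} (hε : 0 < ε) (hτ : 0 ≤ τ) (he : 0 ≤ e) (hL : 0 ≤ L)
    (hD : 0 ≤ D) (hN : 0 ≤ Nr) (hCt : 0 ≤ Ct) (hK : 1 ≤ K) (htt : tt ≤ Ct * (K + 1)) :
    TN ε τ e L Nr tt D ≤ 2 * Nr * (Nr + Ct + 1) * xKer τ ε (2 * L) D e K := by
  unfold TN xKer
  set L' : ℝ := 2 * L with hL'
  have hL0 : 0 ≤ L' := by positivity
  have h0 : √(ε * L) ≤ √(ε * L') := by
    refine sqrt_le_sqrt (mul_le_mul_of_nonneg_left ?_ hε.le)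
    rw [hL']; linarith
  have h1 : 0 ≤ (1 + L' / ε) / ε * D := by positivity
  have h2 : 0 ≤ 2 * (ε ^ 2)⁻¹ * (L' ^ 2 + 2 * L' * D) := by positivity
  have h3 : 2 * (ε ^ 2)⁻¹ * (Nr * L' ^ 2 + 2 * L' * D) ≤
      (Nr + Ct + 1) * (2 * (ε ^ 2)⁻¹ * (L' ^ 2 + 2 * L' * D)) := by
    have h4 : 0 ≤ 2 * (ε ^ 2)⁻¹ := by positivity
    have h5 : Nr * L' ^ 2 + 2 * L' * D ≤ (Nr + Ct + 1) * (L' ^ 2 + 2 * L' * D) := by
      have h6 : 0 ≤ L' ^ 2 := by positivity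
      have h7 : 0 ≤ 2 * L' * D := by positivity
      nlinarith [mul_nonneg hN h7, mul_nonneg hCt h6, mul_nonneg hCt h7]
    calc _ ≤ 2 * (ε ^ 2)⁻¹ * ((Nr + Ct + 1) * (L' ^ 2 + 2 * L' * D)) :=
          mul_le_mul_of_nonneg_left h5 h4
      _ = _ := by ring
  have h8 : Nr + tt + (1 + L' / ε) / ε * D + 2 * (ε ^ 2)⁻¹ * (Nr * L' ^ 2 + 2 * L' * D) ≤
      (Nr + Ct + 1) * (1 + K + (1 + L' / ε) / ε * D + 2 * (ε ^ 2)⁻¹ * (L' ^ 2 + 2 * L' * D)) := by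
    have h9 : (1 + L' / ε) / ε * D ≤ (Nr + Ct + 1) * ((1 + L' / ε) / ε * D) :=
      le_mul_of_one_le_left h1 (by linarith)
    have h10 : Nr + tt ≤ (Nr + Ct + 1) * (1 + K) := by nlinarith
    calc _ ≤ (Nr + Ct + 1) * (1 + K) + (Nr + Ct + 1) * ((1 + L' / ε) / ε * D) +
          (Nr + Ct + 1) * (2 * (ε ^ 2)⁻¹ * (L' ^ 2 + 2 * L' * D)) := by linarith
      _ = _ := by ring
  have h11 : 0 ≤ τ + 2 * √(ε * L) + ε := by positivity
  have h12 : τ + 2 * √(ε * L) + ε ≤ τ + 2 * √(ε * L') + ε := by linarith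
  have hK0 : 0 ≤ K := by linarith
  calc _ ≤ (τ + 2 * √(ε * L) + ε) * (2 * Nr * (e * ((Nr + Ct + 1) *
        (1 + K + (1 + L' / ε) / ε * D + 2 * (ε ^ 2)⁻¹ * (L' ^ 2 + 2 * L' * D))))) := by
        refine mul_le_mul_of_nonneg_left ?_ h11
        refine mul_le_mul_of_nonneg_left (mul_le_mul_of_nonneg_left h8 he) (by positivity)
    _ ≤ (τ + 2 * √(ε * L') + ε) * (2 * Nr * (e * ((Nr + Ct + 1) *
        (1 + K + (1 + L' / ε) / ε * D + 2 * (ε ^ 2)⁻¹ * (L' ^ 2 + 2 * L' * D))))) :=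
        mul_le_mul_of_nonneg_right h12 (by positivity)
    _ = _ := by ring

/-- the constant of the operator norm -/
def cTop (A Cδ Cs : ℝ) : ℝ :=
  151200 * (128 * A) * √(128 * A) * (2 * Cδ) ^ (3 / 8 : ℝ) + 128 * A + 128 * √A + Cs

/-- **The operator norm** `kOp + resT`. -/
theorem kOp_le (h0 : 0 < t) (h1 : t ≤ 1) {κ A Cδ Cs r : ℝ} (hg : g ≤ 3 / 8) (hg' : g ≤ κ / 2)
    (hA : 0 ≤ A) (hCδ : 0 ≤ Cδ) (hn2 : aM + 2 ≤ n2) (hCs : 0 ≤ Cs)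
    (hr : r ≤ Cs * (t ^ n2 * (t ^ (aM + 1))⁻¹)) :
    kOp A A (Cδ * t) (A * t ^ κ) (t ^ 2) + r ≤ cTop A Cδ Cs * t ^ g := by
  have hg0 : 0 < t ^ g := rpow_pos_of_pos h0 g
  have b1 : (2 * (Cδ * t)) ^ (3 / 8 : ℝ) ≤ (2 * Cδ) ^ (3 / 8 : ℝ) * t ^ g := by
    rw [← mul_assoc, mul_rpow (by positivity) h0.le]
    exact mul_le_mul_of_nonneg_left (tpow_le' h0 h1 hg) (by positivity)
  have b2 : √(A * t ^ κ * A) ≤ A * t ^ g := by
    have e1 : A * t ^ κ * A = A ^ 2 * t ^ κ := by ring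
    rw [e1, sqrt_mul (by positivity), sqrt_sq hA, sqrt_rp h0]
    exact mul_le_mul_of_nonneg_left (tpow_le' h0 h1 hg') hA
  have b3 : √(t ^ 2 * A) ≤ √A * t ^ g := by
    rw [sqrt_mul (by positivity), sqrt_sq h0.le, mul_comm]
    exact mul_le_mul_of_nonneg_left (t_le h0 h1 (by linarith)) (sqrt_nonneg _)
  have b4 : r ≤ Cs * t ^ g := by
    refine hr.trans (mul_le_mul_of_nonneg_left ?_ hCs)
    refine le_trans ?_ (t_le h0 h1 (by linarith))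
    calc t ^ n2 * (t ^ (aM + 1))⁻¹ ≤ t ^ (aM + 2) * (t ^ (aM + 1))⁻¹ :=
          mul_le_mul_of_nonneg_right (pow_le_pow_of_le_one h0.le h1 hn2) (by positivity)
      _ = t := by rw [pow_succ]; field_simp
  unfold kOp cTop
  have c1 := mul_le_mul_of_nonneg_left b1
    (by positivity : 0 ≤ 151200 * (128 * A) * √(128 * A))
  calc _ ≤ 151200 * (128 * A) * √(128 * A) * ((2 * Cδ) ^ (3 / 8 : ℝ) * t ^ g) +
        128 * (A * t ^ g) + 128 * (√A * t ^ g) + Cs * t ^ g := by linarith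
    _ = _ := by ring

/-! ## The residual part -/

theorem sqrt_abc {a b c : ℝ} (ha : 0 ≤ a) (hb : 0 ≤ b) :
    √(a * (b ^ 2 * c)) = √a * (b * √c) := by
  rw [sqrt_mul ha (b ^ 2 * c), sqrt_mul (by positivity) c, sqrt_sq hb]

/-- the number of one birth in `H540.rpart_num`, per unit of mass -/
def xR (μ kap σ LG nE nD nL e : ℝ) : ℝ :=
  26016 * (2 * √(2 * (μ / kap ^ 4) * e) *
    √((4 + 24 * (μ / kap ^ 4) * LG / σ ^ 2) * nE * (nD + 192 * nL / kap ^ 8)) +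
    3 / 2 * σ * (nD + 192 * nL / kap ^ 8))

/-- the constant of `xR_le` -/
def cR (LG CE CN Ce : ℝ) : ℝ :=
  26016 * (2 * √(2 * Ce) * √((4 + 24 * LG) * CE * CN) + 3 / 2 * CN)

theorem xR_le {kap σ LG nE nD nL e' CE CnD CnL Ce : ℝ} {pE : ℕ} (hk : 0 < kap) (hk1 : kap ≤ 1)
    (hσ : 0 < σ) (hσ1 : σ ≤ 1) (he : 0 ≤ e) (hK : 0 ≤ K) (hLG : 0 ≤ LG) (hCE : 0 ≤ CE)
    (hnE0 : 0 ≤ nE)
    (hnE : nE ≤ CE * (kap ^ pE)⁻¹) (hnD0 : 0 ≤ nD) (hnL0 : 0 ≤ nL) (hCnD : 0 ≤ CnD)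
    (hCnL : 0 ≤ CnL)
    (hnD : nD ≤ CnD * (e * (K + 1))) (hnL : nL ≤ CnL * e) (hCe : 0 ≤ Ce) (he' : e' ≤ Ce * e)
    (hMm0 : 0 ≤ Mm) :
    Mm * xR (kap ^ 26)⁻¹ kap σ LG nE nD nL e' ≤
      cR LG CE (CnD + 192 * CnL) Ce * xRes (30 + pE) 1 8 kap σ e K Mm := by
  set CN := CnD + 192 * CnL with hCN
  have hCN0 : 0 ≤ CN := by positivity
  set Z : ℝ := e * (1 + K + (kap ^ 8)⁻¹) with hZ
  have hZ0 : 0 ≤ Z := by positivity
  have hN : nD + 192 * nL / kap ^ 8 ≤ CN * Z := by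
    have a1 : 192 * nL / kap ^ 8 ≤ 192 * CnL * (e * (kap ^ 8)⁻¹) := by
      rw [div_eq_mul_inv]
      calc 192 * nL * (kap ^ 8)⁻¹ ≤ 192 * (CnL * e) * (kap ^ 8)⁻¹ := by gcongr
        _ = _ := by ring
    have a2 : nD ≤ CnD * Z := by
      refine hnD.trans (mul_le_mul_of_nonneg_left ?_ hCnD)
      rw [hZ]
      refine mul_le_mul_of_nonneg_left ?_ he
      have : 0 ≤ (kap ^ 8)⁻¹ := by positivity
      linarith
    have a3 : e * (kap ^ 8)⁻¹ ≤ Z := by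
      rw [hZ]; refine mul_le_mul_of_nonneg_left (by linarith) he
    have a4 := mul_le_mul_of_nonneg_left a3 (by positivity : 0 ≤ 192 * CnL)
    rw [hCN, add_mul]
    linarith
  have hN0 : 0 ≤ nD + 192 * nL / kap ^ 8 := by positivity
  have hmu : (kap ^ 26)⁻¹ / kap ^ 4 = (kap ^ 30)⁻¹ := by
    rw [div_eq_mul_inv, ← mul_inv, ← pow_add]
  have s1 : √(2 * ((kap ^ 26)⁻¹ / kap ^ 4) * e') ≤ √(2 * Ce) * ((kap ^ 15)⁻¹ * √e) := by
    rw [hmu]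
    have a1 : 2 * (kap ^ 30)⁻¹ * e' ≤ (2 * Ce) * (((kap ^ 15)⁻¹) ^ 2 * e) := by
      have a2 : (kap ^ 30)⁻¹ = ((kap ^ 15)⁻¹) ^ 2 := by
        rw [inv_pow, ← pow_mul]
      rw [a2]
      calc _ ≤ 2 * ((kap ^ 15)⁻¹) ^ 2 * (Ce * e) := by gcongr
        _ = _ := by ring
    exact (sqrt_le_sqrt a1).trans (le_of_eq (sqrt_abc (by positivity) (by positivity)))
  have s2 : √((4 + 24 * ((kap ^ 26)⁻¹ / kap ^ 4) * LG / σ ^ 2) * nE *
      (nD + 192 * nL / kap ^ 8)) ≤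
      √((4 + 24 * LG) * CE * CN) * ((kap ^ (15 + pE))⁻¹ * σ⁻¹ * √Z) := by
    rw [hmu]
    have a1 : 4 + 24 * (kap ^ 30)⁻¹ * LG / σ ^ 2 ≤ (4 + 24 * LG) * ((kap ^ 15)⁻¹ * σ⁻¹) ^ 2 := by
      have a2 : (1 : ℝ) ≤ ((kap ^ 15)⁻¹ * σ⁻¹) ^ 2 := by
        have a3 : 1 ≤ (kap ^ 15)⁻¹ := one_le_inv_iff₀.2 ⟨by positivity, pow_le_one₀ hk.le hk1⟩
        have a4 : 1 ≤ σ⁻¹ := one_le_inv_iff₀.2 ⟨hσ, hσ1⟩
        exact one_le_pow₀ (one_le_mul_of_one_le_of_one_le a3 a4)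
      have a5 : 24 * (kap ^ 30)⁻¹ * LG / σ ^ 2 = 24 * LG * ((kap ^ 15)⁻¹ * σ⁻¹) ^ 2 := by
        rw [mul_pow, inv_pow, inv_pow, ← pow_mul]
        field_simp
        try ring
      rw [a5]
      linarith
    have a6 : nE ≤ CE * ((kap ^ pE)⁻¹) ^ 2 := by
      refine hnE.trans (mul_le_mul_of_nonneg_left ?_ hCE)
      have a3 : 1 ≤ (kap ^ pE)⁻¹ := one_le_inv_iff₀.2 ⟨by positivity, pow_le_one₀ hk.le hk1⟩
      nlinarith
    have a7 : (4 + 24 * (kap ^ 30)⁻¹ * LG / σ ^ 2) * nE * (nD + 192 * nL / kap ^ 8) ≤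
        ((4 + 24 * LG) * CE * CN) * (((kap ^ (15 + pE))⁻¹ * σ⁻¹) ^ 2 * Z) := by
      have a8 : 0 ≤ 4 + 24 * (kap ^ 30)⁻¹ * LG / σ ^ 2 := by positivity
      calc _ ≤ ((4 + 24 * LG) * ((kap ^ 15)⁻¹ * σ⁻¹) ^ 2) * (CE * ((kap ^ pE)⁻¹) ^ 2) *
            (CN * Z) := by gcongr
        _ = _ := by rw [pow_add]; ring
    exact (sqrt_le_sqrt a7).trans (le_of_eq (sqrt_abc (by positivity) (by positivity)))
  have s3 : √(2 * ((kap ^ 26)⁻¹ / kap ^ 4) * e') *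
      √((4 + 24 * ((kap ^ 26)⁻¹ / kap ^ 4) * LG / σ ^ 2) * nE * (nD + 192 * nL / kap ^ 8)) ≤
      √(2 * Ce) * √((4 + 24 * LG) * CE * CN) *
        ((kap ^ (30 + pE))⁻¹ * (σ ^ 1)⁻¹ * (√e * √Z)) := by
    refine (mul_le_mul s1 s2 (sqrt_nonneg _) (by positivity)).trans (le_of_eq ?_)
    have e1 : (kap ^ (30 + pE))⁻¹ = (kap ^ 15)⁻¹ * (kap ^ (15 + pE))⁻¹ := by
      rw [← mul_inv, ← pow_add]
      congr 2
      omega
    rw [e1, pow_one]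
    ring
  unfold xR cR xRes
  rw [← hZ]
  set X1 : ℝ := (kap ^ (30 + pE))⁻¹ * (σ ^ 1)⁻¹ * (√e * √Z) with hX1
  have hX10 : 0 ≤ X1 := by positivity
  set c1 : ℝ := √(2 * Ce) * √((4 + 24 * LG) * CE * CN) with hc1
  have hc10 : 0 ≤ c1 := by positivity
  have s4 : σ * (nD + 192 * nL / kap ^ 8) ≤ CN * (σ * Z) := by
    calc σ * (nD + 192 * nL / kap ^ 8) ≤ σ * (CN * Z) := mul_le_mul_of_nonneg_left hN hσ.le
      _ = _ := by ring
  have hsZ : 0 ≤ σ * Z := by positivity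
  calc _ = Mm * (26016 * (2 * (√(2 * ((kap ^ 26)⁻¹ / kap ^ 4) * e') *
      √((4 + 24 * ((kap ^ 26)⁻¹ / kap ^ 4) * LG / σ ^ 2) * nE * (nD + 192 * nL / kap ^ 8))) +
      3 / 2 * (σ * (nD + 192 * nL / kap ^ 8)))) := by ring
    _ ≤ Mm * (26016 * (2 * (c1 * X1) + 3 / 2 * (CN * (σ * Z)))) := by
        refine mul_le_mul_of_nonneg_left (mul_le_mul_of_nonneg_left ?_ (by norm_num)) hMm0
        linarith
    _ ≤ Mm * ((26016 * (2 * c1 + 3 / 2 * CN)) * (X1 + σ * Z)) := by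
        refine mul_le_mul_of_nonneg_left ?_ hMm0
        have := mul_nonneg hc10 hsZ
        have := mul_nonneg hCN0 hX10
        nlinarith
    _ = _ := by rw [hc1]; ring

/-! ## The numbers in the letters of `MainT` -/

/-- `2 ^ (-(x j))` as a power of `tj j` -/
theorem two_tj (x : ℝ) (j : ℕ) : (2 : ℝ) ^ (-(x * (j : ℝ))) = tj j ^ x := by
  rw [tj_eq, ← rpow_mul two_pos.le]
  congr 1
  ring

/-- conversion of the powers of the parameters -/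
theorem conv_le {aM aL j p q r s : ℕ} {c X : ℝ} (hc : 0 ≤ c)
    (h : X ≤ c * ((kapE aM j ^ p)⁻¹ * ((tj j ^ (aM + 2)) ^ q)⁻¹ * m1E aM j ^ r *
      ((tj j ^ aM)⁻¹) ^ s))
    (hn : (aM + 2) * p + (aM + 2) * q + (aM + 1) * r + aM * s ≤ aL) :
    X ≤ c / tj j ^ aL := by
  have ht := tj_pos j
  refine h.trans ?_
  rw [div_eq_mul_inv]
  refine mul_le_mul_of_nonneg_left ?_ hc
  have e1 : (kapE aM j ^ p)⁻¹ * ((tj j ^ (aM + 2)) ^ q)⁻¹ * m1E aM j ^ r * ((tj j ^ aM)⁻¹) ^ s =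
      (tj j ^ ((aM + 2) * p + (aM + 2) * q + (aM + 1) * r + aM * s))⁻¹ := by
    unfold kapE m1E
    rw [inv_pow, inv_pow, ← pow_mul, ← pow_mul, ← pow_mul, ← pow_mul, ← mul_inv, ← mul_inv,
      ← mul_inv, ← pow_add, ← pow_add, ← pow_add]
  rw [e1]
  exact inv_anti₀ (by positivity) (pow_le_pow_of_le_one ht.le (tj_le_one j) hn)

/-- the exponent of the energy of the block slots -/
def BE (aM aL pE : ℕ) (κ : ℝ) : ℝ :=
  4 * aL + 3 + (aM + 2) * 8 + 2 * (aM + 1 + (aM + 2) * (30 + pE) + (aM + 2)) + κ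

theorem BE_nonneg {aM aL pE : ℕ} {κ : ℝ} (h : 0 ≤ κ) : 0 ≤ BE aM aL pE κ := by
  unfold BE; positivity

/-- the constant of `main_num` -/
def cMain (A Ce CL CD Ct LG CE CnD CnL Cr Nr Ctt A3 A4 : ℝ) : ℝ :=
  A3 * (2 * Nr * (Nr + Ctt + 1) * cKer (Ce * A) (Ce * A) CL CD Ct) +
    A4 * (cR LG CE (CnD + 192 * CnL) Cr * cRes A A A)

/-- **The number of the main family**: `e'` = local energy of the block slots on lines
(`e' ≤ Ce * en`; in the residual part `e'' ≤ Cr * en`), `L`, `D` = alive mass and dropped mass. -/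
theorem main_num {κ A Ce CL CD Ct LG CE CnD CnL Cr Nr Ctt A3 A4 : ℝ} {aM aL pE : ℕ} {j : ℕ}
    (hA : 0 ≤ A) (hCe : 0 ≤ Ce) (hCL : 0 ≤ CL) (hCD : 0 ≤ CD) (hCt : 0 ≤ Ct)
    (hLG : 0 ≤ LG) (hCE : 0 ≤ CE) (hCnD : 0 ≤ CnD) (hCnL : 0 ≤ CnL) (hCr : 0 ≤ Cr)
    (hNr : 0 ≤ Nr) (hCtt : 0 ≤ Ctt) (hA3 : 0 ≤ A3) (hA4 : 0 ≤ A4)
    {en K' e' e'' L D τ tt nE nD nL : ℝ} (hen : 0 < en)
    (henB : en ≤ A * 2 ^ (-(BE aM aL pE κ * (j : ℝ)))) (hK : 1 ≤ K')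
    (henK : en * K' ≤ A * 2 ^ (-(κ * (j : ℝ)))) (he0 : 0 ≤ e') (he' : e' ≤ Ce * en)
    (he'' : e'' ≤ Cr * en)
    (hL0 : 0 ≤ L) (hD0 : 0 ≤ D) (hL : 2 * L ≤ CL / tj j ^ aL) (hD : D ≤ CD / tj j ^ aL)
    (hτ0 : 0 ≤ τ) (hτ : τ ≤ Ct * tj j ^ min (3 / 8) (κ / 2)) (htt : tt ≤ Ctt * (K' + 1))
    (hnE0 : 0 ≤ nE) (hnE : nE ≤ CE * (kapE aM j ^ pE)⁻¹) (hnD0 : 0 ≤ nD)
    (hnD : nD ≤ CnD * (en * (K' + 1))) (hnL0 : 0 ≤ nL) (hnL : nL ≤ CnL * en) :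
    A3 * TN (tj j ^ (aL + 1)) τ e' L Nr tt D +
      A4 * (MmE A aM j * xR (muE aM j) (kapE aM j) (tj j ^ (aM + 2)) LG nE nD nL e'') ≤
      cMain A Ce CL CD Ct LG CE CnD CnL Cr Nr Ctt A3 A4 *
        2 ^ (-((κ + min (3 / 8) (κ / 2)) * (j : ℝ))) := by
  set g : ℝ := min (3 / 8) (κ / 2) with hg
  have hg1 : g ≤ 3 / 8 := min_le_left _ _
  have h0 := tj_pos j
  have h1 := tj_le_one j
  set t := tj j with ht
  have hκ0 : 0 < t ^ κ := rpow_pos_of_pos h0 κ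
  have hg0 : 0 < t ^ g := rpow_pos_of_pos h0 g
  rw [two_tj] at henB henK
  rw [two_tj, rpow_add h0, mul_comm (t ^ κ) (t ^ g)]
  -- the natural exponent
  set N : ℕ := 4 * aL + 2 + (aM + 2) * 8 + 2 * (aM + 1 + (aM + 2) * (30 + pE) + (aM + 2)) with hN
  have hNB : (N : ℝ) + κ ≤ BE aM aL pE κ := by
    rw [hN]; unfold BE; push_cast; linarith
  have heN : en ≤ A * (t ^ N * t ^ κ) := by
    refine henB.trans (mul_le_mul_of_nonneg_left ?_ hA)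
    rw [← rpow_natCast t N, ← rpow_add h0]
    exact tpow_le' h0 h1 hNB
  have he'N : e' ≤ Ce * A * (t ^ N * t ^ κ) := by
    refine he'.trans ?_
    rw [mul_assoc]
    exact mul_le_mul_of_nonneg_left heN hCe
  have he'K : e' * K' ≤ Ce * A * t ^ κ := by
    have hK0 : 0 ≤ K' := by linarith
    calc e' * K' ≤ Ce * en * K' := mul_le_mul_of_nonneg_right he' hK0
      _ = Ce * (en * K') := by ring
      _ ≤ Ce * (A * t ^ κ) := mul_le_mul_of_nonneg_left henK hCe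
      _ = _ := by ring
  -- the ker part
  have r1 := TN_le_xKer (ε := t ^ (aL + 1)) (by positivity) hτ0 he0 hL0 hD0 hNr hCtt hK htt
  have r2 := xKer_le (g := g) (N := N) h0 h1 (by linarith) hκ0.le (by positivity : 0 ≤ Ce * A)
    (by positivity : 0 ≤ Ce * A) hK he0 he'K he'N (aL := aL) (by omega) (by positivity) hD0 hCL
    hCD hL hD hCt hτ
  have r3 : A3 * TN (t ^ (aL + 1)) τ e' L Nr tt D ≤
      A3 * (2 * Nr * (Nr + Ctt + 1) * cKer (Ce * A) (Ce * A) CL CD Ct) * (t ^ g * t ^ κ) := by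
    have h2 : 0 ≤ 2 * Nr * (Nr + Ctt + 1) := by positivity
    calc _ ≤ A3 * (2 * Nr * (Nr + Ctt + 1) * (cKer (Ce * A) (Ce * A) CL CD Ct *
          (t ^ g * t ^ κ))) :=
          mul_le_mul_of_nonneg_left (r1.trans (mul_le_mul_of_nonneg_left r2 h2)) hA3
      _ = _ := by ring
  -- the residual part
  have hkap : 0 < kapE aM j := by unfold kapE; positivity
  have hkap1 : kapE aM j ≤ 1 := by unfold kapE; exact pow_le_one₀ h0.le h1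
  have hMm0 : 0 ≤ MmE A aM j := by unfold MmE; positivity
  have r4 := xR_le (σ := t ^ (aM + 2)) (e' := e'') (Mm := MmE A aM j) (Ce := Cr) hkap hkap1
    (by positivity) (pow_le_one₀ h0.le h1) hen.le (by linarith : 0 ≤ K') hLG hCE hnE0 hnE hnD0
    hnL0 hCnD hCnL hnD hnL hCr he'' hMm0
  have r5 := xRes_le (g := g) (N := N) (aM := aM) (n1 := aM + 2) (n2 := aM + 2) (p := 30 + pE)
    (q := 1) (r := 8) (Mm := MmE A aM j) (Cm := A) h0 h1 (by linarith) hκ0.le hA hA hK hen.le henK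
    heN le_rfl (by omega) (by rw [hN]; omega) hA (by unfold MmE; rw [div_eq_mul_inv])
  have r6 : A4 * (MmE A aM j * xR (muE aM j) (kapE aM j) (t ^ (aM + 2)) LG nE nD nL e'') ≤
      A4 * (cR LG CE (CnD + 192 * CnL) Cr * cRes A A A) * (t ^ g * t ^ κ) := by
    have h2 : 0 ≤ cR LG CE (CnD + 192 * CnL) Cr := by unfold cR; positivity
    calc _ ≤ A4 * (cR LG CE (CnD + 192 * CnL) Cr * (cRes A A A * (t ^ g * t ^ κ))) :=
          mul_le_mul_of_nonneg_left (r4.trans (mul_le_mul_of_nonneg_left r5 h2)) hA4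
      _ = _ := by ring
  unfold cMain
  rw [add_mul]
  exact add_le_add r3 r6

theorem cMain_nonneg {A Ce CL CD Ct LG CE CnD CnL Cr Nr Ctt A3 A4 : ℝ}
    (hA : 0 ≤ A) (hCe : 0 ≤ Ce) (hCL : 0 ≤ CL) (hCD : 0 ≤ CD) (hCt : 0 ≤ Ct)
    (hCnD : 0 ≤ CnD) (hCnL : 0 ≤ CnL)
    (hNr : 0 ≤ Nr) (hCtt : 0 ≤ Ctt) (hA3 : 0 ≤ A3) (hA4 : 0 ≤ A4) :
    0 ≤ cMain A Ce CL CD Ct LG CE CnD CnL Cr Nr Ctt A3 A4 := by
  unfold cMain cKer cR cRes
  positivity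

/-- **The operator norm** in the letters of `MainT`: `kS` = the number of `GP + D` minus tiny,
`r ≤ Cs * sg * m1` = the residual. -/
theorem top_tj {κ Ck Cs kS r : ℝ} {aM j : ℕ} (hCk : 0 ≤ Ck) (hCs : 0 ≤ Cs)
    (hk : kS ≤ Ck * (tj j ^ (3 / 8 : ℝ) + √(2 ^ (-(κ * (j : ℝ)))) + √(tj j ^ 2)))
    (hr : r ≤ Cs * (tj j ^ (aM + 2) * m1E aM j)) :
    kS + r ≤ (3 * Ck + Cs) * tj j ^ min (3 / 8) (κ / 2) := by
  set g : ℝ := min (3 / 8) (κ / 2) with hg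
  have hg1 : g ≤ 3 / 8 := min_le_left _ _
  have hg2 : g ≤ κ / 2 := min_le_right _ _
  have h0 := tj_pos j
  have h1 := tj_le_one j
  have b1 : tj j ^ (3 / 8 : ℝ) ≤ tj j ^ g := tpow_le' h0 h1 hg1
  have b2 : √((2 : ℝ) ^ (-(κ * (j : ℝ)))) ≤ tj j ^ g := by
    rw [two_tj, sqrt_rp h0]
    exact tpow_le' h0 h1 hg2
  have b3 : √(tj j ^ 2) ≤ tj j ^ g := by
    rw [sqrt_sq h0.le]
    exact t_le h0 h1 (by linarith)
  have b4 : tj j ^ (aM + 2) * m1E aM j ≤ tj j ^ g := by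
    have e1 : tj j ^ (aM + 2) * m1E aM j = tj j := by
      unfold m1E
      rw [pow_succ (tj j) (aM + 1)]
      field_simp
    rw [e1]
    exact t_le h0 h1 (by linarith)
  calc kS + r ≤ Ck * (tj j ^ g + tj j ^ g + tj j ^ g) + Cs * tj j ^ g := by
        refine add_le_add (hk.trans (mul_le_mul_of_nonneg_left ?_ hCk))
          (hr.trans (mul_le_mul_of_nonneg_left b4 hCs))
        linarith
    _ = _ := by ring

/-- **The small levels** (`1 ≤ c * tj j`): any number at most `X * 2 ^ (-(κ j))`. -/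
theorem low_num {κ g c X Y : ℝ} {j : ℕ} (hg : 0 ≤ g) (hc : 1 ≤ c * tj j) (hX : 0 ≤ X)
    (hY : Y ≤ X * 2 ^ (-(κ * (j : ℝ)))) :
    Y ≤ X * c ^ g * 2 ^ (-((κ + g) * (j : ℝ))) := by
  have h0 := tj_pos j
  have hc0 : 0 < c := by
    by_contra h
    have : c * tj j ≤ 0 := mul_nonpos_of_nonpos_of_nonneg (not_lt.1 h) h0.le
    linarith
  have h2 : 1 ≤ (c * tj j) ^ g := one_le_rpow hc hg
  rw [mul_rpow hc0.le h0.le] at h2
  have hκ0 : 0 < tj j ^ κ := rpow_pos_of_pos h0 κ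
  rw [two_tj] at hY ⊢
  rw [rpow_add h0]
  calc Y ≤ X * tj j ^ κ * 1 := by rw [mul_one]; exact hY
    _ ≤ X * tj j ^ κ * (c ^ g * tj j ^ g) := mul_le_mul_of_nonneg_left h2 (by positivity)
    _ = _ := by ring

end

end Vale.Agent.P141.H944
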