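import Vale.Agent.P141.H8.BirthFD
import Vale.Agent.P141.H460.CStB

/-!
# P141, line (A), flow part: the births for any moving slot with a cap

* `SlCap K x u l kc cE R` : a slot of `x₀` (constant on cells, a martingale) with the cap `kc` and
  the energy of the labels at the end;
* `qB_FDs` : the births of families with the data `H677.Sk.FDs`, such a slot;
* `PartCap α cE D T` : the price of a functional of slots, all slots with the cap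
  `(2 (r / t) ^ α) ^ 2`;
* **`partCap_qB : 1 ≤ α → PartCap α cE FD qB`**.
-/

namespace Vale.Agent.P141.H944.RowB

open Finset Matrix
open Vale.Agent.P141.PL (Pt iv ix cb cx mem_iv mem_cb card_iv card_cb ix_ix)
open Vale.Agent.P141.PL.H315 (Tri A2)
open Vale.Agent.P141.H48 (US ES BSl sst)
open Vale.Agent.P141.H401 (mC Bun PartF PartX)
open Vale.Agent.P141.H305 (ClsM kapM)
open Vale.Agent.P141.H677 (GT kF)
open Vale.Agent.P141.H677.Sk (Slt FamA FamV qB FDs FD)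
open Vale.Agent.P141.H460 (SlM slot_EV A2_sq Win sqrt_step xy_le exists_two_pow m_eq')

noncomputable section

open scoped Classical

set_option linter.unusedSectionVars false

variable {ι : Type} [Fintype ι] [DecidableEq ι]

/-- **A moving slot with a cap and the energy of the labels at the end.** -/
structure SlCap (K : ℕ) (x : Pt) (u : ℤ → ℤ → ι → ℝ) (l kc cE : ℝ) (R : Slt ι) : Prop where
  mv : SlM K R
  cap : ∀ j ≤ K, ∀ (x0 z x1 : ℤ) (w : ι → ℝ),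
    (R x0 j z x1 *ᵥ w) ⬝ᵥ (R x0 j z x1 *ᵥ w) ≤ kc * (w ⬝ᵥ w)
  en : ∀ t0 : ℤ, ∀ z ∈ iv K (ix K x.2.2), ∀ x1 ∈ iv K (ix K x.1), ∀ w : ι → ℝ,
    ∑ x0 ∈ iv K t0, (R x0 0 z x1 *ᵥ w) ⬝ᵥ (R x0 0 z x1 *ᵥ w) ≤
      cE * (2 ^ K * ((2 * l)⁻¹ * (w ⬝ᵥ GT u x1 K (cx K x).2.1 *ᵥ w)))

theorem nn (w : ι → ℝ) : 0 ≤ w ⬝ᵥ w := by
  unfold dotProduct
  exact sum_nonneg fun i _ => mul_self_nonneg _

/-- the energy of a slot at the end, `z` in the root -/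
theorem en_sumZ {K : ℕ} {S : Slt ι} {t X Z : ℤ} {E σ : ℝ} (hE0 : 0 ≤ E)
    (h : ∀ z ∈ iv K (ix K Z), ∀ x1 ∈ iv K (ix K X), ∀ w : ι → ℝ,
      ∑ x0 ∈ iv K t, (S x0 0 z x1 *ᵥ w) ⬝ᵥ (S x0 0 z x1 *ᵥ w) ≤ 2 ^ K * (E * (w ⬝ᵥ w)))
    {v : ℤ → ℤ → ι → ℝ} {U : ℤ × ℤ → ℝ}
    (hv : ∀ x ∈ iv K (ix K X), ∀ z ∈ iv K (ix K Z), v x z ⬝ᵥ v x z ≤ U (x, z) ^ 2)
    (hσ : A2 K U X Z ≤ σ) :
    ∑ a ∈ cb K (t, ix K X, ix K Z),
      ((S a.1 0 a.2.2 a.2.1 *ᵥ v a.2.1 a.2.2) ⬝ᵥ (S a.1 0 a.2.2 a.2.1 *ᵥ v a.2.1 a.2.2)) ≤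
      (E * σ) * 8 ^ K := by
  unfold PL.cb
  rw [sum_product]
  simp only [sum_product]
  rw [sum_comm]
  have h1 : ∀ x1 ∈ iv K (ix K X), ∑ x0 ∈ iv K t, ∑ x3 ∈ iv K (ix K Z),
      ((S x0 0 x3 x1 *ᵥ v x1 x3) ⬝ᵥ (S x0 0 x3 x1 *ᵥ v x1 x3)) ≤
      ∑ x3 ∈ iv K (ix K Z), 2 ^ K * (E * U (x1, x3) ^ 2) := by
    intro x1 hx1
    rw [sum_comm]
    refine sum_le_sum fun x3 hx3 => (h x3 hx3 x1 hx1 (v x1 x3)).trans ?_
    refine mul_le_mul_of_nonneg_left ?_ (by positivity)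
    exact mul_le_mul_of_nonneg_left (hv x1 hx1 x3 hx3) hE0
  refine (sum_le_sum h1).trans ?_
  simp only [← mul_sum]
  rw [A2_sq]
  have h8 : (8 : ℝ) ^ K = 2 ^ K * 4 ^ K := by rw [← mul_pow]; norm_num
  calc (2 : ℝ) ^ K * (E * (4 ^ K * A2 K U X Z)) = (2 ^ K * 4 ^ K * E) * A2 K U X Z := by ring
    _ ≤ (2 ^ K * 4 ^ K * E) * σ := mul_le_mul_of_nonneg_left hσ (by positivity)
    _ = (E * σ) * 8 ^ K := by rw [h8]; ring

/-- the label matrix of the root below the cap of the potentials -/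
theorem GT_pot {K : ℕ} {x : Pt} {s r P κ0 : ℝ} {U : Tri} {g : ℤ → ℤ → ℝ}
    {u v : ℤ → ℤ → ι → ℝ} (C : ClsM K x s r P κ0 U g u v) {x1 : ℤ}
    (hx1 : x1 ∈ iv K (ix K x.1)) (w : ι → ℝ) :
    w ⬝ᵥ GT u x1 K (cx K x).2.1 *ᵥ w ≤ P * (w ⬝ᵥ w) := by
  have hx : x1 ∈ PL.H315.iv K x.1 := hx1
  have hmean : ∀ (p : ℤ) (f : ℤ → ℝ), ((2 : ℝ) ^ K)⁻¹ * ∑ y ∈ iv K (ix K p), f y =
      PL.H315.avg (PL.H315.iv K p) f := by
    intro p f
    unfold PL.H315.avg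
    have : ((PL.H315.iv K p).card : ℝ) = 2 ^ K := by
      change ((iv K (ix K p)).card : ℝ) = 2 ^ K
      rw [card_iv]
      push_cast
      rfl
    rw [this]
    rfl
  rw [H677.GT_form]
  have h2 := C.u_pot x1 hx w
  rw [← hmean] at h2
  exact h2

/-- **The births, any slot with a cap.** -/
theorem qB_FDs {q : H401.Num} {n : ℕ} {ez : ℝ} {F1 F2 F3 : ℕ → Pt → ℝ} {K : ℕ} {x : Pt}
    {s r : ℝ} {U : Tri} {g : ℤ → ℤ → ℝ} {u v : ℤ → ℤ → ι → ℝ} {A : FamA} {b C : FamV ι}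
    {Q1 Q2 Q3 : ℕ → Pt → Prop} {v' : ℤ → ℤ → ι → ℝ}
    (h : FDs q n ez F1 F2 F3 K x s r U g u v A b C Q1 Q2 Q3 v') {P κ0 : ℝ}
    (Cl : ClsM K x s r P κ0 U g u v) (hKn : K ≤ n) (hez : 0 ≤ ez) (hLm : 0 ≤ q.Lm)
    (hCD : 0 ≤ q.CD * (q.Lm * s)) (hcP : 0 ≤ q.cP) {R : Slt ι} {l kc cE : ℝ} (hl : 0 < l)
    (hP : 0 ≤ P) (hkc : 0 ≤ kc) (hcE : 0 ≤ cE) (hR : SlCap K x u l kc cE R) {hh : ℕ}
    (h1 : 1 ≤ hh) (hPh : 2 * (43 * (q.cP + 2)) ≤ hh) (m : ℕ) :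
    qB K (cx K x) R A b C ≤
      126 * (√(((1 + hh * m) * (2 * ez * (cE * (P / (2 * l)) * s)) +
        2 * ez * (kc * (4 * q.Lm * s)) * (43 * (q.cP + 2)) * (1 / 2) ^ m) * 8 ^ K) *
        √(4 * q.th s r ^ 2 * (q.CD * (q.Lm * s)) * (43 * (q.cP + 2) * 8 ^ K))) := by
  have hv : ∀ x' ∈ iv K (ix K x.1), ∀ z ∈ iv K (ix K x.2.2),
      v' x' z ⬝ᵥ v' x' z ≤ U.2.1 (x', z) ^ 2 := by
    intro x' hx' z hz
    rcases h.v_or x' z with h5 | h5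
    · rw [h5]
      exact Cl.v_le x' hx' z hz
    · rw [h5, dotProduct_zero]
      exact sq_nonneg _
  have hC : C = mC q U K v' F2 := by
    funext x0 k z x'
    rw [h.C_eq]
    rfl
  have hE0 : 0 ≤ cE * (P / (2 * l)) := by positivity
  refine H8B.qB_le h hKn hCD R ?_
  intro t ht o ho b' hb'
  have h3 := slot_EV (p := q) (U := U) h.B2 hKn hez hLm hR.mv hkc hR.cap hv Cl.U_v2 (o := o)
    (cx K x).2.1 t (by positivity) (H8B.gpack_FDs h hKn ho) h1 hPh m hb'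
  rw [← hC] at h3
  refine h3.trans ?_
  have h4 := en_sumZ (K := K) (S := R) (t := t) (X := x.1) (Z := x.2.2) hE0
    (fun z hz x1 hx1 w => (hR.en t z hz x1 hx1 w).trans (by
      have e1 := GT_pot Cl hx1 w
      have e2 := mul_le_mul_of_nonneg_left e1 (by positivity : (0 : ℝ) ≤ cE * (2 ^ K * (2 * l)⁻¹))
      calc cE * (2 ^ K * ((2 * l)⁻¹ * (w ⬝ᵥ GT u x1 K (cx K x).2.1 *ᵥ w)))
          = cE * (2 ^ K * (2 * l)⁻¹) * (w ⬝ᵥ GT u x1 K (cx K x).2.1 *ᵥ w) := by ring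
        _ ≤ cE * (2 ^ K * (2 * l)⁻¹) * (P * (w ⬝ᵥ w)) := e2
        _ = 2 ^ K * (cE * (P / (2 * l)) * (w ⬝ᵥ w)) := by rw [div_eq_mul_inv]; ring))
    hv Cl.U_v2
  simp only [← mul_sum]
  have h5 : (0 : ℝ) ≤ (1 + hh * m) * (2 * ez) := by positivity
  have h6 := mul_le_mul_of_nonneg_left h4 h5
  calc _ = (1 + hh * m) * (2 * ez) * ∑ a ∈ cb K (t, ix K x.1, ix K x.2.2),
        ((R a.1 0 a.2.2 a.2.1 *ᵥ v' a.2.1 a.2.2) ⬝ᵥ (R a.1 0 a.2.2 a.2.1 *ᵥ v' a.2.1 a.2.2)) +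
        2 * ez * (kc * (4 * q.Lm * s)) * (43 * (q.cP + 2)) * (1 / 2) ^ m * 8 ^ K := by ring
    _ ≤ (1 + hh * m) * (2 * ez) * ((cE * (P / (2 * l)) * s) * 8 ^ K) +
        2 * ez * (kc * (4 * q.Lm * s)) * (43 * (q.cP + 2)) * (1 / 2) ^ m * 8 ^ K :=
        add_le_add_left h6 _
    _ = _ := by ring

/-! ### Numbers -/

/-- **the number of one slot** -/
theorem num_gen {t r s ez CD Lm th Ce Pk d k3 d0 k E G : ℝ} {h q : ℕ} (ht : 0 < t)
    (ht1 : t ≤ 1) (hr : 1 ≤ r) (hs : 0 < s) (hez : 0 ≤ ez) (hCD : 0 ≤ CD) (hCe : 0 ≤ Ce)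
    (hPk : 0 ≤ Pk) (hdd : d ≤ d0) (hd1 : d ≤ 1) (hLm : Lm = t ^ (-d))
    (hth : th ^ 2 = t ^ (2 - 2 * k3) * √s * r ^ (2 * k3)) (hd0 : 0 ≤ d0) (hkρ : r / t ≤ k)
    (hEk : (k ^ 6)⁻¹ ≤ E) (hG1 : 1 ≤ G) (hq1 : k ^ 9 ≤ 2 ^ q) (hqG : 1 + (q : ℝ) ≤ 13 * G)
    (K : ℕ) :
    126 * (√(((1 + h * q) * (2 * ez * ((Ce * E) * s)) +
        2 * ez * (k ^ 2 * (4 * Lm * s)) * Pk * (1 / 2) ^ q) * 8 ^ K) *
        √(4 * th ^ 2 * (CD * (Lm * s)) * (Pk * 8 ^ K))) ≤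
    126 * √(416 * ((1 + h) * Ce + 16 * Pk) * CD * Pk) *
      ((t ^ (1 - (k3 + d0 / 2)) * s ^ (5 / 4 : ℝ) * √ez * 8 ^ K) * r ^ (k3 + d0 / 2) *
        (G ^ 1 * E ^ (1 / 2 : ℝ))) := by
  have hr0 : 0 < r := by linarith
  have hρ : 1 ≤ r / t := by
    rw [le_div_iff₀ ht]
    linarith
  have hk1 : 1 ≤ k := hρ.trans hkρ
  have hk0 : 0 < k := by linarith
  have hE0 : 0 < E := lt_of_lt_of_le (by positivity) hEk
  have hLm0 : 0 < Lm := by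
    rw [hLm]
    exact Real.rpow_pos_of_pos ht _
  have hLk : Lm ≤ k := by
    rw [hLm]
    have h1 : t ^ (-d) ≤ t ^ (-1 : ℝ) := Real.rpow_le_rpow_of_exponent_ge ht ht1 (by linarith)
    have h2 : t ^ (-1 : ℝ) ≤ r / t := by
      rw [Real.rpow_neg_one, div_eq_mul_inv]
      exact le_mul_of_one_le_left (by positivity) hr
    linarith
  have htail : k ^ 2 * (4 * Lm * s) * (1 / 2) ^ q ≤ 16 * (E * s) := by
    have h2 : (1 / 2 : ℝ) ^ q ≤ (k ^ 9)⁻¹ := by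
      rw [one_div, inv_pow]
      exact inv_anti₀ (by positivity) hq1
    have h3 : k ^ 2 * (4 * Lm * s) ≤ k ^ 2 * (4 * k * s) := by
      refine mul_le_mul_of_nonneg_left ?_ (by positivity)
      exact mul_le_mul_of_nonneg_right (by linarith) hs.le
    have h4 : 0 ≤ (k ^ 6)⁻¹ * s := by positivity
    calc k ^ 2 * (4 * Lm * s) * (1 / 2) ^ q
        ≤ k ^ 2 * (4 * k * s) * (k ^ 9)⁻¹ :=
          mul_le_mul h3 h2 (by positivity) (by positivity)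
      _ = 4 * ((k ^ 6)⁻¹ * s) := by
          field_simp
      _ ≤ 16 * ((k ^ 6)⁻¹ * s) := by linarith
      _ ≤ 16 * (E * s) := by
          refine mul_le_mul_of_nonneg_left ?_ (by norm_num)
          exact mul_le_mul_of_nonneg_right hEk hs.le
  set Q0 : ℝ := (1 + h) * Ce + 16 * Pk with hQ0
  have hQ00 : 0 ≤ Q0 := by positivity
  have h8 : (0 : ℝ) < 8 ^ K := by positivity
  have hX : ((1 + h * q) * (2 * ez * ((Ce * E) * s)) +
        2 * ez * (k ^ 2 * (4 * Lm * s)) * Pk * (1 / 2) ^ q) * 8 ^ K ≤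
      26 * Q0 * ez * s * E * G * 8 ^ K := by
    refine mul_le_mul_of_nonneg_right ?_ h8.le
    have h1 : (1 + h * (q : ℝ)) ≤ (1 + h) * (13 * G) := by
      have hh : (0 : ℝ) ≤ h := Nat.cast_nonneg _
      have hq0 : (0 : ℝ) ≤ q := Nat.cast_nonneg _
      nlinarith
    have h2 : (1 + h * (q : ℝ)) * (2 * ez * ((Ce * E) * s)) ≤
        (1 + h) * (13 * G) * (2 * ez * ((Ce * E) * s)) :=
      mul_le_mul_of_nonneg_right h1 (by positivity)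
    have h3 : 2 * ez * (k ^ 2 * (4 * Lm * s)) * Pk * (1 / 2) ^ q ≤
        2 * ez * Pk * (16 * (E * s)) := by
      have h4 : 2 * ez * (k ^ 2 * (4 * Lm * s)) * Pk * (1 / 2) ^ q =
          2 * ez * Pk * (k ^ 2 * (4 * Lm * s) * (1 / 2) ^ q) := by ring
      rw [h4]
      exact mul_le_mul_of_nonneg_left htail (by positivity)
    have h5 : 2 * ez * Pk * (16 * (E * s)) ≤ 2 * ez * Pk * (16 * (E * s)) * (13 * G) := by
      refine le_mul_of_one_le_right (by positivity) ?_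
      linarith
    calc _ ≤ (1 + h) * (13 * G) * (2 * ez * ((Ce * E) * s)) +
          2 * ez * Pk * (16 * (E * s)) * (13 * G) := by linarith
      _ = 26 * Q0 * ez * s * E * G := by
          rw [hQ0]
          ring
  have hX0 : 0 ≤ ((1 + h * q) * (2 * ez * ((Ce * E) * s)) +
        2 * ez * (k ^ 2 * (4 * Lm * s)) * Pk * (1 / 2) ^ q) * 8 ^ K := by
    positivity
  set a : ℝ := t ^ (1 - (k3 + d0 / 2)) with ha
  set b : ℝ := s ^ (5 / 4 : ℝ) with hb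
  set f : ℝ := r ^ (k3 + d0 / 2) with hf
  have ha0 : 0 ≤ a := Real.rpow_nonneg ht.le _
  have hb0 : 0 ≤ b := Real.rpow_nonneg hs.le _
  have hf0 : 0 ≤ f := Real.rpow_nonneg hr0.le _
  have hb2 : b ^ 2 = s ^ 2 * √s := by
    rw [hb, ← Real.rpow_natCast (s ^ (5 / 4 : ℝ)), ← Real.rpow_mul hs.le, Real.sqrt_eq_rpow,
      ← Real.rpow_natCast s 2, ← Real.rpow_add hs]
    norm_num
  have hE2 : (E ^ (1 / 2 : ℝ)) ^ 2 = E := by
    rw [← Real.sqrt_eq_rpow, Real.sq_sqrt hE0.le]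
  have hez2 : √ez ^ 2 = ez := Real.sq_sqrt hez
  have hta : t ^ (2 - 2 * k3) * Lm ≤ a ^ 2 := by
    rw [ha, hLm, ← Real.rpow_natCast (t ^ (1 - (k3 + d0 / 2))), ← Real.rpow_mul ht.le,
      ← Real.rpow_add ht]
    refine Real.rpow_le_rpow_of_exponent_ge ht ht1 ?_
    push_cast
    linarith
  have hrf : r ^ (2 * k3) ≤ f ^ 2 := by
    rw [hf, ← Real.rpow_natCast (r ^ (k3 + d0 / 2)), ← Real.rpow_mul hr0.le]
    refine Real.rpow_le_rpow_of_exponent_le hr ?_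
    push_cast
    linarith
  have hY : 4 * th ^ 2 * (CD * (Lm * s)) * (Pk * 8 ^ K) ≤
      16 * CD * Pk * (a ^ 2 * f ^ 2 * √s) * s * 8 ^ K := by
    rw [hth]
    have h1 : t ^ (2 - 2 * k3) * Lm * (√s * r ^ (2 * k3)) ≤ a ^ 2 * (√s * f ^ 2) := by
      refine mul_le_mul hta ?_ ?_ (sq_nonneg _)
      · exact mul_le_mul_of_nonneg_left hrf (Real.sqrt_nonneg _)
      · exact mul_nonneg (Real.sqrt_nonneg _) (Real.rpow_nonneg hr0.le _)
    have h2 : (0 : ℝ) ≤ 4 * CD * Pk * s * 8 ^ K := by positivity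
    have h3 := mul_le_mul_of_nonneg_left h1 h2
    have h4 : 0 ≤ CD * Pk * (a ^ 2 * f ^ 2 * √s) * s * 8 ^ K := by
      have := Real.sqrt_nonneg s
      positivity
    calc _ = 4 * CD * Pk * s * 8 ^ K * (t ^ (2 - 2 * k3) * Lm * (√s * r ^ (2 * k3))) := by ring
      _ ≤ 4 * CD * Pk * s * 8 ^ K * (a ^ 2 * (√s * f ^ 2)) := h3
      _ = 4 * (CD * Pk * (a ^ 2 * f ^ 2 * √s) * s * 8 ^ K) := by ring
      _ ≤ 16 * (CD * Pk * (a ^ 2 * f ^ 2 * √s) * s * 8 ^ K) := by linarith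
      _ = _ := by ring
  have hT0 : 0 ≤ (a * b * √ez * 8 ^ K) * f * (G ^ 1 * E ^ (1 / 2 : ℝ)) := by
    have : 0 ≤ E ^ (1 / 2 : ℝ) := Real.rpow_nonneg hE0.le _
    have hG0 : 0 ≤ G := by linarith
    have : 0 ≤ √ez := Real.sqrt_nonneg _
    positivity
  have hY0 : 0 ≤ 4 * th ^ 2 * (CD * (Lm * s)) * (Pk * 8 ^ K) := by positivity
  exact sqrt_step hX0 (by positivity : (0 : ℝ) ≤ 416 * Q0 * CD * Pk) hT0
    (xy_le hX hY hY0 hQ00 hez hCD hPk hs.le (Real.sqrt_nonneg s) hE0.le hG1 h8.le hb2 hE2 hez2)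

/-- **the exponents of one slot** -/
theorem fin0 {t r s ez c k3 e0 α : ℝ} (ht : 0 < t) (ht1 : t ≤ 1) (hr : 1 ≤ r) (hs : 0 < s)
    (he0 : 0 < e0) (hk3 : k3 ≤ e0 / 16) (hc : c ≤ e0 / 16) (hα : 1 ≤ α) (K : ℕ) :
    (t ^ (1 - (k3 + (e0 / 16) / 2)) * s ^ (5 / 4 : ℝ) * √ez * 8 ^ K) *
      r ^ (k3 + (e0 / 16) / 2) *
        ((1 + α * Real.log (r / t)) ^ 1 * (t ^ (-c) * (t / r) ^ e0) ^ (1 / 2 : ℝ)) ≤
    (1 + 16 * α / e0) * ((t ^ (1 + e0 / 8) * s ^ (5 / 4 : ℝ) * √ez * 8 ^ K) *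
      r ^ (-(e0 / 4))) := by
  have hr0 : 0 < r := by linarith
  have hρ : 1 ≤ r / t := by
    rw [le_div_iff₀ ht]
    linarith
  have hρ0 : 0 < r / t := by linarith
  have hG : 1 + α * Real.log (r / t) ≤ (1 + 16 * α / e0) * (r / t) ^ (e0 / 16) := by
    have h1 := Real.log_le_rpow_div hρ0.le (by positivity : 0 < e0 / 16)
    have h2 : 1 ≤ (r / t) ^ (e0 / 16) := Real.one_le_rpow hρ (by positivity)
    have h3 := mul_le_mul_of_nonneg_left h1 (by linarith : (0 : ℝ) ≤ α)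
    have e1 : α * ((r / t) ^ (e0 / 16) / (e0 / 16)) = 16 * α / e0 * (r / t) ^ (e0 / 16) := by
      field_simp
    rw [e1] at h3
    linarith
  have hsq : (t ^ (-c) * (t / r) ^ e0) ^ (1 / 2 : ℝ) = t ^ (-c / 2) * (t / r) ^ (e0 / 2) := by
    rw [Real.mul_rpow (Real.rpow_nonneg ht.le _) (Real.rpow_nonneg (by positivity) _),
      ← Real.rpow_mul ht.le, ← Real.rpow_mul (by positivity)]
    congr 2 <;> ring
  rw [hsq, pow_one]
  have htr : (r / t) ^ (e0 / 16) * (t / r) ^ (e0 / 2) = t ^ (7 * e0 / 16) * r ^ (-(7 * e0 / 16)) := by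
    have e3 : (r / t) ^ (e0 / 16) = r ^ (e0 / 16) * t ^ (-(e0 / 16)) := by
      rw [Real.div_rpow hr0.le ht.le, Real.rpow_neg ht.le]
      rfl
    have e4 : (t / r) ^ (e0 / 2) = t ^ (e0 / 2) * r ^ (-(e0 / 2)) := by
      rw [Real.div_rpow ht.le hr0.le, Real.rpow_neg hr0.le]
      rfl
    have e1 : t ^ (7 * e0 / 16) = t ^ (-(e0 / 16)) * t ^ (e0 / 2) := by
      rw [← Real.rpow_add ht]
      congr 1
      ring
    have e2 : r ^ (-(7 * e0 / 16)) = r ^ (e0 / 16) * r ^ (-(e0 / 2)) := by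
      rw [← Real.rpow_add hr0]
      congr 1
      ring
    rw [e1, e2, e3, e4]
    ring
  have ht2 : t ^ (1 - (k3 + (e0 / 16) / 2)) * (t ^ (-c / 2) * t ^ (7 * e0 / 16)) ≤
      t ^ (1 + e0 / 8) := by
    rw [← Real.rpow_add ht, ← Real.rpow_add ht]
    refine Real.rpow_le_rpow_of_exponent_ge ht ht1 ?_
    linarith
  have hr2 : r ^ (k3 + (e0 / 16) / 2) * r ^ (-(7 * e0 / 16)) ≤ r ^ (-(e0 / 4)) := by
    rw [← Real.rpow_add hr0]
    refine Real.rpow_le_rpow_of_exponent_le hr ?_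
    linarith
  have hsn : 0 ≤ s ^ (5 / 4 : ℝ) := Real.rpow_nonneg hs.le _
  have hzn : 0 ≤ √ez := Real.sqrt_nonneg _
  have w0 : 0 ≤ (t ^ (1 - (k3 + (e0 / 16) / 2)) * s ^ (5 / 4 : ℝ) * √ez * 8 ^ K) *
      r ^ (k3 + (e0 / 16) / 2) := by
    have := Real.rpow_nonneg ht.le (1 - (k3 + (e0 / 16) / 2))
    have := Real.rpow_nonneg hr0.le (k3 + (e0 / 16) / 2)
    positivity
  have w1 : 0 ≤ t ^ (-c / 2) * (t / r) ^ (e0 / 2) :=
    mul_nonneg (Real.rpow_nonneg ht.le _) (Real.rpow_nonneg (by positivity) _)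
  have hA : 0 ≤ 1 + 16 * α / e0 := by positivity
  have w2 : 0 ≤ (1 + 16 * α / e0) * (s ^ (5 / 4 : ℝ) * √ez * 8 ^ K) := by positivity
  calc _ ≤ (t ^ (1 - (k3 + (e0 / 16) / 2)) * s ^ (5 / 4 : ℝ) * √ez * 8 ^ K) *
        r ^ (k3 + (e0 / 16) / 2) * (((1 + 16 * α / e0) * (r / t) ^ (e0 / 16)) *
          (t ^ (-c / 2) * (t / r) ^ (e0 / 2))) :=
        mul_le_mul_of_nonneg_left (mul_le_mul_of_nonneg_right hG w1) w0
    _ = (1 + 16 * α / e0) * (s ^ (5 / 4 : ℝ) * √ez * 8 ^ K) *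
        (t ^ (1 - (k3 + (e0 / 16) / 2)) * t ^ (-c / 2) * r ^ (k3 + (e0 / 16) / 2) *
          ((r / t) ^ (e0 / 16) * (t / r) ^ (e0 / 2))) := by ring
    _ = (1 + 16 * α / e0) * (s ^ (5 / 4 : ℝ) * √ez * 8 ^ K) *
        ((t ^ (1 - (k3 + (e0 / 16) / 2)) * (t ^ (-c / 2) * t ^ (7 * e0 / 16))) *
          (r ^ (k3 + (e0 / 16) / 2) * r ^ (-(7 * e0 / 16)))) := by rw [htr]; ring
    _ ≤ (1 + 16 * α / e0) * (s ^ (5 / 4 : ℝ) * √ez * 8 ^ K) *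
        (t ^ (1 + e0 / 8) * r ^ (-(e0 / 4))) := by
        refine mul_le_mul_of_nonneg_left ?_ w2
        refine mul_le_mul ht2 hr2 ?_ (Real.rpow_nonneg ht.le _)
        exact mul_nonneg (Real.rpow_nonneg hr0.le _) (Real.rpow_nonneg hr0.le _)
    _ = _ := by ring

/-! ### The price -/

/-- **The price of a functional of slots**, all the moving slots with the cap
`(2 (r / t) ^ α) ^ 2` and the energy of the labels at the end. -/
def PartCap (α cE : ℝ) (D : Bun)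
    (T : ∀ (ι : Type) [Fintype ι] [DecidableEq ι], ℤ → ℕ → Pt → Slt ι → FamA → FamV ι → FamV ι →
      ℝ) : Prop :=
  PartX fun ι _ _ q n ez F1 F2 F3 o K x s r U g u v B =>
    ∀ (A : FamA) (b C : FamV ι), D ι q n ez F1 F2 F3 o K x s r U g u v A b C →
      ∀ R : Slt ι, SlCap K x u (q.lam s r) ((2 * (r / q.t) ^ α) ^ 2) cE R →
        T ι o K (cx K x) R A b C ≤ B

/-- **The births of every slot with a cap.** -/
theorem partCap_qB {α cE : ℝ} (hα : 1 ≤ α) (hcE : 0 ≤ cE) :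
    PartCap α cE FD fun _ι _ _ _o K M R A b C => qB K M R A b C := by
  intro a ha ha1
  refine ⟨1, one_pos, fun e0 he0 he0' => ⟨1, one_pos, fun k8 hk8 hk8' => ⟨e0 / 16, by positivity,
    fun k3 hk3 hk3' => ?_⟩⟩⟩
  refine ⟨e0 / 8, e0 / 16, e0 / 16, e0 / 4, by positivity, by positivity, by positivity,
    by positivity, fun c hc hcc d hd hdd Kt e cP L hK he hcP hL CD hCD => ?_⟩
  set h : ℕ := ⌈2 * (43 * (cP + 2))⌉₊ + 1 with hh
  have hPk : 0 ≤ 43 * (cP + 2) := by positivity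
  have hPh : 2 * (43 * (cP + 2)) ≤ (h : ℝ) := by
    rw [hh]
    push_cast
    have := Nat.le_ceil (2 * (43 * (cP + 2)))
    linarith
  refine ⟨126 * √(416 * ((1 + h) * (cE * (L / 2)) + 16 * (43 * (cP + 2))) * CD *
    (43 * (cP + 2))) * (1 + 16 * α / e0), by positivity, ?_⟩
  intro t ht ht1 n ez F1 F2 F3 h1 h3 h2 o ho K hKn x ι _ _ s r U g u v hs hr hcls A b C hD R hR
  obtain ⟨Q1, Q2, Q3, v', hD⟩ := hD
  set p : H401.Num := ⟨a, e0, k8, k3, c, d, Kt, e, cP, L, CD, t⟩ with hp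
  have hr0 : 0 < r := by linarith
  have hl : 0 < p.lam s r := H401.Num.lam_pos (p := p) ht hs hr
  have hm := m_eq' (q := p) (s := s) (r := r) ht hs hr
  have hez : 0 ≤ ez := h2.1
  have hd1 : d ≤ 1 := by linarith
  have hρ : 1 ≤ r / t := by
    rw [le_div_iff₀ ht]
    linarith
  have hρ0 : 0 < r / t := by linarith
  have hρα : r / t ≤ (r / t) ^ α := by
    have := Real.rpow_le_rpow_of_exponent_le hρ hα
    rwa [Real.rpow_one] at this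
  have hkρ : r / t ≤ 2 * (r / t) ^ α := by linarith
  have hk1 : 1 ≤ 2 * (r / t) ^ α := hρ.trans hkρ
  have hlρ : 0 ≤ Real.log (r / t) := Real.log_nonneg hρ
  obtain ⟨m, hm1, hm2⟩ := exists_two_pow hk1
  have hlog : Real.log (2 * (r / t) ^ α) = Real.log 2 + α * Real.log (r / t) := by
    rw [Real.log_mul (by norm_num) (Real.rpow_pos_of_pos hρ0 _).ne', Real.log_rpow hρ0]
  have hqG : 1 + (m : ℝ) ≤ 13 * (1 + α * Real.log (r / t)) := by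
    rw [hlog] at hm2
    have := Real.log_two_lt_d9
    linarith
  have hG1 : 1 ≤ 1 + α * Real.log (r / t) := by
    have : 0 ≤ α * Real.log (r / t) := by positivity
    linarith
  have hEk : ((2 * (r / t) ^ α) ^ 6)⁻¹ ≤ t ^ (-c) * (t / r) ^ e0 := by
    have q1 : ((2 * (r / t) ^ α) ^ 6)⁻¹ ≤ ((r / t) ^ 6)⁻¹ :=
      inv_anti₀ (by positivity) (pow_le_pow_left₀ hρ0.le hkρ 6)
    have q2 : (1 : ℝ) ≤ t ^ (-c) := Real.one_le_rpow_of_pos_of_le_one_of_nonpos ht ht1 (by linarith)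
    have q3 : (t / r) ^ (1 : ℝ) ≤ (t / r) ^ e0 := by
      refine Real.rpow_le_rpow_of_exponent_ge (div_pos ht hr0) ?_ he0'
      rw [div_le_one hr0]
      linarith
    rw [Real.rpow_one] at q3
    have q4 : ((r / t) ^ 6)⁻¹ ≤ t / r := by
      have h4 : (r / t) ≤ (r / t) ^ 6 := le_self_pow₀ hρ (by norm_num)
      have h5 : ((r / t) ^ 6)⁻¹ ≤ (r / t)⁻¹ := inv_anti₀ hρ0 h4
      rwa [inv_div] at h5
    have q6 : 0 ≤ (t / r) ^ e0 := Real.rpow_nonneg (by positivity) _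
    calc ((2 * (r / t) ^ α) ^ 6)⁻¹ ≤ ((r / t) ^ 6)⁻¹ := q1
      _ ≤ t / r := q4
      _ ≤ (t / r) ^ e0 := q3
      _ ≤ t ^ (-c) * (t / r) ^ e0 := le_mul_of_one_le_left q6 q2
  have hLm : 0 ≤ p.Lm := (Real.rpow_pos_of_pos ht _).le
  have hCDn : 0 ≤ p.CD * (p.Lm * s) := by
    have : 0 ≤ p.CD := by
      show 0 ≤ CD
      linarith
    positivity
  have hP : 0 ≤ L * t ^ (2 - c) * √s := by positivity
  have key := qB_FDs hD hcls hKn hez hLm hCDn hcP hl hP (sq_nonneg _) hcE hR (hh := h) (by omega)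
    hPh m
  have e1 : cE * (L * t ^ (2 - c) * √s / (2 * p.lam s r)) * s =
      (cE * (L / 2)) * (t ^ (-c) * (t / r) ^ e0) * s := by
    have hm' : L * t ^ (2 - c) * √s / (2 * p.lam s r) = L / 2 * (t ^ (-c) * (t / r) ^ e0) := hm
    rw [hm']
    ring
  rw [e1] at key
  refine key.trans ?_
  have k2 := num_gen (t := t) (r := r) (s := s) (ez := ez) (CD := CD) (Lm := p.Lm)
    (th := p.th s r) (Ce := cE * (L / 2)) (Pk := 43 * (cP + 2)) (d := d) (k3 := k3)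
    (d0 := e0 / 16) (k := 2 * (r / t) ^ α) (E := t ^ (-c) * (t / r) ^ e0)
    (G := 1 + α * Real.log (r / t)) (h := h) (q := m) ht ht1 hr hs hez (by linarith)
    (by positivity) hPk hdd hd1 rfl (H401.Num.th_sq (p := p) ht hs hr) (by positivity) hkρ hEk
    hG1 hm1 hqG K
  refine k2.trans ?_
  have k4 := fin0 (s := s) (ez := ez) ht ht1 hr hs he0 hk3' hcc hα K
  have k5 := mul_le_mul_of_nonneg_left k4 (by positivity : (0 : ℝ) ≤ 126 * √(416 * ((1 + h) *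
    (cE * (L / 2)) + 16 * (43 * (cP + 2))) * CD * (43 * (cP + 2))))
  refine k5.trans (le_of_eq ?_)
  ring

end

end Vale.Agent.P141.H944.RowB
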