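import Vale.Agent.P141.H460.AffK
import Vale.Agent.P141.H540.GenRA

/-!
# P141, line (A), births: the energy of a capped slot at the affected nodes

* `slot_alive` : `H460.slot_aff` with the local mass asked only at the affected nodes which carry
  the scalar factor;
* `fC_gen` : the energy of `R C` at the affected nodes, `C = fC v Z`, any slot `R` which is a
  martingale in `x0` with the cap `κ`, local mass `μ` of `v` at the nodes which carry `Z`;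
* `fC_RG` : the same for the generation `g` of `H540.RG`.
-/

namespace Vale.Agent.P141.H944.SlotA

open Finset Matrix
open Vale.Agent.P141.PL (Pt iv ix cb cx mem_iv mem_cb)
open Vale.Agent.P141.H460

noncomputable section

open scoped Classical

set_option linter.unusedSectionVars false

section gen

variable {κ : Type*} [Fintype κ]

/-- **The moving slot at the affected nodes**, local mass only where the factor lives. -/
theorem slot_alive {A : ℕ → Pt → Prop} {K : ℕ} {M : Pt} {P : ℝ} (hp : LPack A K M P) (hP : 0 ≤ P)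
    {h : ℕ} (hh : 1 ≤ h) (hPh : 2 * P ≤ h) (q : ℕ) {L τ : ℝ} (hL : 0 ≤ L) (hτ : 0 ≤ τ)
    {Z : ℕ → Pt → ℝ} (hZ : Lin K L Z) {V : ℤ → ℤ → ℕ → ℤ → κ → ℝ} (hV : ∀ x1 x3, Mrt K (V x1 x3))
    (hτm : ∀ k ≤ K, ∀ x ∈ cb K M, A k (cx k x) → (∃ y ∈ cb k (cx k x), Z k y ≠ 0) →
      ∑ y1 ∈ iv k (ix k x.2.1), ∑ y3 ∈ iv k (ix k x.2.2),
        (V y1 y3 k (ix k x.1) ⬝ᵥ V y1 y3 k (ix k x.1)) ≤ τ * 4 ^ k) :
    ∑ k ∈ range (K + 1), ∑ x ∈ cb K M, (if A k (cx k x) then Z k x ^ 2 *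
      (V x.2.1 x.2.2 k (ix k x.1) ⬝ᵥ V x.2.1 x.2.2 k (ix k x.1)) else 0) ≤
      (1 + h * q) * ∑ x ∈ cb K M, L * (V x.2.1 x.2.2 0 x.1 ⬝ᵥ V x.2.1 x.2.2 0 x.1) +
        L * τ * P * (1 / 2) ^ q * 8 ^ K := by
  refine tree_aff hp hP hh hPh q (mul_nonneg hL hτ) (fun k x => Z k x ^ 2 *
      (V x.2.1 x.2.2 k (ix k x.1) ⬝ᵥ V x.2.1 x.2.2 k (ix k x.1)))
    (fun x => L * (V x.2.1 x.2.2 0 x.1 ⬝ᵥ V x.2.1 x.2.2 0 x.1))
    (fun x _ => mul_nonneg hL (nsq_nonneg _)) ?_ ?_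
  · intro k hk x _ _
    refine (slot_cell hZ V hk (cx k x)).trans ?_
    have e : ∑ y ∈ cb k (cx k x), L * (V y.2.1 y.2.2 0 y.1 ⬝ᵥ V y.2.1 y.2.2 0 y.1) =
        ∑ y1 ∈ iv k (cx k x).2.1, ∑ y3 ∈ iv k (cx k x).2.2,
          L * ∑ y0 ∈ iv k (cx k x).1, (V y1 y3 0 y0 ⬝ᵥ V y1 y3 0 y0) := by
      unfold PL.cb
      rw [sum_product]
      simp only [sum_product]
      rw [sum_comm]
      refine sum_congr rfl fun y1 _ => ?_
      rw [sum_comm]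
      refine sum_congr rfl fun y3 _ => ?_
      rw [← mul_sum]
    rw [e]
    refine sum_le_sum fun y1 _ => sum_le_sum fun y3 _ => ?_
    exact mul_le_mul_of_nonneg_left (jensen (hV y1 y3) hk _) hL
  · intro k hk x hx ha
    by_cases hz : ∃ y ∈ cb k (cx k x), Z k y ≠ 0
    · refine (slot_cell hZ V hk (cx k x)).trans ?_
      have h1 := hτm k hk x hx ha hz
      have e : ∑ y1 ∈ iv k (cx k x).2.1, ∑ y3 ∈ iv k (cx k x).2.2,
          L * (2 ^ k * (V y1 y3 k (cx k x).1 ⬝ᵥ V y1 y3 k (cx k x).1)) =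
          L * (2 ^ k * ∑ y1 ∈ iv k (ix k x.2.1), ∑ y3 ∈ iv k (ix k x.2.2),
            (V y1 y3 k (ix k x.1) ⬝ᵥ V y1 y3 k (ix k x.1))) := by
        simp only [mul_sum]
        rfl
      rw [e, show (8 : ℝ) ^ k = 2 ^ k * 4 ^ k by rw [← mul_pow]; norm_num]
      calc L * (2 ^ k * ∑ y1 ∈ iv k (ix k x.2.1), ∑ y3 ∈ iv k (ix k x.2.2),
            (V y1 y3 k (ix k x.1) ⬝ᵥ V y1 y3 k (ix k x.1))) ≤ L * (2 ^ k * (τ * 4 ^ k)) :=
            mul_le_mul_of_nonneg_left (mul_le_mul_of_nonneg_left h1 (by positivity)) hL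
        _ = L * τ * (2 ^ k * 4 ^ k) := by ring
    · have h0 : ∀ y ∈ cb k (cx k x), Z k y = 0 := fun y hy => by
        by_contra hne
        exact hz ⟨y, hy, hne⟩
      rw [sum_eq_zero fun y hy => by rw [h0 y hy]; ring]
      positivity

end gen

section slot

variable {ι : Type*} [Fintype ι] [DecidableEq ι]

/-- **The energy of a capped slot at the births**: `C = fC v Z`, `R x0 k z x` any slot which
depends on the cell of `x0` and is a martingale in `x0`. -/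
theorem fC_gen {K : ℕ} {n : ℕ} (hK : K ≤ n) (M : Pt) {R : ℤ → ℕ → ℤ → ℤ → Matrix ι ι ℝ}
    {v : ℤ → ℤ → ι → ℝ}
    (hRx : ∀ j x0 y0 x3 x1, ix j x0 = ix j y0 → R x0 j x3 x1 = R y0 j x3 x1)
    (hRm : ∀ x1 x3, Mrt K (fun j m => R (2 ^ j * m) j x3 x1 *ᵥ v x1 x3))
    {Z : ℕ → Pt → ℝ} {Af : ℕ → Pt → Prop} {o' : ℤ}
    {P : ℝ} (hP0 : 0 ≤ P) (hP : GPack Af K P) {e : ℝ} (he : 0 ≤ e)
    (hl0 : ∀ k < n, ∀ m x y : ℤ, ∑ z ∈ iv k m, Z (k + 1) (z, x, y) ^ 2 ≤ e * 2 ^ k)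
    (hz0 : Z 0 = 0) (t : ℤ) {h : ℕ} (hh : 1 ≤ h) (hPh : 2 * P ≤ h) (q : ℕ) {c μ : ℝ} (hc : 0 ≤ c)
    (hμ : 0 ≤ μ)
    (hcap : ∀ k ≤ K, ∀ x0 x3 x1 : ℤ, ∀ w : ι → ℝ,
      (R x0 k x3 x1 *ᵥ w) ⬝ᵥ (R x0 k x3 x1 *ᵥ w) ≤ c * (w ⬝ᵥ w))
    {b : ℕ} (hb : b ∈ range 2)
    (hv : ∀ k < K, ∀ x ∈ cb K (t, M.1, M.2.2), (∃ y ∈ cb k (cx k x), Z (k + b) y ≠ 0) →
      ∑ y1 ∈ iv k (ix k x.2.1), ∑ y3 ∈ iv k (ix k x.2.2), v y1 y3 ⬝ᵥ v y1 y3 ≤ μ * 4 ^ k) :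
    ∑ k ∈ range (K + 1), ∑ x ∈ cb K (t, M.1, M.2.2),
      (if fAR o' K M.2.1 Af k (cx k x) then
        (R x.1 k x.2.2 x.2.1 *ᵥ H677.fC v Z x.1 (k + b) x.2.2 x.2.1) ⬝ᵥ
        (R x.1 k x.2.2 x.2.1 *ᵥ H677.fC v Z x.1 (k + b) x.2.2 x.2.1) else 0) ≤
      (1 + h * q) * ∑ x ∈ cb K (t, M.1, M.2.2), 2 * e *
        ((R x.1 0 x.2.2 x.2.1 *ᵥ v x.2.1 x.2.2) ⬝ᵥ (R x.1 0 x.2.2 x.2.1 *ᵥ v x.2.1 x.2.2)) +
      2 * e * (c * μ) * P * (1 / 2) ^ q * 8 ^ K := by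
  have hb' := mem_range.1 hb
  have hL : Lin K (2 * e) (fun k x => if k < K then Z (k + b) x else 0) := by
    intro k hk m x1 x3
    have h2 : (0 : ℝ) ≤ 2 ^ k := by positivity
    have hpos : 0 ≤ 2 * e * 2 ^ k := by positivity
    rcases lt_or_ge k K with hkK | hkK
    · simp only [if_pos hkK]
      rcases Nat.eq_zero_or_pos (k + b) with h0 | h0
      · rw [h0, hz0]
        simpa using hpos
      · interval_cases b
        · rw [Nat.add_zero] at h0 ⊢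
          obtain ⟨j, rfl⟩ : ∃ j, k = j + 1 := ⟨k - 1, by omega⟩
          rw [iv_succ]
          have a1 := hl0 j (by omega) (2 * m) x1 x3
          have a2 := hl0 j (by omega) (2 * m + 1) x1 x3
          have h3 : (0 : ℝ) ≤ 2 ^ j := by positivity
          rw [pow_succ]
          nlinarith
        · refine (hl0 k (by omega) m x1 x3).trans ?_
          nlinarith
    · simp only [if_neg (not_lt.2 hkK)]
      simpa using hpos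
  have key := slot_alive (κ := ι)
    ((hP.lp (t, M.1, M.2.2)).mono (A' := fAR o' K M.2.1 Af) fun _ _ h => h.1)
    hP0 hh hPh q (by positivity : (0 : ℝ) ≤ 2 * e) (mul_nonneg hc hμ) hL
    (V := fun x1 x3 j m => R (2 ^ j * m) j x3 x1 *ᵥ v x1 x3) hRm (by
      intro k hk x hx ha hz
      obtain ⟨y, hy, hne⟩ := hz
      have hkK : k < K := ha.2.2
      simp only [if_pos hkK] at hne
      have h1 := hv k hkK x hx ⟨y, hy, hne⟩
      calc ∑ y1 ∈ iv k (ix k x.2.1), ∑ y3 ∈ iv k (ix k x.2.2),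
            ((R (2 ^ k * ix k x.1) k y3 y1 *ᵥ v y1 y3) ⬝ᵥ
              (R (2 ^ k * ix k x.1) k y3 y1 *ᵥ v y1 y3)) ≤
            ∑ y1 ∈ iv k (ix k x.2.1), ∑ y3 ∈ iv k (ix k x.2.2), c * (v y1 y3 ⬝ᵥ v y1 y3) :=
            sum_le_sum fun y1 _ => sum_le_sum fun y3 _ => hcap k hk _ _ _ _
        _ = c * ∑ y1 ∈ iv k (ix k x.2.1), ∑ y3 ∈ iv k (ix k x.2.2), v y1 y3 ⬝ᵥ v y1 y3 := by
            simp only [mul_sum]
        _ ≤ c * (μ * 4 ^ k) := mul_le_mul_of_nonneg_left h1 hc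
        _ = c * μ * 4 ^ k := by ring)
  have e0 : ∀ (k : ℕ) (x : Pt), R (2 ^ k * ix k x.1) k x.2.2 x.2.1 = R x.1 k x.2.2 x.2.1 :=
    fun k x => hRx k _ _ _ _ (H677.ix_two k _)
  have e00 : ∀ x : Pt, R (2 ^ 0 * x.1) 0 x.2.2 x.2.1 = R x.1 0 x.2.2 x.2.1 := fun x => by
    rw [pow_zero, one_mul]
  simp only [e0, e00] at key
  refine le_trans (le_of_eq ?_) key
  refine sum_congr rfl fun k _ => sum_congr rfl fun x _ => ?_
  split_ifs with h1 h2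
  · unfold H677.fC
    rw [mulVec_smul, smul_dotProduct, dotProduct_smul, smul_eq_mul, smul_eq_mul]
    ring
  · exact absurd h1.2.2 h2
  · rfl

open Vale.Agent.P141.H540 Vale.Agent.P141.H43 in
/-- **The energy of one generation at the births.** -/
theorem fC_RG {Al : ℕ → Pt → Prop} {o o' : ℤ} (ho : o = 1 ∨ o = -1) {K n : ℕ} (hK : K ≤ n) (M : Pt)
    {sg : ℕ → Pt → ℝ} (hsg : ∀ k m, |sg k m| ≤ 1) {l : ℝ} (hl : 0 < l) {u v : ℤ → ℤ → ι → ℝ}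
    {κ : ℕ → ℝ} (hκ : ∀ g, 0 < κ g) (g : ℕ)
    {Z : ℕ → Pt → ℝ} {Af : ℕ → Pt → Prop}
    {P : ℝ} (hP0 : 0 ≤ P) (hP : GPack Af K P) {e : ℝ} (he : 0 ≤ e)
    (hl0 : ∀ k < n, ∀ m x y : ℤ, ∑ z ∈ iv k m, Z (k + 1) (z, x, y) ^ 2 ≤ e * 2 ^ k)
    (hz0 : Z 0 = 0) (t : ℤ) {h : ℕ} (hh : 1 ≤ h) (hPh : 2 * P ≤ h) (q : ℕ) {μ : ℝ}
    (hμ : 0 ≤ μ) {b : ℕ} (hb : b ∈ range 2)
    (hv : ∀ k < K, ∀ x ∈ cb K (t, M.1, M.2.2), (∃ y ∈ cb k (cx k x), Z (k + b) y ≠ 0) →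
      ∑ y1 ∈ iv k (ix k x.2.1), ∑ y3 ∈ iv k (ix k x.2.2), v y1 y3 ⬝ᵥ v y1 y3 ≤ μ * 4 ^ k) :
    ∑ k ∈ range (K + 1), ∑ x ∈ cb K (t, M.1, M.2.2),
      (if fAR o' K M.2.1 Af k (cx k x) then
        (RG Al o K M sg l u κ g k x.1 x.2.2 x.2.1 *ᵥ H677.fC v Z x.1 (k + b) x.2.2 x.2.1) ⬝ᵥ
        (RG Al o K M sg l u κ g k x.1 x.2.2 x.2.1 *ᵥ H677.fC v Z x.1 (k + b) x.2.2 x.2.1)
        else 0) ≤
      (1 + h * q) * ∑ x ∈ cb K (t, M.1, M.2.2), 2 * e *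
        nsq (RG Al o K M sg l u κ g 0 x.1 x.2.2 x.2.1 *ᵥ v x.2.1 x.2.2) +
      2 * e * ((κ g + 1) ^ 2 * μ) * P * (1 / 2) ^ q * 8 ^ K := by
  refine fC_gen (R := fun x0 j x3 x1 => RG Al o K M sg l u κ g j x0 x3 x1) hK M ?_ ?_ hP0 hP he hl0
    hz0 t hh hPh q (by positivity) hμ ?_ hb hv
  · intro j x0 y0 x3 x1 hx
    unfold RG H841.Rm
    refine sum_congr rfl fun i hi => ?_
    have hi' := (mem_Ico.1 hi).1
    have a0 := H677.ix_le hi' hx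
    have b0 := H677.ix_le (Nat.le_succ i) a0
    unfold H841.Lm
    rw [b0, H677.hs_ix a0]
  · intro x1 x3
    exact Rm_mart0 (o := o) (x1 := x1) (n := K) (sgn Al o K M sg l u κ g x1)
      (H677.MT l (H677.KT l u x1)) x3 (v x1 x3)
  · intro k hk x0 x3 x1 w
    exact RG_cap hl ho hsg hκ g hk x0 x3 x1 w

end slot

end

end Vale.Agent.P141.H944.SlotA
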